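import Vale.Agent.P194.SC

/-!
P089: a countable group whose reduced C*-algebra holds a projection of irrational trace.

OVERVIEW. `Mon` = a sequence of 128-regular edge coloured expanders `U n` (colour `q` is the
involution `nx n q`) with a small cancellation labelling. `G = Gp Step` is the graphical group,
`f` develops each `U n` injectively in `G`. `X` is the compact group of all `x : G → Al` whose
restriction to every copy `c * f (U n)` is a word of a good code `Cd n`. Each `x` defines a graph on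
`G` (valid edges `Val`); its components are complete copies or uniformly non amenable. The limit of the
powers of the lazy walk operator is a projection in the reduced C*-algebra of `dual X ⋊ G`, of trace
`∑ n, (probability) / card (U n)`, irrational.
-/

namespace Vale.Agent.P089

open Vale.Agent.P194

/-- scale dependent small cancellation hypotheses -/
structure SC {S V : Type} (Step : V → S × Bool → V → Prop) (L : V → ℕ) : Prop where
  sym : ∀ v a v', Step v a v' → Step v' (linv a) v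
  det : ∀ v a v' v'', Step v a v' → Step v a v'' → v' = v''
  surj : ∀ a, ∃ v v', Step v a v'
  scale : ∀ v a v', Step v a v' → L v' = L v
  two : ∀ v, 2 ≤ L v
  piece : ∀ (p q : ℕ → V) (ℓ : ℕ → S × Bool), (∀ i < L (p 0), Step (p i) (ℓ i) (p (i + 1))) →
    (∀ i < L (p 0), Step (q i) (ℓ i) (q (i + 1))) →
    (∀ i, i + 1 < L (p 0) → ℓ (i + 1) ≠ linv (ℓ i)) → p 0 = q 0
  girth : ∀ (p : ℕ → V) (ℓ : ℕ → S × Bool) (n : ℕ), 0 < n →
    (∀ i < n, Step (p i) (ℓ i) (p (i + 1))) → (∀ i, i + 1 < n → ℓ (i + 1) ≠ linv (ℓ i)) →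
    p n = p 0 → 30 * L (p 0) ≤ n

/-- the height `h` drops by one along each letter of the word, starting from `z` -/
def Desc {S G : Type} [Group G] (γ : S × Bool → G) (h : G → ℕ) : G → List (S × Bool) → Prop
  | _, [] => True
  | z, a :: l => h (z * γ a) + 1 = h z ∧ Desc γ h (z * γ a) l

/-- the first `m` letters of `l` exist and can be read from `u` -/
def Rd {S V : Type} (Step : V → S × Bool → V → Prop) (u : V) (l : List (S × Bool)) (m : ℕ) : Prop :=
  m ≤ l.length ∧ ∃ u', Wk Step u (l.take m) u'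

/-- the walk from `v` along the colours `σ` -/
def walk {U Q : Type} (nx : Q → U → U) (σ : ℕ → Q) (v : U) : ℕ → U
  | 0 => v
  | i + 1 => nx (σ i) (walk nx σ v i)

/-- girth condition for an edge coloured graph -/
def Gir {U Q : Type} (nx : Q → U → U) (g : ℕ) : Prop :=
  ∀ (σ : ℕ → Q) (v : U) (n : ℕ), 0 < n → (∀ i, i + 1 < n → σ (i + 1) ≠ σ i) →
    walk nx σ v n = v → g ≤ n

/-- edge expansion -/
def Xp {U : Type} [Fintype U] [DecidableEq U] (nx : Fin 128 → U → U) : Prop :=
  ∀ F : Finset U, 2 * F.card ≤ Fintype.card U →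
    (Finset.univ.filter fun p : Fin 128 × U => p.2 ∈ F ∧ nx p.1 p.2 ∈ F).card ≤ 120 * F.card

/-- the labelled steps -/
def RStep {S : Type} {U : ℕ → Type} (prt : S → Fin 128) (nx : ∀ n, Fin 128 → U n → U n)
    (lt : ∀ n, Fin 128 → U n → S × Bool) (v : Σ n, U n) (a : S × Bool) (v' : Σ n, U n) : Prop :=
  lt v.1 (prt a.1) v.2 = a ∧ v' = ⟨v.1, nx v.1 (prt a.1) v.2⟩

/-- labelled expanders -/
structure Mon where
  S : Type
  [fS : Fintype S]
  [dS : DecidableEq S]
  [nS : Nonempty S]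
  prt : S → Fin 128
  U : ℕ → Type
  [fU : ∀ n, Fintype (U n)]
  [dU : ∀ n, DecidableEq (U n)]
  nx : ∀ n, Fin 128 → U n → U n
  lt : ∀ n, Fin 128 → U n → S × Bool
  L : ℕ → ℕ
  nx_nx : ∀ n q v, nx n q (nx n q v) = v
  lt_nx : ∀ n q v, lt n q (nx n q v) = linv (lt n q v)
  prt_lt : ∀ n q v, prt (lt n q v).1 = q
  sc : SC (RStep prt nx lt) (fun v => L v.1)
  xp : ∀ n, Xp (nx n)
  small : ∀ n, 4 * 129 ^ (3 * L n) ≤ Fintype.card (U n)
  grow : ∀ n, Fintype.card (U n) ^ ((Fintype.card (U n) + 2) ^ 2) ≤ Fintype.card (U (n + 1))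

attribute [instance] Mon.fS Mon.dS Mon.nS Mon.fU Mon.dU

namespace Mon

variable (M : Mon)

/-- all vertices -/
abbrev V : Type := Σ n, M.U n

/-- steps -/
abbrev Step : M.V → M.S × Bool → M.V → Prop := RStep M.prt M.nx M.lt

/-- the graphical group -/
abbrev G : Type := Gp M.Step

/-- generators -/
abbrev γ (a : M.S × Bool) : M.G := gen M.Step a

/-- the alphabet -/
abbrev Al (r : ℕ) : Type := (Fin 128 → M.S × Bool → ZMod 2) × (Fin r → ZMod 2)

/-- the pattern of a complete copy -/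
def ell (r n : ℕ) (v : M.U n) : M.Al r := (fun q => Pi.single (M.lt n q v) 1, 0)

/-- valid edges of a configuration -/
def Val {r : ℕ} (x : M.G → M.Al r) (z : M.G) (a : M.S × Bool) : Prop :=
  (x z).2 = 0 ∧ (x z).1 (M.prt a.1) = Pi.single a 1 ∧
    (x (z * M.γ a)).2 = 0 ∧ (x (z * M.γ a)).1 (M.prt a.1) = Pi.single (linv a) 1

end Mon

/-- the geometric structure of the Cayley graph: a developing map, a spanning tree `t`, the relation
`Fol z v` (the tree geodesic from `z` follows the graph from `v` for a long time), and a rank of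
copies -/
structure Geo (M : Mon) where
  f : M.V → M.G
  t : M.G → M.S × Bool
  Fol : M.G → M.V → Prop
  rk : M.G → ℕ → ℕ
  f_step : ∀ v a v', M.Step v a v' → f v' = f v * M.γ a
  f_inj : ∀ n, Function.Injective fun u : M.U n => f ⟨n, u⟩
  uniq : ∀ z v v', Fol z v → Fol z v' → v = v'
  edge : ∀ z a, a = t z ∨ linv a = t (z * M.γ a) ∨
    ∃ u u', M.Step u a u' ∧ Fol z u ∧ Fol (z * M.γ a) u'
  few : ∀ c n (B : Finset (M.U n)), (∀ v ∈ B, ¬ Fol (c * f ⟨n, v⟩) ⟨n, v⟩) →
    4 * B.card ≤ Fintype.card (M.U n)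
  ord : ∀ c n v, ¬ Fol (c * f ⟨n, v⟩) ⟨n, v⟩ → ∀ v', Fol (c * f ⟨n, v⟩) v' →
    rk (c * f ⟨n, v⟩ * (f v')⁻¹) v'.1 < rk c n
  base : ∀ n v, rk (f ⟨n, v⟩)⁻¹ n = 0

/-- all the data -/
structure Dat where
  M : Mon
  g : Geo M
  r : ℕ
  Cd : ∀ n, AddSubgroup (M.U n → M.Al r)
  ell_mem : ∀ n, M.ell r n ∈ Cd n
  dist : ∀ n, ∀ c ∈ Cd n, 2 * (Finset.univ.filter fun v => (c v).2 = 0).card ≤ Fintype.card (M.U n) ∨
    c = 0 ∨ c = M.ell r n
  ext : ∀ n (B : Finset (M.U n)), 4 * B.card ≤ Fintype.card (M.U n) →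
    ∀ y : M.U n → M.Al r, ∃ c ∈ Cd n, ∀ v ∈ B, c v = y v

namespace Dat

variable (d : Dat)

/-- the algebraic subshift -/
def X : AddSubgroup (d.M.G → d.M.Al d.r) where
  carrier := {x | ∀ c n, (fun v => x (c * d.g.f ⟨n, v⟩)) ∈ d.Cd n}
  add_mem' := fun ha hb c n => (d.Cd n).add_mem (ha c n) (hb c n)
  zero_mem' := fun _ n => (d.Cd n).zero_mem
  neg_mem' := fun ha c n => (d.Cd n).neg_mem (ha c n)

/-- complete copies -/
def Cpl (x : d.M.G → d.M.Al d.r) (c : d.M.G) (n : ℕ) : Prop :=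
  ∀ v, x (c * d.g.f ⟨n, v⟩) = d.M.ell d.r n v

open Classical in
/-- the complete copy through `z`, or the empty set -/
noncomputable def cl (x : d.M.G → d.M.Al d.r) (z : d.M.G) : Finset d.M.G :=
  if h : ∃ v : d.M.V, d.Cpl x (z * (d.g.f v)⁻¹) v.1 then
    Finset.univ.image fun u : d.M.U h.choose.1 => z * (d.g.f h.choose)⁻¹ * d.g.f ⟨h.choose.1, u⟩
  else ∅

end Dat

open Classical in
/-- the lazy walk operator of a graph given by letters -/
noncomputable def lazy {Z Λ : Type} [Fintype Λ] (val : Z → Λ → Prop) (mv : Z → Λ → Z)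
    (f : Z → ℂ) (z : Z) : ℂ :=
  f z / 2 + (∑ a, if val z a then f (mv z a) else 0) / 256

end Vale.Agent.P089
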