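import Vale.Agent.P089.Sw
import Vale.Agent.P089.Basic

/-!
Expanders of large girth.

PLAN. `N = 129 ^ (31 L)`, `g = 30 L`, `N' = N - 4 * 129 ^ g`, so `17 N ≤ 18 N'`. `U = Bool × Fin N`,
`nx q (false, x) = (true, ω q x)`, `nx q (true, y) = (false, (ω q)⁻¹ y)`. `Gir` follows from `Gi` (edge of
step `i` is `(σ i, tail, head)`; consecutive edges differ since the colours differ).
For `F` with `m = card F ≤ N`, `m ≥ 1`, sides `U₀, U₁` of sizes `s₀ + s₁ = m`, the count in `Xp` is `2 Z`,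
`Z = #{(q, x) ∈ univ × U₀ | ω q x ∈ U₁} ≤ 128 min s₀ s₁`. Bad means `Z > 60 m`, forcing
`32 s₀, 32 s₁ ≤ 17 m`. With `β = m / N`, `α = s₁ / N' ≤ (9/16) β`, `t = 16 / (3 β)`:
`∑_{ω of girth g} (1 + t) ^ Z = ∑_{T ⊆ univ × U₀} t ^ #T * #{ω | T maps into U₁} ≤ #Ω (1 + t α) ^ (128 s₀)
≤ #Ω 4 ^ (68 m)` (`Finset.prod_one_add` / `Finset.sum_pow_mul_eq_add_pow`, `cond_le`), so
`#bad(F) ≤ #Ω 4 ^ (68 m) / t ^ (60 m)`. The number of `F` of size `m` is
`choose (2 N) m ≤ (2N)^m / m! ≤ (6 / β) ^ m` (`m ^ m ≤ 3 ^ m m!`). Product: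
`(4^68 3^60 6 β^59 / 16^60) ^ m ≤ (1/50) ^ m`; the sum over `m ≥ 1` is `< 1`.
-/

namespace Vale.Agent.P089

open Equiv Vale.Agent.P201 Finset

variable {F : Type} [Fintype F] [DecidableEq F]

/-- the bipartite graph of a family of permutations -/
def nxo (ω : Fin 128 → Perm F) (q : Fin 128) : Bool × F → Bool × F
  | (false, x) => (true, ω q x)
  | (true, y) => (false, (ω q).symm y)

omit [Fintype F] [DecidableEq F] in
theorem gir_of_gi {ω : Fin 128 → Perm F} {g : ℕ} (H : Gi tl hd g ω) : Gir (nxo ω) g := by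
  intro σ v n h0 hσ hc
  by_contra hn
  let ed : Fin 128 → Bool × F → Fin 128 × F × F := fun q u =>
    match u with
    | (false, x) => (q, x, ω q x)
    | (true, y) => (q, (ω q).symm y, y)
  have h1 : ∀ q u, Lk tl hd u (ed q u) (nxo ω q u) := by
    rintro q ⟨_ | _, x⟩
    · exact Or.inl ⟨rfl, rfl⟩
    · exact Or.inr ⟨rfl, rfl⟩
  have h2 : ∀ q u, In ω (ed q u) := by
    rintro q ⟨_ | _, x⟩
    · rfl
    · exact (ω q).apply_symm_apply x
  have h3 : ∀ q u, (ed q u).1 = q := by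
    rintro q ⟨_ | _, x⟩ <;> rfl
  refine H (walk (nxo ω) σ v) (fun i => ed (σ i) (walk (nxo ω) σ v i)) n
    ⟨fun i _ => h1 _ _, fun i _ => h2 _ _, fun i hi h => hσ i hi ?_⟩ h0 (not_le.1 hn) hc
  have := congrArg Prod.fst h
  rwa [h3, h3] at this

/-- the edges between two sets -/
def Zs (ω : Fin 128 → Perm F) (U₀ U₁ : Finset F) : Finset (Fin 128 × F) :=
  (univ ×ˢ U₀).filter fun p => ω p.1 p.2 ∈ U₁

/-- one side of a set -/
def side (b : Bool) (A : Finset (Bool × F)) : Finset F := univ.filter fun x => (b, x) ∈ A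

theorem count_le (ω : Fin 128 → Perm F) (A : Finset (Bool × F)) :
    (univ.filter fun p : Fin 128 × (Bool × F) => p.2 ∈ A ∧ nxo ω p.1 p.2 ∈ A).card ≤
      2 * (Zs ω (side false A) (side true A)).card := by
  refine le_trans (card_le_card (t :=
    (Zs ω (side false A) (side true A)).image (fun p => (p.1, (false, p.2))) ∪
    (Zs ω (side false A) (side true A)).image (fun p => (p.1, (true, ω p.1 p.2)))) ?_) ?_
  · rintro ⟨q, _ | _, x⟩ hp
    · refine mem_union_left _ (mem_image.2 ⟨(q, x), ?_, rfl⟩)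
      simpa [Zs, side, nxo] using (mem_filter.1 hp).2
    · refine mem_union_right _ (mem_image.2 ⟨(q, (ω q).symm x), ?_, by simp⟩)
      simpa [Zs, side, nxo, and_comm] using (mem_filter.1 hp).2
  · refine (card_union_le _ _).trans ((add_le_add card_image_le card_image_le).trans ?_)
    omega

theorem side_add (A : Finset (Bool × F)) : (side false A).card + (side true A).card ≤ A.card := by
  rw [← card_image_of_injective (side false A) (Prod.mk_right_injective false),
    ← card_image_of_injective (side true A) (Prod.mk_right_injective true),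
    ← card_union_of_disjoint]
  · refine card_le_card fun p hp => ?_
    simp only [mem_union, mem_image, side, mem_filter, mem_univ, true_and] at hp
    rcases hp with ⟨x, hx, rfl⟩ | ⟨x, hx, rfl⟩ <;> exact hx
  · refine disjoint_left.2 fun p h1 h2 => ?_
    obtain ⟨x, -, rfl⟩ := mem_image.1 h1
    obtain ⟨y, -, h⟩ := mem_image.1 h2
    simp at h

theorem Zs_le (ω : Fin 128 → Perm F) (U₀ U₁ : Finset F) :
    (Zs ω U₀ U₁).card ≤ 128 * U₀.card ∧ (Zs ω U₀ U₁).card ≤ 128 * U₁.card := by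
  constructor
  · exact (card_filter_le _ _).trans (by simp)
  · refine le_trans (card_le_card_of_injOn (t := univ ×ˢ U₁) (fun p => (p.1, ω p.1 p.2))
      (fun p hp => ?_) fun p _ p' _ h => ?_) (by simp)
    · simpa using (mem_filter.1 hp).2
    · obtain ⟨h1, h2⟩ := Prod.ext_iff.1 h
      simp only at h1 h2
      rw [← h1] at h2
      exact Prod.ext h1 ((ω p.1).injective h2)

open Classical in
/-- configurations of large girth -/
noncomputable def Og (F : Type) [Fintype F] [DecidableEq F] (g : ℕ) : Finset (Fin 128 → Perm F) :=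
  univ.filter fun ω => Gi tl hd g ω

theorem moment (g N' : ℕ) (hN : N' + 4 * 129 ^ g ≤ Fintype.card F) (h0 : 0 < N') (U₀ U₁ : Finset F)
    (hU : U₁.card ≤ N') {t : ℝ} (ht : 0 ≤ t) :
    ∑ ω ∈ Og F g, (1 + t) ^ (Zs ω U₀ U₁).card ≤
      (Og F g).card * (t * (U₁.card / N') + 1) ^ (128 * U₀.card) := by
  classical
  have e1 : ∀ ω : Fin 128 → Perm F, (1 + t) ^ (Zs ω U₀ U₁).card =
      ∑ T ∈ (univ ×ˢ U₀ : Finset (Fin 128 × F)).powerset,
        if ∀ p ∈ T, ω p.1 p.2 ∈ U₁ then t ^ T.card else 0 := fun ω => by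
    rw [← prod_const, prod_one_add, ← sum_filter]
    refine sum_congr ?_ fun T _ => prod_const _
    ext T
    simp only [Zs, mem_powerset, mem_filter, subset_iff]
    exact ⟨fun h => ⟨fun p hp => (h hp).1, fun p hp => (h hp).2⟩, fun h p hp => ⟨h.1 hp, h.2 p hp⟩⟩
  have e2 : 128 * U₀.card = (univ ×ˢ U₀ : Finset (Fin 128 × F)).card := by simp
  simp only [e1]
  rw [sum_comm, e2, ← sum_pow_mul_eq_add_pow, mul_sum]
  refine sum_le_sum fun T _ => ?_
  have h1 := cond_le (Q := Fin 128) g N' (by simpa using hN) U₁ hU T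
  have h2 : (((Og F g).filter fun ω => ∀ p ∈ T, ω p.1 p.2 ∈ U₁).card : ℝ) * (N' : ℝ) ^ T.card ≤
      (Og F g).card * (U₁.card : ℝ) ^ T.card := by
    rw [Og, filter_filter]
    exact_mod_cast h1
  have h3 : (0 : ℝ) < (N' : ℝ) ^ T.card := by positivity
  rw [← sum_filter, sum_const, nsmul_eq_mul, one_pow, mul_one, mul_pow, div_pow, mul_left_comm,
    mul_comm]
  refine mul_le_mul_of_nonneg_left ?_ (by positivity)
  rwa [← mul_div_assoc, le_div_iff₀ h3]

/-- bad configurations for a set -/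
noncomputable def bad (g : ℕ) (A : Finset (Bool × F)) : Finset (Fin 128 → Perm F) :=
  (Og F g).filter fun ω => 60 * A.card < (Zs ω (side false A) (side true A)).card

theorem bad_le (g N' : ℕ) (hN : N' + 4 * 129 ^ g ≤ Fintype.card F)
    (h17 : 17 * Fintype.card F ≤ 18 * N') (A : Finset (Bool × F)) (h1 : 1 ≤ A.card)
    (h2 : A.card ≤ Fintype.card F) : ((bad g A).card : ℝ) ≤
      (Og F g).card * (4 ^ 68 * (3 * (A.card / Fintype.card F : ℝ) / 16) ^ 60) ^ A.card := by
  rcases (bad g A).eq_empty_or_nonempty with h | ⟨ω₀, h⟩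
  · rw [h, card_empty, Nat.cast_zero]
    positivity
  have h3 := (mem_filter.1 h).2
  have h4 := Zs_le ω₀ (side false A) (side true A)
  have h5 := side_add A
  obtain ⟨m, hm⟩ : ∃ m, m = A.card := ⟨_, rfl⟩
  obtain ⟨N, hN'⟩ : ∃ N, N = Fintype.card F := ⟨_, rfl⟩
  have hm0 : (0 : ℝ) < m := by exact_mod_cast (by omega : 0 < m)
  have hN0 : (0 : ℝ) < N := by exact_mod_cast (by omega : 0 < N)
  have hN1 : (0 : ℝ) < N' := by exact_mod_cast (by omega : 0 < N')
  obtain ⟨t, ht⟩ : ∃ t : ℝ, t = 16 * N / (3 * m) := ⟨_, rfl⟩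
  have ht0 : 0 < t := by rw [ht]; positivity
  have h6 := moment g N' hN (by omega) (side false A) (side true A) (by omega) ht0.le
  have h7 : ((bad g A).card : ℝ) * t ^ (60 * m) ≤
      ∑ ω ∈ Og F g, (1 + t) ^ (Zs ω (side false A) (side true A)).card := by
    refine le_trans ?_ (sum_le_sum_of_subset_of_nonneg (filter_subset _ _ : bad g A ⊆ _)
      fun _ _ _ => by positivity)
    rw [← nsmul_eq_mul]
    refine card_nsmul_le_sum _ _ _ fun ω hω => ?_
    refine (pow_le_pow_left₀ ht0.le (by linarith : t ≤ 1 + t) _).trans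
      (pow_le_pow_right₀ (by linarith) ?_)
    have := (mem_filter.1 hω).2
    omega
  have h8 : t * ((side true A).card / N') + 1 ≤ 4 := by
    have a1 : (32 : ℝ) * (side true A).card ≤ 17 * m := by exact_mod_cast (by omega)
    have a2 : (17 : ℝ) * N ≤ 18 * N' := by exact_mod_cast (by omega)
    have a3 : (0 : ℝ) ≤ (side true A).card := Nat.cast_nonneg _
    rw [ht, div_mul_div_comm, ← le_sub_iff_add_le, div_le_iff₀ (by positivity)]
    nlinarith [mul_le_mul a1 a2 (by positivity) (by positivity)]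
  have h9 : (t * ((side true A).card / N') + 1) ^ (128 * (side false A).card) ≤ 4 ^ (68 * m) :=
    (pow_le_pow_left₀ (by positivity) h8 _).trans (pow_le_pow_right₀ (by norm_num) (by omega))
  have h10 := h7.trans (h6.trans (mul_le_mul_of_nonneg_left h9 (Nat.cast_nonneg _)))
  have e : (3 * (m / N : ℝ) / 16) = t⁻¹ := by
    rw [ht]
    field_simp
  rw [← hm, ← hN', e, mul_pow, ← pow_mul, ← pow_mul, inv_pow, ← mul_assoc, ← div_eq_mul_inv,
    le_div_iff₀ (by positivity)]
  exact h10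

theorem term_le {N m : ℕ} (h1 : 1 ≤ m) (h2 : m ≤ N) :
    ((2 * N).choose m : ℝ) * (4 ^ 68 * (3 * (m / N : ℝ) / 16) ^ 60) ^ m ≤ (1 / 50) ^ m := by
  have hm0 : (0 : ℝ) < m := by exact_mod_cast h1
  have hN0 : (0 : ℝ) < N := by exact_mod_cast (by omega : 0 < N)
  have hβ : (m / N : ℝ) ≤ 1 := (div_le_one hN0).2 (by exact_mod_cast h2)
  have a1 : ((2 * N).choose m : ℝ) ≤ (6 / (m / N : ℝ)) ^ m := by
    have b1 := Nat.choose_le_pow_div (α := ℝ) m (2 * N)
    have b2 := Real.pow_div_factorial_le_exp (m : ℝ) hm0.le m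
    have b3 : Real.exp m ≤ 3 ^ m := by
      rw [← Real.exp_one_pow]
      exact pow_le_pow_left₀ (Real.exp_pos _).le (Real.exp_one_lt_d9.le.trans (by norm_num)) _
    have e : (6 / (m / N : ℝ)) ^ m = (2 * N / m : ℝ) ^ m * 3 ^ m := by
      rw [← mul_pow]
      congr 1
      field_simp
      norm_num
    have e2 : (((2 * N : ℕ) : ℝ)) ^ m / (m.factorial : ℝ) =
        (2 * N / m : ℝ) ^ m * ((m : ℝ) ^ m / m.factorial) := by
      rw [div_pow]
      push_cast
      field_simp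
    rw [e]
    refine b1.trans (e2.le.trans (mul_le_mul_of_nonneg_left (b2.trans b3) (by positivity)))
  refine (mul_le_mul_of_nonneg_right a1 (by positivity)).trans ?_
  rw [← mul_pow]
  refine pow_le_pow_left₀ (by positivity) ?_ _
  obtain ⟨β, hb⟩ : ∃ β : ℝ, β = m / N := ⟨_, rfl⟩
  have hβ0 : 0 < β := by rw [hb]; positivity
  rw [← hb] at hβ ⊢
  have e : 6 / β * (4 ^ 68 * (3 * β / 16) ^ 60) = 6 * 4 ^ 68 * (3 / 16) ^ 60 * β ^ 59 := by
    field_simp
  rw [e]
  exact (mul_le_of_le_one_right (by positivity) (pow_le_one₀ hβ0.le hβ)).trans (by norm_num)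

theorem geom_lt (N : ℕ) : ∑ m ∈ range N, (1 / 50 : ℝ) ^ (m + 1) = (1 - (1 / 50) ^ N) / 49 := by
  induction N with
  | zero => simp
  | succ N ih =>
    rw [sum_range_succ, ih, pow_succ]
    ring

theorem exists_good (g N' : ℕ) (hN : N' + 4 * 129 ^ g ≤ Fintype.card F)
    (h17 : 17 * Fintype.card F ≤ 18 * N') : ∃ ω : Fin 128 → Perm F, Gi tl hd g ω ∧ Xp (nxo ω) := by
  classical
  have h0 : 0 < 129 ^ g := by positivity
  obtain ⟨ω₀, h₀⟩ := exists_gi (Q := Fin 128) (F := F) g (by simp only [Fintype.card_fin, Nat.reduceAdd]; omega)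
  have h1 : (0 : ℝ) < (Og F g).card := by
    exact_mod_cast card_pos.2 ⟨ω₀, mem_filter.2 ⟨mem_univ _, h₀⟩⟩
  let B := (range (Fintype.card F)).biUnion fun m =>
    (powersetCard (m + 1) (univ : Finset (Bool × F))).biUnion (bad g)
  have h2 : (B.card : ℝ) ≤ (Og F g).card * ∑ m ∈ range (Fintype.card F), (1 / 50 : ℝ) ^ (m + 1) := by
    rw [mul_sum]
    refine (Nat.cast_le.2 card_biUnion_le).trans ?_
    push_cast
    refine sum_le_sum fun m hm => (Nat.cast_le.2 card_biUnion_le).trans ?_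
    push_cast
    have h3 := mem_range.1 hm
    refine le_trans (sum_le_card_nsmul _ _ ((Og F g).card *
      (4 ^ 68 * (3 * (((m + 1 : ℕ) : ℝ) / Fintype.card F) / 16) ^ 60) ^ (m + 1)) fun A hA => ?_) ?_
    · have h4 := (mem_powersetCard.1 hA).2
      rw [← h4]
      exact bad_le g N' hN h17 A (by omega) (by omega)
    · rw [nsmul_eq_mul, mul_left_comm, card_powersetCard, card_univ, Fintype.card_prod,
        Fintype.card_bool]
      exact mul_le_mul_of_nonneg_left (term_le (by omega) (by omega)) h1.le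
  have h3 : B.card < (Og F g).card := by
    rw [geom_lt] at h2
    have : (0 : ℝ) ≤ (1 / 50) ^ Fintype.card F := by positivity
    exact_mod_cast (by nlinarith : (B.card : ℝ) < (Og F g).card)
  obtain ⟨ω, h4, h5⟩ := exists_mem_notMem_of_card_lt_card h3
  refine ⟨ω, (mem_filter.1 h4).2, fun A hA => ?_⟩
  rcases A.eq_empty_or_nonempty with rfl | hne
  · simp
  have h6 := card_pos.2 hne
  rw [Fintype.card_prod, Fintype.card_bool] at hA
  have h7 : ω ∉ bad g A := fun h => h5 (mem_biUnion.2 ⟨A.card - 1, mem_range.2 (by omega),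
    mem_biUnion.2 ⟨A, mem_powersetCard.2 ⟨subset_univ _, by omega⟩, h⟩⟩)
  have h8 : ¬ _ := fun h => h7 (mem_filter.2 ⟨h4, h⟩)
  have h9 := count_le ω A
  omega

theorem exists_expander (L : ℕ) (hL : 1 ≤ L) :
    ∃ nx : Fin 128 → Bool × Fin (129 ^ (31 * L)) → Bool × Fin (129 ^ (31 * L)),
      (∀ q v, nx q (nx q v) = v) ∧ (∀ q v, (nx q v).1 = !v.1) ∧ Gir nx (30 * L) ∧ Xp nx := by
  have h1 : 129 ≤ 129 ^ L := by simpa using Nat.pow_le_pow_right (by norm_num : 0 < 129) hL
  have h2 : 129 ^ (31 * L) = 129 ^ (30 * L) * 129 ^ L := by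
    rw [← pow_add]
    congr 1
    omega
  have h3 := Nat.mul_le_mul_left (129 ^ (30 * L)) h1
  obtain ⟨ω, h4, h5⟩ := exists_good (F := Fin (129 ^ (31 * L))) (30 * L)
    (129 ^ (31 * L) - 4 * 129 ^ (30 * L)) (by rw [Fintype.card_fin]; omega)
    (by rw [Fintype.card_fin]; omega)
  refine ⟨nxo ω, ?_, ?_, gir_of_gi h4, h5⟩
  · rintro q ⟨_ | _, x⟩ <;> simp [nxo]
  · rintro q ⟨_ | _, x⟩ <;> rfl

end Vale.Agent.P089
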