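import Vale.Agent.P089.Basic

/-!
Every copy is complete for some configuration; structure of complete copies; isoperimetric inequality.

PLAN `ext`. Base copy `(c₀, n) = ((f ⟨n, v⟩)⁻¹, n)`. For a copy `(c, m)` let `B c m` = vertices `u` with
`¬ Fol (c * f ⟨m, u⟩) ⟨m, u⟩`; `E c m y` = a codeword agreeing with `y` on `B c m`, depending only on `y` on `B c m` (apply
choice to `y` zeroed off `B`), and `E c₀ n y = ell`. `x₀ z = ell n u` if `z = c₀ * f ⟨n, u⟩` (`f_inj`), else `0`.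
`x (j+1) z = E (z * (f v')⁻¹) v'.1 (fun u => x j (z * (f v')⁻¹ * f ⟨v'.1, u⟩)) v'.2` if `Fol z v'` (unique), else `x₀ z`.
With `ρ z = rk (z * (f v')⁻¹) v'.1 + 1` (or `0`), `x j z = x (ρ z) z` for `j ≥ ρ z` (strong induction on `ρ z`, by `ord`).
The limit is in `X`; on the base copy the points of `B` have no `Fol` at all (`ord`, `base`), so there the limit is `x₀ = ell`.

PLAN `cpl_uniq`: walk along alternating colours `0, 1, 0, ..` from both `v`, `v'`; the letters agree since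
`Pi.single a 1` determines `a` and both walks sit at the same group elements; use `sc.piece`.
PLAN `iso`: split by `edge`: pairs with `a = t z` (at most `#F`), pairs with `linv a = t (z * γ a)` (inject by
`(z, a) ↦ z * γ a`), and the others, grouped by the copy `(z * (f u)⁻¹, u.1)`. For a copy `(c, n)` let
`F_c = {u | c * f u ∈ F, Fol (c * f u) u, (x (c * f u)).2 = 0}`. By `dist`: small zero set, or the codeword is `0` (then no
valid edge: `Pi.single a 1 ≠ 0`), or the copy is complete (then `cl` is the copy, use the hypothesis); so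
`xp` bounds the pairs by `120 * #F_c`, and `∑ #F_c ≤ #F` by `uniq`.
-/

namespace Vale.Agent.P089

open Vale.Agent.P194

theorem exists_fix {Z A : Type} [Inhabited A] (ρ : Z → ℕ) (F : (Z → A) → Z → A)
    (hF : ∀ x y z, (∀ w, ρ w < ρ z → x w = y w) → F x z = F y z) : ∃ x, ∀ z, x z = F x z := by
  have hw : WellFounded fun a b : Z => ρ a < ρ b := (measure ρ).wf
  refine ⟨hw.fix fun z ih => F (fun w => if h : ρ w < ρ z then ih w h else default) z, fun z => ?_⟩
  rw [hw.fix_eq]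
  exact hF _ _ z fun w h => dif_pos h

namespace Dat

variable (d : Dat)

theorem exists_E (c : d.M.G) (m : ℕ) : ∃ E : (d.M.U m → d.M.Al d.r) → d.M.U m → d.M.Al d.r,
    (∀ y, E y ∈ d.Cd m) ∧
    (∀ y y', (∀ u, ¬ d.g.Fol (c * d.g.f ⟨m, u⟩) ⟨m, u⟩ → y u = y' u) → E y = E y') ∧
    ∀ y u, ¬ d.g.Fol (c * d.g.f ⟨m, u⟩) ⟨m, u⟩ → E y u = y u := by
  classical
  choose E h1 h2 using d.ext m (Finset.univ.filter fun u => ¬ d.g.Fol (c * d.g.f ⟨m, u⟩) ⟨m, u⟩)
    (d.g.few c m _ fun u hu => (Finset.mem_filter.1 hu).2)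
  refine ⟨fun y => E fun u => if d.g.Fol (c * d.g.f ⟨m, u⟩) ⟨m, u⟩ then 0 else y u,
    fun y => h1 _, fun y y' h => ?_, fun y u hu => ?_⟩
  · refine congrArg E (funext fun u => ?_)
    split_ifs with hu
    · rfl
    · exact h u hu
  · exact (h2 _ u (Finset.mem_filter.2 ⟨Finset.mem_univ _, hu⟩)).trans (if_neg hu)

theorem exists_cpl (v : d.M.V) : ∃ x ∈ d.X, d.Cpl x (d.g.f v)⁻¹ v.1 := by
  classical
  choose E₀ h1 h2 h3 using d.exists_E
  let E : ∀ (_ : d.M.G) (m : ℕ), (d.M.U m → d.M.Al d.r) → d.M.U m → d.M.Al d.r := fun c m y =>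
    if c = (d.g.f v)⁻¹ ∧ m = v.1 then d.M.ell d.r m else E₀ c m y
  let x₀ : d.M.G → d.M.Al d.r := fun z =>
    if h : ∃ u, z = (d.g.f v)⁻¹ * d.g.f ⟨v.1, u⟩ then d.M.ell d.r v.1 h.choose else 0
  let K : (d.M.G → d.M.Al d.r) → d.M.G → d.M.V → d.M.Al d.r := fun x z w =>
    E (z * (d.g.f w)⁻¹) w.1 (fun u => x (z * (d.g.f w)⁻¹ * d.g.f ⟨w.1, u⟩)) w.2
  let ρ : d.M.G → ℕ := fun z =>
    if h : ∃ w, d.g.Fol z w then d.g.rk (z * (d.g.f h.choose)⁻¹) h.choose.1 + 1 else 0
  obtain ⟨x, hx⟩ := exists_fix ρ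
    (fun x z => if h : ∃ w, d.g.Fol z w then K x z h.choose else x₀ z) (by
      intro x y z hxy
      by_cases h : ∃ w, d.g.Fol z w
      · simp only [dif_pos h, K, E]
        split_ifs
        · rfl
        · refine congrFun (h2 _ _ _ _ fun u hu => hxy _ ?_) _
          simp only [ρ, dif_pos h]
          split_ifs with h'
          · exact Nat.succ_lt_succ (d.g.ord _ _ _ hu _ h'.choose_spec)
          · exact Nat.succ_pos _
      · simp only [dif_neg h])
  have key : ∀ c m, (fun u => x (c * d.g.f ⟨m, u⟩)) = E c m fun u => x (c * d.g.f ⟨m, u⟩) := by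
    intro c m
    funext u
    by_cases hu : d.g.Fol (c * d.g.f ⟨m, u⟩) ⟨m, u⟩
    · have h : ∃ w, d.g.Fol (c * d.g.f ⟨m, u⟩) w := ⟨_, hu⟩
      rw [hx, dif_pos h, d.g.uniq _ _ _ h.choose_spec hu]
      simp only [K, mul_inv_cancel_right]
    · simp only [E]
      split_ifs with hb
      · obtain ⟨rfl, rfl⟩ := hb
        have h : ¬ ∃ w, d.g.Fol ((d.g.f v)⁻¹ * d.g.f ⟨v.1, u⟩) w := by
          rintro ⟨w, hw⟩
          have := d.g.ord _ _ _ hu _ hw
          rw [d.g.base v.1 v.2] at this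
          exact Nat.not_lt_zero _ this
        have h' : ∃ u', (d.g.f v)⁻¹ * d.g.f ⟨v.1, u⟩ = (d.g.f v)⁻¹ * d.g.f ⟨v.1, u'⟩ := ⟨u, rfl⟩
        rw [hx, dif_neg h]
        simp only [x₀, dif_pos h']
        rw [← d.g.f_inj v.1 (mul_left_cancel h'.choose_spec)]
      · exact (h3 c m (fun u => x (c * d.g.f ⟨m, u⟩)) u hu).symm
  refine ⟨x, fun c m => ?_, fun u => ?_⟩
  · rw [key]
    simp only [E]
    split_ifs
    · exact d.ell_mem m
    · exact h1 _ _ _
  · have := congrFun (key (d.g.f v)⁻¹ v.1) u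
    simpa only [E, and_self, if_true] using this

end Dat

end Vale.Agent.P089
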