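import Mathlib

/-!
From a spectral gap on finitely supported functions to a projection.

PLAN. For `g : Γ` let `lam g : H →L[ℂ] H` be the isometry with `lam g (δ h) = δ (g * h)` (see `Vale/Agent/P086/Group.lean`, or
`δ.repr.trans (P191.reidx ..) ..` from `P191/L2.lean`). `m = ∑ i, c i • lam (g i)`. For `v : H`,
`δ.repr (m v) = act c g (δ.repr v)` as functions. For `v` in the span of the `δ h` (dense) the bound gives
`‖(m^(j+1) - m^j) v‖² ≤ C ρ^j ‖v‖²` (`lp.hasSum_norm`, bound on all finite partial sums), so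
`‖m^(j+1) - m^j‖ ≤ √C (√ρ)^j` and `m^j` is Cauchy (`cauchySeq_of_le_geometric`), with limit `p`;
`p * p = lim m^(2j) = p`; `m` is self-adjoint by `hsym` (check `⟪m δ a, δ b⟫ = ⟪δ a, m δ b⟫`, or regroup the sum);
the powers lie in the span because the set of the `lam g` is closed under products and contains `1`.
-/

open scoped InnerProductSpace

namespace Vale.Agent.P089

/-- left convolution by `∑ c i • g i` -/
def act {Γ I : Type} [Group Γ] [Fintype I] (c : I → ℂ) (g : I → Γ) (ξ : Γ → ℂ) (a : Γ) : ℂ :=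
  ∑ i, c i * ξ ((g i)⁻¹ * a)

section

variable {Γ H : Type} [Group Γ] [NormedAddCommGroup H] [InnerProductSpace ℂ H] [CompleteSpace H]
  (δ : HilbertBasis Γ ℂ H)

theorem exists_lam (g : Γ) : ∃ T : H →L[ℂ] H, (∀ b, T (δ b) = δ (g * b)) ∧
    ∀ a v, ⟪δ a, T v⟫_ℂ = ⟪δ (g⁻¹ * a), v⟫_ℂ := by
  classical
  let δ' : HilbertBasis Γ ℂ H := HilbertBasis.mk (v := fun b => δ (g * b))
    (δ.orthonormal.comp _ (mul_right_injective g)) (by
      rw [show (Set.range fun b => δ (g * b)) = Set.range δ from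
        (Equiv.mulLeft g).surjective.range_comp δ, δ.dense_span])
  let e := δ.repr.trans δ'.repr.symm
  have h : ∀ b, e (δ b) = δ (g * b) := fun b => by
    simp only [e, LinearIsometryEquiv.trans_apply, δ.repr_self, δ'.repr_symm_single]
    simp [δ']
  refine ⟨e.toContinuousLinearEquiv, h, fun a v => ?_⟩
  rw [← e.inner_map_map (δ (g⁻¹ * a)), h, mul_inv_cancel_left]
  rfl

omit [Group Γ] in
theorem ext_basis {T S : H →L[ℂ] H} (h : ∀ a b, ⟪δ a, T (δ b)⟫_ℂ = ⟪δ a, S (δ b)⟫_ℂ) : T = S := by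
  refine ContinuousLinearMap.ext_on (s := Set.range δ)
    (Submodule.dense_iff_topologicalClosure_eq_top.2 δ.dense_span) ?_
  rintro _ ⟨b, rfl⟩
  refine δ.repr.injective (lp.ext (funext fun a => ?_))
  rw [δ.repr_apply_apply, δ.repr_apply_apply, h]

omit [Group Γ] [CompleteSpace H] in
theorem hasSum_sq (w : H) : HasSum (fun a => ‖⟪δ a, w⟫_ℂ‖ ^ 2) (‖w‖ ^ 2) := by
  have h := Complex.hasSum_re (δ.hasSum_inner_mul_inner w w)
  rw [inner_self_eq_norm_sq_to_K] at h
  have e : ∀ a, (⟪w, δ a⟫_ℂ * ⟪δ a, w⟫_ℂ).re = ‖⟪δ a, w⟫_ℂ‖ ^ 2 := fun a => by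
    rw [← inner_conj_symm w, Complex.conj_mul']
    norm_cast
  simp only [e] at h
  exact_mod_cast h

end

open Filter Topology in
open Classical in
theorem exists_proj {Γ I : Type} [Group Γ] [Fintype I] (c : I → ℂ) (g : I → Γ) (C ρ : ℝ) (t : ℂ)
    (h0 : 0 ≤ ρ) (h1 : ρ < 1)
    (hsym : ∀ a, act c g (Pi.single 1 1) a = (starRingEnd ℂ) (act c g (Pi.single 1 1) a⁻¹))
    (hb : ∀ (ξ : Γ → ℂ) (T : Finset Γ), (∀ a, a ∉ T → ξ a = 0) → ∀ (j : ℕ) (T' : Finset Γ),
      ∑ a ∈ T', ‖(act c g)^[j + 1] ξ a - (act c g)^[j] ξ a‖ ^ 2 ≤ C * ρ ^ j * ∑ a ∈ T, ‖ξ a‖ ^ 2)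
    (ht : Filter.Tendsto (fun j => (act c g)^[j] (Pi.single 1 1) 1) Filter.atTop (nhds t))
    (H : Type) [NormedAddCommGroup H] [InnerProductSpace ℂ H] [CompleteSpace H]
    (δ : HilbertBasis Γ ℂ H) :
    ∃ p ∈ closure (Submodule.span ℂ {T : H →L[ℂ] H | ∃ a, ∀ b, T (δ b) = δ (a * b)} :
        Set (H →L[ℂ] H)),
      IsStarProjection p ∧ ⟪δ 1, p (δ 1)⟫_ℂ = t := by
  choose lam l1 l2 using exists_lam δ
  let m : H →L[ℂ] H := ∑ i, c i • lam (g i)
  have m1 : ∀ v, (fun a => ⟪δ a, m v⟫_ℂ) = act c g fun a => ⟪δ a, v⟫_ℂ := fun v => by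
    ext a
    simp [m, act, inner_sum, inner_smul_right, l2]
  have m2 : ∀ j v, (fun a => ⟪δ a, (m ^ j) v⟫_ℂ) = (act c g)^[j] fun a => ⟪δ a, v⟫_ℂ := fun j v => by
    induction j with
    | zero => rfl
    | succ j ih =>
      rw [Function.iterate_succ_apply', ← ih, ← m1, pow_succ']
      rfl
  have o : ∀ a b, ⟪δ a, δ b⟫_ℂ = if a = b then 1 else 0 := orthonormal_iff_ite.1 δ.orthonormal
  have o1 : (fun a => ⟪δ a, δ 1⟫_ℂ) = Pi.single 1 1 := by
    ext a
    rw [o, Pi.single_apply]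
  have m3 : ∀ a b, ⟪δ a, m (δ b)⟫_ℂ = act c g (Pi.single 1 1) (a * b⁻¹) := fun a b => by
    rw [congrFun (m1 (δ b)) a]
    refine Finset.sum_congr rfl fun i _ => ?_
    simp only [o, Pi.single_apply, ← mul_assoc, mul_inv_eq_one]
  have m4 : IsSelfAdjoint m := ext_basis δ fun a b => by
    rw [ContinuousLinearMap.star_eq_adjoint, ContinuousLinearMap.adjoint_inner_right,
      ← inner_conj_symm, m3, m3, hsym (a * b⁻¹), mul_inv_rev, inv_inv]
  have m5 : ∀ j, dist (m ^ j) (m ^ (j + 1)) ≤ √|C| * √ρ ^ j := fun j => by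
    rw [dist_comm, dist_eq_norm]
    refine ContinuousLinearMap.opNorm_le_bound _ (by positivity) fun v => ?_
    have hc : IsClosed {v : H | ‖(m ^ (j + 1) - m ^ j) v‖ ≤ √|C| * √ρ ^ j * ‖v‖} :=
      isClosed_le (by fun_prop) (by fun_prop)
    refine closure_minimal (s := (Submodule.span ℂ (Set.range δ) : Set H)) (fun v hv => ?_) hc
      (Submodule.dense_iff_topologicalClosure_eq_top.2 δ.dense_span v)
    rw [← Finsupp.range_linearCombination] at hv
    obtain ⟨l, rfl⟩ := hv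
    set v := Finsupp.linearCombination ℂ δ l
    have e : ∀ a, ⟪δ a, v⟫_ℂ = l a := δ.orthonormal.inner_right_finsupp l
    refine (pow_le_pow_iff_left₀ (norm_nonneg _) (by positivity) two_ne_zero).1
      (hasSum_le_of_sum_le (hasSum_sq δ _) fun T' => ?_)
    have h := hb (fun a => ⟪δ a, v⟫_ℂ) l.support
      (fun a ha => by rw [e, Finsupp.notMem_support_iff.1 ha]) j T'
    simp only [← m2] at h
    simp only [ContinuousLinearMap.sub_apply, inner_sub_right]
    refine h.trans ?_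
    rw [mul_pow, mul_pow, Real.sq_sqrt (abs_nonneg C), ← pow_mul, mul_comm j 2, pow_mul,
      Real.sq_sqrt h0]
    exact mul_le_mul (mul_le_mul_of_nonneg_right (le_abs_self C) (by positivity))
      (δ.orthonormal.sum_inner_products_le v) (by positivity) (by positivity)
  obtain ⟨p, hp⟩ := cauchySeq_tendsto_of_complete (cauchySeq_of_le_geometric (√ρ) (√|C|)
    ((Real.sqrt_lt' one_pos).2 (by simpa using h1)) m5)
  refine ⟨p, mem_closure_of_tendsto hp (.of_forall fun j => ?_), ⟨?_, ?_⟩, ?_⟩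
  · induction j with
    | zero => exact Submodule.subset_span ⟨1, fun b => by simp⟩
    | succ j ih =>
      have k : ∀ a, ∀ T ∈ Submodule.span ℂ {T : H →L[ℂ] H | ∃ a, ∀ b, T (δ b) = δ (a * b)},
          lam a * T ∈ Submodule.span ℂ {T : H →L[ℂ] H | ∃ a, ∀ b, T (δ b) = δ (a * b)} := by
        intro a T hT
        induction hT using Submodule.span_induction with
        | mem T h =>
          obtain ⟨a', h⟩ := h
          exact Submodule.subset_span ⟨a * a', fun b => by
            rw [ContinuousLinearMap.mul_apply, h, l1, mul_assoc]⟩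
        | zero => simp
        | add T S _ _ h1 h2 => rw [mul_add]; exact add_mem h1 h2
        | smul c T _ h => rw [mul_smul_comm]; exact Submodule.smul_mem _ _ h
      rw [pow_succ', show m * m ^ j = ∑ i, c i • (lam (g i) * m ^ j) by
        simp only [← smul_mul_assoc, ← Finset.sum_mul, m]]
      exact Submodule.sum_mem _ fun i _ => Submodule.smul_mem _ _ (k _ _ ih)
  · refine tendsto_nhds_unique (hp.mul hp) ((hp.comp (tendsto_atTop_mono
      (g := fun j => j + j) (fun j => Nat.le_add_right j j) tendsto_id)).congr fun j => ?_)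
    exact pow_add m j j
  · exact tendsto_nhds_unique hp.star (hp.congr fun j => (m4.pow j).star_eq.symm)
  · refine tendsto_nhds_unique (tendsto_const_nhds.inner
      (((ContinuousLinearMap.apply ℂ H (δ 1)).continuous.tendsto p).comp hp)) (ht.congr fun j => ?_)
    rw [← o1, ← m2]
    rfl

end Vale.Agent.P089
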