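import Vale.Agent.P089.Basic
import Vale.Agent.P089.Op
import Vale.Agent.P089.FourAux

/-!
Fourier transform along the dual of the subshift.

PLAN. `sh z : X →+ X`, `sh z x = fun s => x (z * s)`, so `sh z (sh w x) = sh (w * z) x`. `B` = subgroup of `AddChar X ℂ` of
the characters `ψ ∘ (restriction to J)`, `J : Finset G`, `ψ : AddChar (J → A) ℂ` (equivalently: depending on finitely many
coordinates); it is countable; its elements are measurable of modulus one, `conj ψ = ψ⁻¹`, and `∫ ψ = 0` unless `ψ = 1`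
(translate by `x₀` with `ψ x₀ ≠ 1`). `G` acts on `B` by `(h • b) x = b (sh h x)`; `Γ = B ⋊ G` (`SemidirectProduct`;
`AddChar` is a multiplicative `CommGroup`; mind the `Additive`-style instances, a hand made group on `B × G` is fine too).
For finitely supported `ξ : Γ → ℂ` put `fib ξ x z = ∑ b, ξ (b, z⁻¹) * b (sh z x)` (finsum, or a sum over a finite set).
Then (1) left translation by `(b₀, h)` gives `fib (..) x z = b₀ (sh z x) * fib ξ x (z * h)`;
(2) Parseval `∑ a, conj (ξ a) * η a = ∫ ∑ z, conj (fib ξ x z) * fib η x z`.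
Expand the indicator of `val₀ a` in characters (`AddChar.complexBasis (J → A)`): `1[val₀ a x] = ∑ ψ, c a ψ * ψ (x|J)`. The family is
indexed by `Option (Σ a, AddChar (J a → A) ℂ)` : `none ↦ (1/2, 1)`, `(a, ψ) ↦ (c a ψ / 256, (ψ, γ a))`. Then
`fib (act c g ξ) x = lazy .. (fib ξ x)`. The three conclusions follow from Parseval (`fib δ₁ x = δ₁`); symmetry from the
symmetry of `lazy` under the involution of valid pairs.
-/

open MeasureTheory

namespace Vale.Agent.P089

open Classical in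
theorem lazy_smul {Z Λ : Type} [Fintype Λ] (val : Z → Λ → Prop) (mv : Z → Λ → Z) (w z : Z) (t : ℂ) :
    lazy val mv (fun v => if v = w then t else 0) z =
      t * (((if z = w then 1 / 2 else 0) +
        ((Finset.univ.filter fun a => val z a ∧ mv z a = w).card : ℝ) / 256 : ℝ) : ℂ) := by
  have : ∑ a, (if val z a then (if mv z a = w then t else 0) else 0) =
      t * (Finset.univ.filter fun a => val z a ∧ mv z a = w).card := by
    simp only [← ite_and]
    rw [← Finset.sum_filter, Finset.sum_const, nsmul_eq_mul, mul_comm]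
  rw [lazy, this]
  split_ifs <;> push_cast <;> ring

open Classical in
theorem four {G A Λ : Type} [Group G] [Countable G] [AddCommGroup A] [Fintype A]
    [MeasurableSpace A] [MeasurableSingletonClass A] [Fintype Λ]
    (X : AddSubgroup (G → A)) (hX : ∀ z, ∀ x ∈ X, (fun s => x (z * s)) ∈ X)
    (μ : Measure X) [IsProbabilityMeasure μ] [μ.IsAddLeftInvariant]
    (γ : Λ → G) (ι : Λ → Λ) (val : (G → A) → G → Λ → Prop)
    (hsh : ∀ x z a, val x z a ↔ val (fun s => x (z * s)) 1 a)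
    (hloc : ∀ a, ∃ J : Finset G, ∀ x y, (∀ s ∈ J, x s = y s) → val x 1 a → val y 1 a)
    (hι : ∀ a, ι (ι a) = a) (hγ : ∀ a, γ (ι a) = (γ a)⁻¹)
    (hsym : ∀ x z a, val x z a → val x (z * γ a) (ι a))
    (C ρ : ℝ) (h0 : 0 ≤ ρ) (h1 : ρ < 1)
    (hb : ∀ x ∈ X, ∀ (f : G → ℂ) (T : Finset G), (∀ z, z ∉ T → f z = 0) → ∀ (j : ℕ) (T' : Finset G),
      ∑ z ∈ T', ‖(lazy (val x) fun z a => z * γ a)^[j + 1] f z -
        (lazy (val x) fun z a => z * γ a)^[j] f z‖ ^ 2 ≤ C * ρ ^ j * ∑ z ∈ T, ‖f z‖ ^ 2)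
    (π : X → ℝ) (hπ : Integrable π μ)
    (hl : ∀ (x : X) (j : ℕ),
      ‖(lazy (val x) fun z a => z * γ a)^[j] (Pi.single 1 1) 1 - π x‖ ^ 2 ≤ ρ ^ j) :
    ∃ (Γ I : Type) (_ : Group Γ) (_ : Countable Γ) (_ : Fintype I) (c : I → ℂ) (g : I → Γ),
      (∀ a, act c g (Pi.single 1 1) a = (starRingEnd ℂ) (act c g (Pi.single 1 1) a⁻¹)) ∧
      (∀ (ξ : Γ → ℂ) (T : Finset Γ), (∀ a, a ∉ T → ξ a = 0) → ∀ (j : ℕ) (T' : Finset Γ),
        ∑ a ∈ T', ‖(act c g)^[j + 1] ξ a - (act c g)^[j] ξ a‖ ^ 2 ≤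
          C * ρ ^ j * ∑ a ∈ T, ‖ξ a‖ ^ 2) ∧
      Filter.Tendsto (fun j => (act c g)^[j] (Pi.single 1 1) 1) Filter.atTop
        (nhds ((∫ x, π x ∂μ : ℝ) : ℂ)) := by
  let _ : DecidableEq (Fo.Gam X hX) := fun a b => Classical.propDecidable (a = b)
  choose J hJ using hloc
  let F : ∀ a, (J a → A) → ℂ := fun a y =>
    if ∃ x : G → A, (fun s : J a => x s) = y ∧ val x 1 a then 1 else 0
  have hF : ∀ a (x : G → A), F a (fun s => x s) = if val x 1 a then 1 else 0 := fun a x =>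
    if_congr ⟨fun ⟨y, h, hy⟩ => hJ a y x (fun s hs => congrFun h ⟨s, hs⟩) hy,
      fun h => ⟨x, rfl, h⟩⟩ rfl rfl
  let res : ∀ a, X →+ (J a → A) := fun a =>
    { toFun := fun x s => x.1 s, map_zero' := rfl, map_add' := fun _ _ => rfl }
  let c : Option (Σ a, AddChar (J a → A) ℂ) → ℂ := fun i =>
    i.elim (1 / 2) fun p => (AddChar.complexBasis (J p.1 → A)).repr (F p.1) p.2 / 256
  let g : Option (Σ a, AddChar (J a → A) ℂ) → Fo.Gam X hX := fun i =>
    i.elim 1 fun p => ⟨⟨p.2.compAddMonoidHom (res p.1), J p.1, fun x y h =>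
      congrArg p.2 (funext fun s => h s s.2)⟩, γ p.1⟩
  have key : ∀ (ξ : Fo.Gam X hX → ℂ) (T : Finset (Fo.Gam X hX)), (∀ a, a ∉ T → ξ a = 0) →
      ∃ T' : Finset (Fo.Gam X hX), (∀ a, a ∉ T' → act c g ξ a = 0) ∧ ∀ x : X,
        Fo.fib X hX (act c g ξ) x = lazy (val x) (fun z a => z * γ a) (Fo.fib X hX ξ x) := by
    intro ξ T hT
    let T' := Finset.univ.biUnion fun i => T.image (g i * ·)
    have h2 : ∀ i a, a ∉ T' → ξ ((g i)⁻¹ * a) = 0 := fun i a ha => hT _ fun h =>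
      ha (Finset.mem_biUnion.2 ⟨i, Finset.mem_univ _, Finset.mem_image.2 ⟨_, h, by simp⟩⟩)
    have h3 : ∀ a, a ∉ T' → act c g ξ a = 0 := fun a ha => by simp [act, h2 _ a ha]
    refine ⟨T', h3, fun x => funext fun z => ?_⟩
    have h4 : Fo.fib X hX (act c g ξ) x z = ∑ i, c i *
        ((g i).left.1 (Fo.sh X hX z x) * Fo.fib X hX ξ x (z * (g i).right)) := by
      rw [Fo.fib_eq h3]
      simp only [act, Finset.sum_mul]
      rw [Finset.sum_comm]
      refine Finset.sum_congr rfl fun i _ => ?_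
      rw [← Fo.fib_tr, Fo.fib_eq (h2 i), Finset.mul_sum]
      exact Finset.sum_congr rfl fun _ _ => mul_assoc _ _ _
    rw [h4, Fintype.sum_option, Fintype.sum_sigma, lazy, Finset.sum_div]
    refine congrArg₂ (· + ·) (by simp [c, g]; ring) (Finset.sum_congr rfl fun a _ => ?_)
    have h5 := congrFun ((AddChar.complexBasis (J a → A)).sum_repr (F a)) fun s => x.1 (z * s)
    rw [hF a fun s => x.1 (z * s)] at h5
    simp only [AddChar.complexBasis_apply, Finset.sum_apply, Pi.smul_apply, smul_eq_mul,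
      ← hsh] at h5
    have h6 : (if val x z a then Fo.fib X hX ξ x (z * γ a) else 0) =
        (if val x z a then 1 else 0) * Fo.fib X hX ξ x (z * γ a) := by split_ifs <;> simp
    rw [h6, ← h5, Finset.sum_mul, Finset.sum_div]
    refine Finset.sum_congr rfl fun ψ _ => ?_
    show _ / 256 * (ψ (fun s => x.1 (z * s)) * Fo.fib X hX ξ x (z * γ a)) = _
    ring
  have iter : ∀ (ξ : Fo.Gam X hX → ℂ) (T : Finset (Fo.Gam X hX)), (∀ a, a ∉ T → ξ a = 0) → ∀ j : ℕ,
      ∃ T' : Finset (Fo.Gam X hX), (∀ a, a ∉ T' → (act c g)^[j] ξ a = 0) ∧ ∀ x : X,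
        Fo.fib X hX ((act c g)^[j] ξ) x =
          (lazy (val x) fun z a => z * γ a)^[j] (Fo.fib X hX ξ x) := by
    intro ξ T hT j
    induction j with
    | zero => exact ⟨T, hT, fun _ => rfl⟩
    | succ j ih =>
      obtain ⟨T', h, h'⟩ := ih
      obtain ⟨T'', k, k'⟩ := key _ T' h
      simp only [Function.iterate_succ_apply']
      exact ⟨T'', k, fun x => by rw [k', h']⟩
  have sing : ∀ a b : Fo.Gam X hX, b ∉ ({a} : Finset _) → (Pi.single a 1 : _ → ℂ) b = 0 :=
    fun a b h => Pi.single_eq_of_ne (by simpa using h) _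
  have fs : ∀ (a : Fo.Gam X hX) (x : X), Fo.fib X hX (Pi.single a 1) x =
      fun v => if v = a.right⁻¹ then a.left.1 (Fo.sh X hX a.right⁻¹ x) else 0 := fun a x => by
    funext v
    rw [Fo.fib_eq (sing a), Finset.sum_singleton, Pi.single_eq_same, one_mul, Fo.fi]
    exact if_ctx_congr Iff.rfl (fun h => by rw [h]) fun _ => rfl
  have one : ∀ (η : Fo.Gam X hX → ℂ) (T : Finset (Fo.Gam X hX)), (∀ a, a ∉ T → η a = 0) →
      Integrable (fun x => Fo.fib X hX η x 1) μ ∧ ∫ x, Fo.fib X hX η x 1 ∂μ = η 1 :=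
    fun η T hT => by simpa [Fo.fi] using Fo.coef μ hT 1 1
  refine ⟨Fo.Gam X hX, _, inferInstance, Fo.countable_Gam X hX, inferInstance, c, g, fun a => ?_,
    fun ξ T hT j T' => ?_, ?_⟩
  · obtain ⟨T, hT, h⟩ := key _ _ (sing 1)
    obtain ⟨T', hT', h'⟩ := key _ _ (sing a)
    have e1 : act c g (Pi.single 1 1) a⁻¹ = act c g (Pi.single a 1) 1 := by
      refine Finset.sum_congr rfl fun i _ => ?_
      simp only [Pi.single_apply, mul_one, inv_mul_eq_one, inv_eq_iff_eq_inv]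
    have e2 := (Fo.coef μ hT a a.right⁻¹).2
    rw [if_pos rfl] at e2
    rw [e1, ← (one _ _ hT').2, ← e2, ← integral_conj]
    refine integral_congr_ae (Filter.Eventually.of_forall fun x => ?_)
    simp only [h, h', fs]
    rw [lazy_smul, lazy_smul, map_mul, Complex.conj_ofReal, Fo.fi, if_pos rfl]
    have e3 : (Finset.univ.filter fun b => val x a.right⁻¹ b ∧ a.right⁻¹ * γ b = 1).card =
        (Finset.univ.filter fun b => val x 1 b ∧ 1 * γ b = a.right⁻¹).card := by
      refine Finset.card_nbij' ι ι (fun b hb => ?_) (fun b hb => ?_) (fun b _ => hι b) fun b _ => hι b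
      · obtain ⟨k1, k2⟩ := (Finset.mem_filter.1 hb).2
        refine Finset.mem_filter.2 ⟨Finset.mem_univ _, k2 ▸ hsym _ _ _ k1, ?_⟩
        rw [hγ, one_mul, eq_inv_of_mul_eq_one_left k2]
      · obtain ⟨k1, k2⟩ := (Finset.mem_filter.1 hb).2
        refine Finset.mem_filter.2 ⟨Finset.mem_univ _, k2 ▸ hsym _ _ _ k1, ?_⟩
        rw [hγ, ← k2, one_mul, mul_inv_cancel]
    simp only [SemidirectProduct.one_right, inv_one, e3, eq_comm (a := a.right⁻¹),
      SemidirectProduct.one_left, OneMemClass.coe_one, AddChar.one_apply, one_mul]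
  · obtain ⟨T1, k1, l1⟩ := iter ξ T hT (j + 1)
    obtain ⟨T2, k2, l2⟩ := iter ξ T hT j
    have k3 : ∀ a, a ∉ T' ∪ (T1 ∪ T2) → (act c g)^[j + 1] ξ a = 0 := fun a ha =>
      k1 a fun h => ha (by simp [h])
    have k4 : ∀ a, a ∉ T' ∪ (T1 ∪ T2) → (act c g)^[j] ξ a = 0 := fun a ha =>
      k2 a fun h => ha (by simp [h])
    have k5 : ∀ a, a ∉ T' ∪ (T1 ∪ T2) → (act c g)^[j + 1] ξ a - (act c g)^[j] ξ a = 0 :=
      fun a ha => by rw [k3 a ha, k4 a ha, sub_zero]
    obtain ⟨p1, p2⟩ := Fo.pars μ k5 _ fun a ha => Finset.mem_image_of_mem (·.right⁻¹) ha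
    obtain ⟨p3, p4⟩ := Fo.pars μ hT _ fun a ha => Finset.mem_image_of_mem (·.right⁻¹) ha
    refine (Finset.sum_le_sum_of_subset_of_nonneg (Finset.subset_union_left (s₂ := T1 ∪ T2))
      fun _ _ _ => by positivity).trans ?_
    rw [← p2, ← p4, ← integral_const_mul]
    refine integral_mono p1 (p3.const_mul _) fun x => ?_
    refine le_of_eq_of_le (Finset.sum_congr rfl fun z _ => ?_) (hb x x.2 (Fo.fib X hX ξ x) _ ?_ j _)
    · rw [← l1, ← l2, Fo.fib_eq k5, Fo.fib_eq k3, Fo.fib_eq k4, ← Finset.sum_sub_distrib]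
      simp only [sub_mul]
    · intro z hz
      rw [Fo.fib_eq hT]
      refine Finset.sum_eq_zero fun a ha => ?_
      rw [Fo.fi, if_neg fun h => hz (Finset.mem_image.2 ⟨a, ha, h.symm⟩), mul_zero]
  · rw [tendsto_iff_norm_sub_tendsto_zero]
    have h2 : √ρ < 1 := by rwa [Real.sqrt_lt' one_pos, one_pow]
    refine squeeze_zero (fun _ => norm_nonneg _) (fun j => ?_)
      (tendsto_pow_atTop_nhds_zero_of_lt_one (Real.sqrt_nonneg ρ) h2)
    obtain ⟨T1, k1, l1⟩ := iter _ _ (sing 1) j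
    obtain ⟨p1, p2⟩ := one _ _ k1
    have p3 : Integrable (fun x => (π x : ℂ)) μ := hπ.ofReal
    rw [← p2, ← integral_complex_ofReal, ← integral_sub p1 p3]
    refine (norm_integral_le_of_norm_le_const (C := √ρ ^ j)
      (Filter.Eventually.of_forall fun x => ?_)).trans (by simp)
    have e : Fo.fib X hX (Pi.single 1 1) x = Pi.single 1 1 := by
      rw [fs]
      funext v
      simp [Pi.single_apply]
    rw [l1, e]
    refine le_of_sq_le_sq ?_ (by positivity)
    rw [← pow_mul, mul_comm, pow_mul, Real.sq_sqrt h0]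
    exact hl x j

end Vale.Agent.P089
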