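import Vale.Agent.P089.Basic

/-!
Spectral gap from the isoperimetric inequality.

PLAN. Work with real finitely supported `h` first (then split into real and imaginary parts; `lazy` and the average
commute with `re`, `im`). `A h z = ∑ a, if val z a then h (mv z a) else 0`, symmetric by the involution
`(z, a) ↦ (mv z a, ι a)` of valid pairs; `‖A h‖ ≤ 128 ‖h‖` (Cauchy-Schwarz).
(1) `cheeger`: `h ≥ 0` with good support. `D = 128 ∑ h²`, `a = ⟨A h, h⟩`. Layer cake (induct on the number of values or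
integrate over levels): for every good `F`, `∑_{valid (z,a)} min (1_F z) (1_F (mv z a)) ≤ 122 #F`, hence
`m := ∑_{valid} min (h z, h (mv z a))² ≤ 122 ∑ h²`. With `W = ∑_{valid} h z ² ≤ D`,
`∑_{valid} |h z ² - h (mv)²| = 2 W - 2 m` and Cauchy-Schwarz `(2W - 2m)² ≤ (2W - 2a)(2W + 2a)`; if `W ≤ 125 ∑ h²` then
`a ≤ W` is enough, otherwise `W - m ≥ 3 ∑ h²`, so `a² ≤ W² - 9 (∑ h²)² ≤ (128² - 9) (∑ h²)²`.
(2) `h` with zero sum on each block: subtract a median `c` on each block (constant on blocks, `0` off the blocks and on blocks where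
`h = 0`), `A c = 128 c`, `⟨h, c⟩ = 0`; `h' = h - c = h₊ - h₋` with good supports;
`128 ‖h‖² - ⟨A h, h⟩ = 128 ‖h'‖² - ⟨A h', h'⟩ ≥ ε ‖h'‖² ≥ ε ‖h‖²`.
(3) `‖M h‖² = ‖h‖²/4 + ⟨A h, h⟩/256 + ‖A h‖²/256² ≤ ρ ‖h‖²`; `M` preserves finite support and zero block sums, and fixes
the block average `P f`; `‖f - P f‖ ≤ ‖f‖`.
-/

namespace Vale.Agent.P089

open Finset

namespace GapA

open scoped Classical

variable {Z Λ : Type} [Fintype Λ] {val : Z → Λ → Prop} {mv : Z → Λ → Z} {ι : Λ → Λ}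
  {cl : Z → Finset Z}

/-- valid pairs with both ends in `F` -/
noncomputable def EE (val : Z → Λ → Prop) (mv : Z → Λ → Z) (F : Finset Z) : Finset (Z × Λ) :=
  (F ×ˢ univ).filter fun p : Z × Λ => val p.1 p.2 ∧ mv p.1 p.2 ∈ F

/-- the hypotheses -/
structure Hyp (val : Z → Λ → Prop) (mv : Z → Λ → Z) (ι : Λ → Λ) (cl : Z → Finset Z) : Prop where
  hι : ∀ a, ι (ι a) = a
  hv : ∀ z a, val z a → val (mv z a) (ι a) ∧ mv (mv z a) (ι a) = z ∧ cl (mv z a) = cl z
  hd : ∀ z, (univ.filter fun a => val z a).card ≤ 128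
  hc : ∀ z, (cl z).Nonempty → z ∈ cl z ∧ (univ.filter fun a => val z a).card = 128
  hcl : ∀ z z', z' ∈ cl z → cl z' = cl z
  iso : ∀ F : Finset Z, (∀ z, 2 * (F ∩ cl z).card ≤ (cl z).card) → (EE val mv F).card ≤ 122 * F.card

theorem mem_EE {F : Finset Z} {p : Z × Λ} :
    p ∈ EE val mv F ↔ p.1 ∈ F ∧ val p.1 p.2 ∧ mv p.1 p.2 ∈ F := by
  simp [EE]

theorem sum_EE (F : Finset Z) (φ : Z → Λ → ℝ) : ∑ p ∈ EE val mv F, φ p.1 p.2 =
    ∑ z ∈ F, ∑ a, if val z a ∧ mv z a ∈ F then φ z a else 0 := by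
  rw [EE, sum_filter, sum_product]

theorem Hyp.swap (H : Hyp val mv ι cl) (F : Finset Z) (φ : Z → Z → ℝ) :
    ∑ p ∈ EE val mv F, φ (mv p.1 p.2) p.1 = ∑ p ∈ EE val mv F, φ p.1 (mv p.1 p.2) := by
  have hm : ∀ p ∈ EE val mv F, (mv p.1 p.2, ι p.2) ∈ EE val mv F := fun p hp => by
    obtain ⟨h1, h2, h3⟩ := mem_EE.1 hp
    refine mem_EE.2 ⟨h3, (H.hv _ _ h2).1, ?_⟩
    show mv (mv p.1 p.2) (ι p.2) ∈ F
    rwa [(H.hv _ _ h2).2.1]
  have hi : ∀ p ∈ EE val mv F, (mv (mv p.1 p.2) (ι p.2), ι (ι p.2)) = p := fun p hp =>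
    Prod.ext (H.hv _ _ (mem_EE.1 hp).2.1).2.1 (H.hι _)
  refine sum_nbij' (fun p => (mv p.1 p.2, ι p.2)) (fun p => (mv p.1 p.2, ι p.2)) hm hm hi hi
    fun p hp => ?_
  show φ (mv p.1 p.2) p.1 = φ (mv p.1 p.2) (mv (mv p.1 p.2) (ι p.2))
  rw [(H.hv _ _ (mem_EE.1 hp).2.1).2.1]

/-- the degree inside `F` -/
noncomputable def dg (val : Z → Λ → Prop) (mv : Z → Λ → Z) (F : Finset Z) (z : Z) : ℕ :=
  (univ.filter fun a => val z a ∧ mv z a ∈ F).card

theorem sum_dg (F : Finset Z) (g : Z → ℝ) :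
    ∑ p ∈ EE val mv F, g p.1 = ∑ z ∈ F, dg val mv F z * g z := by
  rw [sum_EE F fun z _ => g z]
  refine sum_congr rfl fun z _ => ?_
  rw [← sum_filter, sum_const, nsmul_eq_mul, dg]

theorem Hyp.dg_le (H : Hyp val mv ι cl) (F : Finset Z) (z : Z) : (dg val mv F z : ℝ) ≤ 128 := by
  have : dg val mv F z ≤ 128 :=
    le_trans (card_le_card fun a ha => mem_filter.2 ⟨mem_univ _, (mem_filter.1 ha).2.1⟩) (H.hd z)
  exact_mod_cast this

theorem Hyp.mv_mem (H : Hyp val mv ι cl) {z : Z} {a : Λ} (h : val z a) (hz : (cl z).Nonempty) :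
    mv z a ∈ cl z := by
  have e := (H.hv z a h).2.2
  have := (H.hc (mv z a) (e ▸ hz)).1
  rwa [e] at this

theorem Hyp.dg_eq (H : Hyp val mv ι cl) {F : Finset Z} {z : Z} (hz : (cl z).Nonempty)
    (hF : cl z ⊆ F) : (dg val mv F z : ℝ) = 128 := by
  have : dg val mv F z = 128 := by
    rw [← (H.hc z hz).2, dg]
    congr 1
    exact filter_congr fun a _ => ⟨fun h => h.1, fun h => ⟨h, hF (H.mv_mem h hz)⟩⟩
  exact_mod_cast this

theorem Hyp.deg_sum (H : Hyp val mv ι cl) (F : Finset Z) {g : Z → ℝ} (hg : ∀ z, 0 ≤ g z) :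
    ∑ p ∈ EE val mv F, g p.1 ≤ 128 * ∑ z ∈ F, g z := by
  rw [sum_dg, mul_sum]
  exact sum_le_sum fun z _ => mul_le_mul_of_nonneg_right (H.dg_le F z) (hg z)

theorem Hyp.layer (H : Hyp val mv ι cl) (n : ℕ) : ∀ F : Finset Z, F.card = n →
    (∀ z, 2 * (F ∩ cl z).card ≤ (cl z).card) → ∀ g : Z → ℝ, (∀ z ∈ F, 0 ≤ g z) →
    ∑ p ∈ EE val mv F, min (g p.1) (g (mv p.1 p.2)) ≤ 122 * ∑ z ∈ F, g z := by
  induction n with
  | zero =>
    intro F hF _ g _
    rw [card_eq_zero.1 hF]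
    simp [EE]
  | succ n ih =>
    intro F hF hgood g hg
    obtain ⟨z₀, hz₀, hmin⟩ := exists_min_image F g (card_pos.1 (by omega))
    have h1 := ih (F.erase z₀) (by rw [card_erase_of_mem hz₀]; omega)
      (fun z => le_trans (Nat.mul_le_mul_left 2 (card_le_card
        (inter_subset_inter_right (erase_subset _ _)))) (hgood z)) (fun z => g z - g z₀)
      fun z hz => sub_nonneg.2 (hmin z (mem_of_mem_erase hz))
    have h2 : ∑ p ∈ EE val mv (F.erase z₀), min (g p.1 - g z₀) (g (mv p.1 p.2) - g z₀) =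
        ∑ p ∈ EE val mv F, min (g p.1 - g z₀) (g (mv p.1 p.2) - g z₀) := by
      refine sum_subset (fun p hp => ?_) fun p hp hn => ?_
      · obtain ⟨a, b, c⟩ := mem_EE.1 hp
        exact mem_EE.2 ⟨mem_of_mem_erase a, b, mem_of_mem_erase c⟩
      · obtain ⟨a, b, c⟩ := mem_EE.1 hp
        by_cases e : p.1 = z₀
        · rw [e, sub_self]
          exact min_eq_left (sub_nonneg.2 (hmin _ (e ▸ c)))
        · by_cases e' : mv p.1 p.2 = z₀
          · rw [e', sub_self]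
            exact min_eq_right (sub_nonneg.2 (hmin _ a))
          · exact absurd (mem_EE.2 ⟨mem_erase.2 ⟨e, a⟩, b, mem_erase.2 ⟨e', c⟩⟩) hn
    have h3 : ∑ z ∈ F.erase z₀, (g z - g z₀) = ∑ z ∈ F, g z - F.card * g z₀ := by
      rw [sum_erase _ (sub_self _), sum_sub_distrib, sum_const, nsmul_eq_mul]
    have h4 : ((EE val mv F).card : ℝ) ≤ 122 * F.card := by exact_mod_cast H.iso F hgood
    simp only [min_sub_sub_right] at h1 h2
    rw [h2, h3, sum_sub_distrib, sum_const, nsmul_eq_mul] at h1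
    have h5 := mul_le_mul_of_nonneg_right h4 (hg z₀ hz₀)
    linarith

theorem Hyp.cheeger (H : Hyp val mv ι cl) (S : Finset Z) {h : Z → ℝ} (h0 : ∀ z, 0 ≤ h z)
    (hgood : ∀ z, 2 * ((S.filter fun w => 0 < h w) ∩ cl z).card ≤ (cl z).card) :
    ∑ p ∈ EE val mv S, h p.1 * h (mv p.1 p.2) ≤ 1279 / 10 * ∑ z ∈ S, h z ^ 2 := by
  set F := S.filter fun w => 0 < h w with hF
  have hz : ∀ z ∈ S, z ∉ F → h z = 0 := fun z a b =>
    le_antisymm (not_lt.1 fun c => b (mem_filter.2 ⟨a, c⟩)) (h0 z)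
  have e1 : ∑ p ∈ EE val mv F, h p.1 * h (mv p.1 p.2) = ∑ p ∈ EE val mv S, h p.1 * h (mv p.1 p.2) := by
    refine sum_subset (fun p hp => ?_) fun p hp hn => ?_
    · obtain ⟨a, b, c⟩ := mem_EE.1 hp
      exact mem_EE.2 ⟨(mem_filter.1 a).1, b, (mem_filter.1 c).1⟩
    · obtain ⟨a, b, c⟩ := mem_EE.1 hp
      by_cases e : p.1 ∈ F
      · rw [hz _ c fun e' => hn (mem_EE.2 ⟨e, b, e'⟩), mul_zero]
      · rw [hz _ a e, zero_mul]
  have e2 : ∑ z ∈ F, h z ^ 2 = ∑ z ∈ S, h z ^ 2 :=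
    sum_subset (filter_subset _ _) fun z a b => by rw [hz z a b]; ring
  have h1 := H.layer _ F rfl hgood (fun z => h z ^ 2) fun z _ => sq_nonneg _
  have h2 := H.deg_sum F (g := fun z => h z ^ 2) fun z => sq_nonneg _
  have h3 := H.swap F fun z _ => h z ^ 2
  have h4 : ∑ p ∈ EE val mv F, h p.1 * h (mv p.1 p.2) ≤ ∑ p ∈ EE val mv F,
      (10 / 21 * h p.1 ^ 2 + 10 / 21 * h (mv p.1 p.2) ^ 2 +
        41 / 840 * min (h p.1 ^ 2) (h (mv p.1 p.2) ^ 2)) := by
    refine sum_le_sum fun p _ => ?_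
    rcases le_total (h p.1 ^ 2) (h (mv p.1 p.2) ^ 2) with c | c
    · rw [min_eq_left c]
      nlinarith [sq_nonneg (h (mv p.1 p.2) - 21 / 20 * h p.1)]
    · rw [min_eq_right c]
      nlinarith [sq_nonneg (h p.1 - 21 / 20 * h (mv p.1 p.2))]
  rw [sum_add_distrib, sum_add_distrib, ← mul_sum, ← mul_sum, ← mul_sum, h3] at h4
  have h5 : 0 ≤ ∑ z ∈ F, h z ^ 2 := sum_nonneg fun z _ => sq_nonneg _
  rw [← e1, ← e2]
  linarith

theorem exists_med (h : Z → ℝ) (B : Finset Z) : ∃ m : ℝ, (B = ∅ → m = 0) ∧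
    2 * (B.filter fun w => m < h w).card ≤ B.card ∧ 2 * (B.filter fun w => h w < m).card ≤ B.card := by
  rcases B.eq_empty_or_nonempty with rfl | hB
  · exact ⟨0, fun _ => rfl, by simp, by simp⟩
  obtain ⟨z₁, hz₁, hmax⟩ := exists_max_image B h hB
  obtain ⟨z₀, hz₀, hmin⟩ := exists_min_image
    (B.filter fun z => 2 * (B.filter fun w => h z < h w).card ≤ B.card) h ⟨z₁, mem_filter.2 ⟨hz₁, by
      rw [filter_eq_empty_iff.2 fun w hw => not_lt.2 (hmax w hw)]; simp⟩⟩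
  refine ⟨h z₀, fun e => absurd e hB.ne_empty, (mem_filter.1 hz₀).2, ?_⟩
  rcases (B.filter fun w => h w < h z₀).eq_empty_or_nonempty with e | hne
  · rw [e]; simp
  obtain ⟨z₂, hz₂, hmax₂⟩ := exists_max_image _ h hne
  obtain ⟨a, b⟩ := mem_filter.1 hz₂
  have h1 : ¬ 2 * (B.filter fun w => h z₂ < h w).card ≤ B.card := fun c =>
    absurd (hmin z₂ (mem_filter.2 ⟨a, c⟩)) (not_le.2 b)
  have h2 : (B.filter fun w => h w < h z₀).card + (B.filter fun w => h z₂ < h w).card ≤ B.card := by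
    rw [← card_union_of_disjoint (disjoint_left.2 fun w c d =>
      absurd (hmax₂ w c) (not_le.2 (mem_filter.1 d).2))]
    exact card_le_card (union_subset (filter_subset _ _) (filter_subset _ _))
  omega

theorem Hyp.orth (H : Hyp val mv ι cl) {S : Finset Z} (hS : ∀ z ∈ S, cl z ⊆ S) {h : Z → ℝ}
    (hz : ∀ z, ∑ w ∈ cl z, h w = 0) (m : Finset Z → ℝ) (hm : m ∅ = 0) :
    ∑ z ∈ S, h z ^ 2 ≤ ∑ z ∈ S, (h z - m (cl z)) ^ 2 := by
  have h1 : ∑ z ∈ S, h z * m (cl z) = 0 := by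
    rw [← sum_fiberwise_of_maps_to (g := cl) (t := S.image cl) fun z hz => mem_image_of_mem _ hz]
    refine sum_eq_zero fun B hB => ?_
    obtain ⟨z₀, hz₀, rfl⟩ := mem_image.1 hB
    rw [sum_congr rfl fun z hz' => by rw [(mem_filter.1 hz').2], ← sum_mul]
    rcases (cl z₀).eq_empty_or_nonempty with e | hne
    · rw [e, hm, mul_zero]
    · have : (S.filter fun z => cl z = cl z₀) = cl z₀ := by
        ext z
        rw [mem_filter]
        exact ⟨fun a => a.2 ▸ (H.hc z (a.2 ▸ hne)).1, fun a => ⟨hS z₀ hz₀ a, H.hcl _ _ a⟩⟩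
      rw [this, hz, zero_mul]
  have h2 : ∑ z ∈ S, (h z - m (cl z)) ^ 2 =
      ∑ z ∈ S, h z ^ 2 - 2 * ∑ z ∈ S, h z * m (cl z) + ∑ z ∈ S, m (cl z) ^ 2 := by
    rw [mul_sum, ← sum_sub_distrib, ← sum_add_distrib]
    exact sum_congr rfl fun z _ => by ring
  have h3 : 0 ≤ ∑ z ∈ S, m (cl z) ^ 2 := sum_nonneg fun z _ => sq_nonneg _
  rw [h2, h1]
  linarith

theorem Hyp.dirichlet (H : Hyp val mv ι cl) (S : Finset Z) (h : Z → ℝ) :
    128 * ∑ z ∈ S, h z ^ 2 - ∑ p ∈ EE val mv S, h p.1 * h (mv p.1 p.2) =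
      ∑ z ∈ S, (128 - dg val mv S z) * h z ^ 2 +
        (∑ p ∈ EE val mv S, (h p.1 - h (mv p.1 p.2)) ^ 2) / 2 := by
  have h1 : ∑ p ∈ EE val mv S, (h p.1 - h (mv p.1 p.2)) ^ 2 = ∑ p ∈ EE val mv S, h p.1 ^ 2 +
      ∑ p ∈ EE val mv S, h (mv p.1 p.2) ^ 2 - 2 * ∑ p ∈ EE val mv S, h p.1 * h (mv p.1 p.2) := by
    rw [mul_sum, ← sum_add_distrib, ← sum_sub_distrib]
    exact sum_congr rfl fun p _ => by ring
  rw [h1, H.swap S fun z _ => h z ^ 2, sum_dg S fun z => h z ^ 2]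
  simp only [sub_mul, sum_sub_distrib, ← mul_sum]
  ring

theorem Hyp.form (H : Hyp val mv ι cl) {S : Finset Z} (hS : ∀ z ∈ S, cl z ⊆ S) {h : Z → ℝ}
    (hz : ∀ z, ∑ w ∈ cl z, h w = 0) :
    ∑ p ∈ EE val mv S, h p.1 * h (mv p.1 p.2) ≤ 1279 / 10 * ∑ z ∈ S, h z ^ 2 := by
  choose m m0 m1 m2 using exists_med h
  have o := H.orth hS hz m (m0 _ rfl)
  have d1 := H.dirichlet S h
  have d2 := H.dirichlet S fun z => h z - m (cl z)
  have e1 : ∑ z ∈ S, (128 - (dg val mv S z : ℝ)) * (h z - m (cl z)) ^ 2 =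
      ∑ z ∈ S, (128 - (dg val mv S z : ℝ)) * h z ^ 2 := by
    refine sum_congr rfl fun z hz' => ?_
    rcases (cl z).eq_empty_or_nonempty with e | hne
    · rw [m0 _ e, sub_zero]
    · rw [H.dg_eq hne (hS z hz'), sub_self, zero_mul, zero_mul]
  have e2 : ∑ p ∈ EE val mv S, (h p.1 - m (cl p.1) - (h (mv p.1 p.2) - m (cl (mv p.1 p.2)))) ^ 2 =
      ∑ p ∈ EE val mv S, (h p.1 - h (mv p.1 p.2)) ^ 2 := by
    refine sum_congr rfl fun p hp => ?_
    rw [(H.hv _ _ (mem_EE.1 hp).2.1).2.2]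
    ring
  rw [e1, e2] at d2
  have c1 := H.cheeger S (h := fun z => max (h z - m (cl z)) 0) (fun z => le_max_right _ _) fun z =>
    le_trans (Nat.mul_le_mul_left 2 (card_le_card fun w hw => by
      obtain ⟨a, b⟩ := mem_inter.1 hw
      have c := (mem_filter.1 a).2
      rw [lt_max_iff, H.hcl _ _ b] at c
      exact mem_filter.2 ⟨b, sub_pos.1 (c.resolve_right (lt_irrefl _))⟩)) (m1 (cl z))
  have c2 := H.cheeger S (h := fun z => max (m (cl z) - h z) 0) (fun z => le_max_right _ _) fun z =>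
    le_trans (Nat.mul_le_mul_left 2 (card_le_card fun w hw => by
      obtain ⟨a, b⟩ := mem_inter.1 hw
      have c := (mem_filter.1 a).2
      rw [lt_max_iff, H.hcl _ _ b] at c
      exact mem_filter.2 ⟨b, sub_pos.1 (c.resolve_right (lt_irrefl _))⟩)) (m2 (cl z))
  have e3 : ∑ z ∈ S, (h z - m (cl z)) ^ 2 =
      ∑ z ∈ S, max (h z - m (cl z)) 0 ^ 2 + ∑ z ∈ S, max (m (cl z) - h z) 0 ^ 2 := by
    rw [← sum_add_distrib]
    refine sum_congr rfl fun z _ => ?_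
    rcases le_total (h z) (m (cl z)) with c | c
    · rw [max_eq_right (sub_nonpos.2 c), max_eq_left (sub_nonneg.2 c)]; ring
    · rw [max_eq_left (sub_nonneg.2 c), max_eq_right (sub_nonpos.2 c)]; ring
  have e4 : ∑ p ∈ EE val mv S, (h p.1 - m (cl p.1)) * (h (mv p.1 p.2) - m (cl (mv p.1 p.2))) ≤
      ∑ p ∈ EE val mv S, max (h p.1 - m (cl p.1)) 0 * max (h (mv p.1 p.2) - m (cl (mv p.1 p.2))) 0 +
      ∑ p ∈ EE val mv S, max (m (cl p.1) - h p.1) 0 * max (m (cl (mv p.1 p.2)) - h (mv p.1 p.2)) 0 := by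
    rw [← sum_add_distrib]
    refine sum_le_sum fun p _ => ?_
    generalize h p.1 = x
    generalize h (mv p.1 p.2) = y
    generalize m (cl p.1) = u
    generalize m (cl (mv p.1 p.2)) = v
    rcases le_total x u with c | c <;> rcases le_total y v with c' | c' <;>
      simp only [max_eq_right (sub_nonpos.2 c), max_eq_left (sub_nonneg.2 c),
        max_eq_right (sub_nonpos.2 c'), max_eq_left (sub_nonneg.2 c')] <;> nlinarith
  linarith

/-- the real lazy walk operator -/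
noncomputable def lz (val : Z → Λ → Prop) (mv : Z → Λ → Z) (f : Z → ℝ) (z : Z) : ℝ :=
  f z / 2 + (∑ a, if val z a then f (mv z a) else 0) / 256

theorem Hyp.step0 (H : Hyp val mv ι cl) {S : Finset Z} (hS : ∀ z ∈ S, cl z ⊆ S) {h : Z → ℝ}
    (hs : ∀ z, z ∉ S → h z = 0) (hz : ∀ z, ∑ w ∈ cl z, h w = 0) :
    ∑ z ∈ S, lz val mv h z ^ 2 ≤ 2559 / 2560 * ∑ z ∈ S, h z ^ 2 := by
  have e0 : ∀ (z : Z) (a : Λ) (φ : ℝ → ℝ), φ 0 = 0 → (if val z a ∧ mv z a ∈ S then φ (h (mv z a)) else 0) =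
      φ (if val z a then h (mv z a) else 0) := by
    intro z a φ hφ
    by_cases c : val z a
    · by_cases c' : mv z a ∈ S
      · simp [c, c']
      · simp [c, c', hs _ c', hφ]
    · simp [c, hφ]
  have h1 : ∑ z ∈ S, h z * ∑ a, (if val z a then h (mv z a) else 0) ≤ 1279 / 10 * ∑ z ∈ S, h z ^ 2 := by
    refine le_trans (le_of_eq ?_) (H.form hS hz)
    rw [sum_EE S fun z a => h z * h (mv z a)]
    refine sum_congr rfl fun z _ => ?_
    rw [mul_sum]
    exact sum_congr rfl fun a _ => (e0 z a (fun t => h z * t) (mul_zero _)).symm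
  have h2 : ∑ z ∈ S, (∑ a, (if val z a then h (mv z a) else 0)) ^ 2 ≤ 128 * (128 * ∑ z ∈ S, h z ^ 2) := by
    refine le_trans ?_ (mul_le_mul_of_nonneg_left
      (H.deg_sum S (g := fun z => h z ^ 2) fun z => sq_nonneg _) (by norm_num))
    rw [← H.swap S fun z _ => h z ^ 2, sum_EE S fun z a => h (mv z a) ^ 2, mul_sum]
    refine sum_le_sum fun z _ => ?_
    rw [sum_congr rfl fun a _ => e0 z a (fun t => t ^ 2) (by norm_num), ← sum_filter]
    refine sq_sum_le_card_mul_sum_sq.trans ?_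
    have h3 : ((univ.filter fun a => val z a).card : ℝ) ≤ 128 := by exact_mod_cast H.hd z
    refine mul_le_mul h3 (le_of_eq ?_) (sum_nonneg fun a _ => sq_nonneg _) (by norm_num)
    rw [sum_filter]
    exact sum_congr rfl fun a _ => by split_ifs <;> simp
  have h3 : ∑ z ∈ S, lz val mv h z ^ 2 = (∑ z ∈ S, h z ^ 2) / 4 +
      (∑ z ∈ S, h z * ∑ a, (if val z a then h (mv z a) else 0)) / 256 +
      (∑ z ∈ S, (∑ a, (if val z a then h (mv z a) else 0)) ^ 2) / 65536 := by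
    rw [sum_div, sum_div, sum_div, ← sum_add_distrib, ← sum_add_distrib]
    exact sum_congr rfl fun z _ => by rw [lz]; ring
  rw [h3]
  linarith

theorem Hyp.closure (H : Hyp val mv ι cl) (S : Finset Z) :
    ∃ U, S ⊆ U ∧ (∀ z ∈ S, cl z ⊆ U) ∧ ∀ z ∈ U, cl z ⊆ U := by
  have h1 : ∀ z ∈ S, cl z ⊆ S ∪ S.biUnion cl := fun z hz w hw =>
    mem_union_right _ (mem_biUnion.2 ⟨z, hz, hw⟩)
  refine ⟨S ∪ S.biUnion cl, subset_union_left, h1, fun z hz => ?_⟩
  rcases mem_union.1 hz with a | a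
  · exact h1 z a
  · obtain ⟨w, b, c⟩ := mem_biUnion.1 a
    rw [H.hcl _ _ c]
    exact h1 w b

theorem Hyp.step (H : Hyp val mv ι cl) {S : Finset Z} {h : Z → ℝ}
    (hs : ∀ z, z ∉ S → h z = 0) (hz : ∀ z, ∑ w ∈ cl z, h w = 0) (T : Finset Z) :
    ∑ z ∈ T, lz val mv h z ^ 2 ≤ 2559 / 2560 * ∑ z ∈ S, h z ^ 2 := by
  obtain ⟨U, h1, -, h2⟩ := H.closure (S ∪ T)
  have h3 : S ⊆ U := subset_union_left.trans h1
  rw [sum_subset h3 fun z _ b => by rw [hs z b]; ring]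
  exact (sum_le_sum_of_subset_of_nonneg (subset_union_right.trans h1) fun z _ _ => sq_nonneg _).trans
    (H.step0 h2 (fun z a => hs z fun b => a (h3 b)) hz)

theorem Hyp.lz_supp (H : Hyp val mv ι cl) {S : Finset Z} {h : Z → ℝ}
    (hs : ∀ z, z ∉ S → h z = 0) : ∃ S' : Finset Z, ∀ z, z ∉ S' → lz val mv h z = 0 := by
  refine ⟨S ∪ S.biUnion fun z => univ.image (mv z), fun z hz => ?_⟩
  rw [mem_union, not_or] at hz
  rw [lz, hs z hz.1, sum_eq_zero fun a _ => ?_]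
  · simp
  · split_ifs with c
    · refine hs _ fun d => hz.2 (mem_biUnion.2 ⟨_, d, mem_image.2 ⟨ι a, mem_univ _, ?_⟩⟩)
      exact (H.hv z a c).2.1
    · rfl

theorem Hyp.lz_sum (H : Hyp val mv ι cl) {h : Z → ℝ} (hz : ∀ z, ∑ w ∈ cl z, h w = 0) (z : Z) :
    ∑ w ∈ cl z, lz val mv h w = 0 := by
  have h1 : ∑ w ∈ cl z, ∑ a, (if val w a then h (mv w a) else 0) = 128 * ∑ w ∈ cl z, h w := by
    have e : ∑ w ∈ cl z, ∑ a, (if val w a then h (mv w a) else 0) =
        ∑ p ∈ EE val mv (cl z), h (mv p.1 p.2) := by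
      rw [sum_EE (cl z) fun w a => h (mv w a)]
      refine sum_congr rfl fun w hw => sum_congr rfl fun a _ => ?_
      by_cases c : val w a
      · have e := H.hcl _ _ hw
        have := H.mv_mem c (e ▸ ⟨w, hw⟩)
        rw [e] at this
        simp [c, this]
      · simp [c]
    rw [e, H.swap (cl z) fun w _ => h w, sum_dg, mul_sum]
    refine sum_congr rfl fun w hw => ?_
    have e := H.hcl _ _ hw
    rw [H.dg_eq (e ▸ ⟨w, hw⟩) e.subset]
  simp only [lz]
  rw [sum_add_distrib, ← sum_div, ← sum_div, h1, hz]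
  simp

theorem Hyp.lz_sub (H : Hyp val mv ι cl) (h : Z → ℝ) (m : Finset Z → ℝ) (hm : m ∅ = 0) (z : Z) :
    lz val mv (fun w => h w - m (cl w)) z = lz val mv h z - m (cl z) := by
  have h1 : ∑ a, (if val z a then h (mv z a) - m (cl (mv z a)) else 0) =
      ∑ a, (if val z a then h (mv z a) else 0) - 128 * m (cl z) := by
    have e : ∑ a, (if val z a then m (cl z) else 0) = 128 * m (cl z) := by
      rw [← sum_filter, sum_const, nsmul_eq_mul]
      rcases (cl z).eq_empty_or_nonempty with e | hne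
      · rw [e, hm, mul_zero, mul_zero]
      · rw [(H.hc z hne).2]
        norm_num
    rw [← e, ← sum_sub_distrib]
    refine sum_congr rfl fun a _ => ?_
    split_ifs with c
    · rw [(H.hv z a c).2.2]
    · simp
  rw [lz, lz, h1]
  ring

theorem Hyp.real (H : Hyp val mv ι cl) (f : Z → ℝ) (T : Finset Z) (hT : ∀ z, z ∉ T → f z = 0)
    (j : ℕ) (T' : Finset Z) :
    ∑ z ∈ T', ((lz val mv)^[j] f z - (∑ w ∈ cl z, f w) / (cl z).card) ^ 2 ≤
      (2559 / 2560) ^ j * ∑ z ∈ T, f z ^ 2 := by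
  set m : Finset Z → ℝ := fun B => (∑ w ∈ B, f w) / B.card with hm
  have m0 : m ∅ = 0 := by simp [hm]
  have key : ∀ j : ℕ, (∃ S : Finset Z, ∀ z, z ∉ S → (lz val mv)^[j] f z - m (cl z) = 0) ∧
      (∀ z, ∑ w ∈ cl z, ((lz val mv)^[j] f w - m (cl w)) = 0) ∧
      ∀ T' : Finset Z, ∑ z ∈ T', ((lz val mv)^[j] f z - m (cl z)) ^ 2 ≤
        (2559 / 2560) ^ j * ∑ z ∈ T, f z ^ 2 := by
    intro j
    induction j with
    | zero =>
      simp only [Function.iterate_zero, id, pow_zero, one_mul]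
      have h2 : ∀ z, ∑ w ∈ cl z, (f w - m (cl w)) = 0 := by
        intro z
        rw [sum_sub_distrib, sum_congr rfl fun w hw => congrArg m (H.hcl z w hw), sum_const,
          nsmul_eq_mul]
        rcases (cl z).eq_empty_or_nonempty with e | hne
        · simp [e]
        · have : ((cl z).card : ℝ) ≠ 0 := by exact_mod_cast hne.card_pos.ne'
          simp only [hm]
          field_simp
          ring
      refine ⟨?_, h2, fun T' => ?_⟩
      · obtain ⟨U, h1, h3, -⟩ := H.closure T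
        refine ⟨U, fun z hz => ?_⟩
        rw [hT z fun a => hz (h1 a), hm]
        simp only
        rw [sum_eq_zero fun w hw => hT w fun a => hz (h3 w a ?_)]
        · simp
        · rw [H.hcl _ _ hw]
          exact (H.hc z ⟨w, hw⟩).1
      · obtain ⟨U, h1, -, h3⟩ := H.closure (T ∪ T')
        have h4 := H.orth h3 h2 (fun B => -m B) (by rw [m0, neg_zero])
        simp only [sub_neg_eq_add, sub_add_cancel] at h4
        rw [sum_subset (subset_union_left.trans h1) fun z _ b => by rw [hT z b]; ring]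
        exact (sum_le_sum_of_subset_of_nonneg (subset_union_right.trans h1)
          fun z _ _ => sq_nonneg _).trans h4
    | succ j ih =>
      obtain ⟨⟨S, h1⟩, h2, h3⟩ := ih
      simp only [Function.iterate_succ_apply', ← H.lz_sub _ m m0]
      refine ⟨H.lz_supp h1, H.lz_sum h2, fun T' => (H.step h1 h2 T').trans ?_⟩
      rw [pow_succ', mul_assoc]
      exact mul_le_mul_of_nonneg_left (h3 S) (by norm_num)
  exact (key j).2.2 T'

theorem lazy_map (φ : ℂ →ₗ[ℝ] ℝ) (f : Z → ℂ) (j : ℕ) :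
    ∀ z, φ ((lazy val mv)^[j] f z) = (lz val mv)^[j] (fun w => φ (f w)) z := by
  induction j with
  | zero => exact fun _ => rfl
  | succ j ih =>
    intro z
    have e : ∀ (w : ℂ) (t : ℝ), φ (w / (t : ℂ)) = φ w / t := fun w t => by
      rw [div_eq_inv_mul, ← Complex.ofReal_inv, ← Complex.real_smul, map_smul, smul_eq_mul,
        div_eq_inv_mul]
    have e2 := e ((lazy val mv)^[j] f z) 2
    have e3 := e (∑ a, if val z a then (lazy val mv)^[j] f (mv z a) else 0) 256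
    rw [Function.iterate_succ_apply', Function.iterate_succ_apply', lazy, lz, map_add]
    simp only [Complex.ofReal_ofNat] at e2 e3
    rw [e2, e3, map_sum, ih]
    congr 2
    refine sum_congr rfl fun a _ => ?_
    split_ifs
    · exact ih _
    · exact map_zero φ

end GapA

open GapA

open Classical in
theorem gap : ∃ ρ : ℝ, 0 ≤ ρ ∧ ρ < 1 ∧ ∀ {Z Λ : Type} [Fintype Λ] (val : Z → Λ → Prop)
    (mv : Z → Λ → Z) (ι : Λ → Λ) (cl : Z → Finset Z),
    (∀ a, ι (ι a) = a) →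
    (∀ z a, val z a → val (mv z a) (ι a) ∧ mv (mv z a) (ι a) = z ∧ cl (mv z a) = cl z) →
    (∀ z, (Finset.univ.filter fun a => val z a).card ≤ 128) →
    (∀ z, (cl z).Nonempty → z ∈ cl z ∧ (Finset.univ.filter fun a => val z a).card = 128) →
    (∀ z z', z' ∈ cl z → cl z' = cl z) →
    (∀ F : Finset Z, (∀ z, 2 * (F ∩ cl z).card ≤ (cl z).card) →
      ((F ×ˢ Finset.univ).filter fun p : Z × Λ => val p.1 p.2 ∧ mv p.1 p.2 ∈ F).card ≤
        122 * F.card) →
    ∀ (f : Z → ℂ) (T : Finset Z), (∀ z, z ∉ T → f z = 0) → ∀ (j : ℕ) (T' : Finset Z),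
      ∑ z ∈ T', ‖(lazy val mv)^[j] f z - (∑ w ∈ cl z, f w) / (cl z).card‖ ^ 2 ≤
        ρ ^ j * ∑ z ∈ T, ‖f z‖ ^ 2 := by
  refine ⟨2559 / 2560, by norm_num, by norm_num, ?_⟩
  intro Z Λ _ val mv ι cl h1 h2 h3 h4 h5 h6 f T hT j T'
  have H : Hyp val mv ι cl := ⟨h1, h2, h3, h4, h5, h6⟩
  have a := H.real (fun w => (f w).re) T (fun z hz => by rw [hT z hz, Complex.zero_re]) j T'
  have b := H.real (fun w => (f w).im) T (fun z hz => by rw [hT z hz, Complex.zero_im]) j T'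
  have e : ∀ w : ℂ, ‖w‖ ^ 2 = w.re ^ 2 + w.im ^ 2 := fun w => by
    rw [← Complex.normSq_eq_norm_sq, Complex.normSq_apply]; ring
  have e1 := lazy_map (val := val) (mv := mv) Complex.reLm f j
  have e2 := lazy_map (val := val) (mv := mv) Complex.imLm f j
  simp only [Complex.reLm_coe, Complex.imLm_coe] at e1 e2
  simp only [e, sum_add_distrib, mul_add, Complex.sub_re, Complex.sub_im, e1, e2,
    Complex.div_natCast_re, Complex.div_natCast_im, Complex.re_sum, Complex.im_sum]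
  exact add_le_add a b

end Vale.Agent.P089
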