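import Vale.Agent.P089.WordAux

/-!
Triangle with one side a walk in the graph. PLAN: `BC = B ++ invRev C`. Start from the reduced diagram of `w ++ BC` over `StepP`
and change positions as in `wk_inj` (`P194/SC.lean`): `inr l ↦ inl (ρ l)` when `l = l₀ ++ BC` with `Wk z l₀ v'`
(`BC.length ≤ l.length`), else keep `inr l`. New relation on `V ⊕ List`: `St (inl p) a (inl q) = Step p a q`,
`St (inl p) a (inr l) = (p = v' ∧ a :: l = BC)`, `St (inr l) a (inr l') = (l = a :: l')`, no step from `inr` to `inl`;
`x = inl v`, `y = if BC = [] then inl v' else inr []`. Reduce again (`exists_red`). A dart outside the orbit of `star` has `inl`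
positions (along an `inr` position the length drops forever), so satisfies `J` with `π = Sum.elim id (fun _ => v) ∘ pos`. On the outer face
the first `nA` darts `bd j` have `pos (bd j)`, `pos (bd (j+1))` of the form `inl` (they satisfy `J` too and spell a walk `w'` from `v` to
`v'`, `nA > 0` since `v ≠ v'`), the remaining ones spell `BC`. `w'.prod = w.prod` because both `w' ++ BC` (follow `el` around the face,
`el (φ star) = el star`) and `w ++ BC` are trivial. `leaf` from `J_nb'`, `run` from `J_run'` (straight corners: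
`φ (bd (j-i-1)) = bd (j-i)`), `exB`, `exC` from the exit hypotheses. `w'.length < L v`: otherwise `piece` gives `u = v`,
contradicting `exC` (`C` is nonempty and its head is readable from `u`).
`wk_inj'` is the case `B = C = []`, `h = 0`; `exists_dev'` is `exists_dev` verbatim.
-/

namespace Vale.Agent.P089

open Vale.Agent.P194 Equiv

variable {S V : Type} {Step : V → S × Bool → V → Prop} {L : V → ℕ}

theorem Wk_of_fun (p : ℕ → V) (ℓ : ℕ → S × Bool) (m : ℕ)
    (h : ∀ i < m, Step (p i) (ℓ i) (p (i + 1))) : Wk Step (p 0) ((List.range m).map ℓ) (p m) := by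
  induction m with
  | zero => exact .nil _
  | succ m ih =>
    rw [List.range_succ, List.map_append]
    exact (ih fun i hi => h i (by omega)).append (.cons (h m (by omega)) (.nil _))

theorem Wk_unique (H : SC Step L) {l : List (S × Bool)} {v' : V} :
    ∀ {v z : V}, Wk Step v l v' → Wk Step z l v' → v = z := by
  induction l with
  | nil => intro v z h1 h2; cases h1; cases h2; rfl
  | cons a l ih =>
    intro v z h1 h2
    cases h1 with
    | cons s1 h1 =>
      cases h2 with
      | cons s2 h2 =>
        obtain rfl := ih h1 h2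
        exact H.det _ _ _ _ (H.sym _ _ _ s1) (H.sym _ _ _ s2)

theorem Wk_scale (H : SC Step L) {l : List (S × Bool)} {v v' : V} (h : Wk Step v l v') :
    L v' = L v := by
  induction h with
  | nil v => rfl
  | cons hs _ ih => rw [ih, H.scale _ _ _ hs]

/-- steps of a diagram whose boundary is a walk in the graph followed by a fixed word -/
def StQ (Step : V → S × Bool → V → Prop) (v' : V) (BC : List (S × Bool)) :
    V ⊕ List (S × Bool) → S × Bool → V ⊕ List (S × Bool) → Prop
  | .inl p, a, .inl q => Step p a q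
  | .inl p, a, .inr l => p = v' ∧ a :: l = BC
  | .inr l, a, .inr l' => l = a :: l'
  | .inr _, _, .inl _ => False

theorem StQ.of_inr {v' : V} {BC l : List (S × Bool)} {a : S × Bool} {q : V ⊕ List (S × Bool)}
    (h : StQ Step v' BC (.inr l) a q) : ∃ l', q = .inr l' ∧ l = a :: l' := by
  rcases q with v | l'
  · exact h.elim
  · exact ⟨l', rfl, h⟩

open Classical in
theorem exists_Q [Nonempty S] (H : SC Step L) {v v' : V} {w BC : List (S × Bool)}
    (hv : Wk Step v w v') (h1 : ((w ++ BC).map (gen Step)).prod = 1) :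
    Nonempty (Dg (StQ Step v' BC) (gen Step) (.inl v)
      (if BC = [] then .inl v' else .inr [])) := by
  obtain ⟨Δ, hΔ⟩ := exists_red gen_linv (vanKampen H.sym H.surj h1)
  have hQ := pos_ind hΔ (fun _ l => (∃ z l₀, l = l₀ ++ BC ∧ Wk Step z l₀ v') ∨
      l.length < BC.length) (Or.inl ⟨v, w, rfl, hv⟩) (by
    rintro d l - (⟨z, l₀, e, hz⟩ | hl)
    · cases hz with
      | nil => right; rw [List.nil_append] at e; rw [← e]; simp
      | cons _ h => exact Or.inl ⟨_, _, (List.cons.inj e).2, h⟩
    · right; simp at hl; omega)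
  let ρ : List (S × Bool) → V := fun l =>
    if h : ∃ z l₀, l = l₀ ++ BC ∧ Wk Step z l₀ v' then h.choose else v'
  have hρ : ∀ l₀ z, Wk Step z l₀ v' → ρ (l₀ ++ BC) = z := fun l₀ z hz => by
    have h : ∃ z l₁, l₀ ++ BC = l₁ ++ BC ∧ Wk Step z l₁ v' := ⟨z, l₀, rfl, hz⟩
    simp only [ρ, dif_pos h]
    obtain ⟨l₁, e, h'⟩ := h.choose_spec
    obtain rfl := List.append_cancel_right e
    exact Wk_unique H h' hz
  let κ : List (S × Bool) → V ⊕ List (S × Bool) := fun l =>
    if BC.length ≤ l.length then .inl (ρ l) else .inr l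
  have κ1 : ∀ l₀ z, Wk Step z l₀ v' → κ (l₀ ++ BC) = .inl z := fun l₀ z hz => by
    simp only [κ]
    rw [if_pos (by simp), hρ _ _ hz]
  have κ2 : ∀ l, l.length < BC.length → κ l = .inr l := fun l hl => if_neg (by omega)
  exact ⟨{ D := Δ.D
           φ := Δ.φ
           α := Δ.α
           invol := Δ.invol
           star := Δ.star
           hstar := Δ.hstar
           pl := Δ.pl
           lab := Δ.lab
           pos := fun d => Sum.elim Sum.inl κ (Δ.pos d)
           el := Δ.el
           hlab := Δ.hlab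
           hstep := by
             intro d hd
             have := Δ.hstep d hd
             rcases hp : Δ.pos d with z | l
             · rw [hp] at this
               obtain ⟨z', e1, e2⟩ := this.of_inl
               rw [e1]; exact e2
             · rw [hp] at this
               obtain ⟨l', e1, rfl⟩ := this.of_inr
               rw [e1]
               simp only [Sum.elim_inr]
               rcases hQ d _ hp with ⟨z, l₀, e, hz⟩ | hl
               · rw [e, κ1 _ _ hz]
                 cases hz with
                 | nil =>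
                   rw [List.nil_append] at e
                   rw [κ2 l' (by rw [← e]; simp)]
                   exact ⟨rfl, e⟩
                 | cons s hz' =>
                   obtain ⟨b1, b2⟩ := List.cons.inj e
                   rw [b2, b1]
                   exact (κ1 _ _ hz').symm ▸ s
               · rw [κ2 _ hl, κ2 l' (by simp at hl; omega)]
                 exact rfl
           hdum := fun d h1 h2 => absurd h1 (hΔ.nodum d h2)
           hx := by rw [Δ.hx]; exact κ1 _ _ hv
           hy := by
             rw [Δ.hy]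
             split_ifs with c
             · subst c; exact κ1 [] _ (.nil _)
             · exact κ2 _ (List.length_pos_iff.2 c)
           hel := Δ.hel
           hel2 := Δ.hel2 }⟩

theorem word2 [Nonempty S] (H : SC Step L) (h : Gp Step → ℕ)
    (lip : ∀ z a, h (z * gen Step a) ≤ h z + 1) (z : Gp Step) {v v' : V} {w : List (S × Bool)}
    (hv : Wk Step v w v') (hne : v ≠ v') (B C : List (S × Bool))
    (hB : Desc (gen Step) h (z * (w.map (gen Step)).prod) B) (hC : Desc (gen Step) h z C)
    (hw : (w.map (gen Step)).prod * (B.map (gen Step)).prod = (C.map (gen Step)).prod)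
    (exB : ∀ a u, B.head? = some a → ¬ Step v' a u) (exC : ∀ a u, C.head? = some a → ¬ Step v a u) :
    ∃ u u' w', Wk Step v w' v' ∧ Wk Step u w' u' ∧ w'.length < L v ∧
      Rd Step u C (2 * L u) ∧ Rd Step u' B (2 * L u) := by
  classical
  have hw' : z * (w.map (gen Step)).prod * (B.map (gen Step)).prod =
      z * (C.map (gen Step)).prod := by rw [mul_assoc, hw]
  obtain ⟨BC, hBC⟩ : ∃ BC, BC = B ++ FreeGroup.invRev C := ⟨_, rfl⟩
  have lBC : BC.length = B.length + C.length := by simp [hBC]
  have w0 : z * (w.map (gen Step)).prod * (BC.map (gen Step)).prod = z := by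
    have := prod_BC gen_linv hw' C.length le_rfl
    rw [List.take_of_length_le (by simp), Nat.sub_self] at this
    simpa [hBC] using this
  obtain ⟨Δ, red⟩ := exists_red gen_linv (exists_Q H (BC := BC) hv (by
    rw [List.map_append, List.prod_append]
    rw [mul_assoc] at w0
    simpa using w0))
  obtain ⟨c₀, hc₀⟩ : ∃ c₀, c₀ * Δ.el (bd Δ 0) = z := ⟨z * (Δ.el (bd Δ 0))⁻¹, by simp⟩
  have b0 : bd Δ 0 = Δ.φ Δ.star := by simp [bd]
  have hO : ∀ l d, Δ.pos d = .inr l → Ou Δ d := by
    intro l
    induction l with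
    | nil =>
      intro d hd
      by_contra hc
      have := Δ.hstep d (red.nodum d (by rintro rfl; exact hc Ou_star))
      rw [hd] at this
      obtain ⟨l', -, e⟩ := this.of_inr
      simp at e
    | cons a l ih =>
      intro d hd
      by_contra hc
      have := Δ.hstep d (red.nodum d (by rintro rfl; exact hc Ou_star))
      rw [hd] at this
      obtain ⟨l', e1, e⟩ := this.of_inr
      rw [← (List.cons.inj e).2] at e1
      exact hc ((Ou_phi d).1 (ih _ e1))
  let π : Δ.D → V := fun d => Sum.elim id (fun _ => v) (Δ.pos d)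
  have hJ0 : ∀ d, d ≠ Δ.star → (∀ l, Δ.pos d ≠ .inr l) → (∀ l, Δ.pos (Δ.φ d) ≠ .inr l) →
      Δ.J Step Sum.inl π d := by
    intro d c h1 h2
    have := Δ.hstep d (red.nodum d c)
    rcases hp : Δ.pos d with p | l
    · rcases hq : Δ.pos (Δ.φ d) with q | l
      · rw [hp, hq] at this
        simp only [Dg.J, π, hp, hq, Sum.elim_inl, id]
        exact ⟨c, this, trivial, trivial⟩
      · exact absurd hq (h2 l)
    · exact absurd hp (h1 l)
  have hJ : ∀ d, ¬ Ou Δ d → Δ.J Step Sum.inl π d := fun d hd =>
    hJ0 d (by rintro rfl; exact hd Ou_star) (fun l hl => hd (hO l d hl))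
      (fun l hl => hd ((Ou_phi d).1 (hO l _ hl)))
  have hex : ∃ j, bd Δ j = Δ.star ∨ ∃ l, Δ.pos (bd Δ (j + 1)) = .inr l := by
    refine ⟨orderOf Δ.φ - 1, Or.inl ?_⟩
    rw [bd, Nat.sub_add_cancel (orderOf_pos Δ.φ), pow_orderOf_eq_one]
    rfl
  obtain ⟨nA, hA1, hA2⟩ : ∃ nA, (bd Δ nA = Δ.star ∨ ∃ l, Δ.pos (bd Δ (nA + 1)) = .inr l) ∧
      ∀ j < nA, bd Δ j ≠ Δ.star ∧ ∀ l, Δ.pos (bd Δ (j + 1)) ≠ .inr l :=
    ⟨Nat.find hex, Nat.find_spec hex, fun j hj => by
      have := Nat.find_min hex hj
      push Not at this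
      exact this⟩
  have p0 : Δ.pos (bd Δ 0) = .inl v := by rw [b0, Δ.hx]
  have hin : ∀ j ≤ nA, ∀ l, Δ.pos (bd Δ j) ≠ .inr l := by
    intro j hj l
    cases j with
    | zero => rw [p0]; simp
    | succ j => exact (hA2 j hj).2 l
  have hJA : ∀ j < nA, Δ.J Step Sum.inl π (bd Δ j) := fun j hj =>
    hJ0 _ (hA2 j hj).1 (hin j hj.le) (by rw [← bd_succ]; exact (hA2 j hj).2)
  have π0 : π (bd Δ 0) = v := by simp [π, p0]
  have key : π (bd Δ nA) = v' ∧ bd Δ (nA + BC.length) = Δ.star ∧
      ∀ j (hj : j < BC.length), bd Δ (nA + j) ≠ Δ.star ∧ Δ.lab (bd Δ (nA + j)) = BC[j] := by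
    by_cases c : bd Δ nA = Δ.star
    · have hy := (congrArg Δ.pos c).trans Δ.hy
      by_cases c' : BC = []
      · have hy := hy.trans (if_pos c')
        have l0 : BC.length = 0 := List.length_eq_zero_iff.2 c'
        exact ⟨by simp [π, hy], by rw [l0]; exact c, fun j hj => absurd hj (by omega)⟩
      · exact absurd (hy.trans (if_neg c')) (hin nA le_rfl _)
    · obtain ⟨l, hl⟩ := hA1.resolve_left c
      have := Δ.hstep _ (red.nodum _ c)
      rw [← bd_succ, hl] at this
      rcases hp : Δ.pos (bd Δ nA) with p | l'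
      swap
      · exact absurd hp (hin nA le_rfl _)
      rw [hp] at this
      obtain ⟨rfl, e⟩ := this
      have c' : BC ≠ [] := by rw [← e]; simp
      have hy := Δ.hy.trans (if_neg c')
      have stp : ∀ j (hj : j < BC.length), Δ.pos (bd Δ (nA + j)) = .inr (BC.drop j) →
          bd Δ (nA + j) ≠ Δ.star ∧ Δ.lab (bd Δ (nA + j)) = BC[j] ∧
            Δ.pos (bd Δ (nA + (j + 1))) = .inr (BC.drop (j + 1)) := by
        intro j hj hp
        rw [List.drop_eq_getElem_cons hj] at hp
        have ne : bd Δ (nA + j) ≠ Δ.star := by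
          intro hc
          rw [hc, hy] at hp
          exact List.cons_ne_nil _ _ (Sum.inr.inj hp).symm
        have := Δ.hstep _ (red.nodum _ ne)
        rw [hp] at this
        obtain ⟨l', e1, e2⟩ := this.of_inr
        obtain ⟨b1, b2⟩ := List.cons.inj e2
        exact ⟨ne, b1.symm, by rw [← add_assoc, bd_succ, e1, b2]⟩
      have hb : ∀ j, j + 1 ≤ BC.length →
          Δ.pos (bd Δ (nA + (j + 1))) = .inr (BC.drop (j + 1)) := by
        intro j
        induction j with
        | zero => exact fun _ => hl.trans (congrArg (fun t => Sum.inr (List.drop 1 t)) e)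
        | succ j ih => intro hj; exact (stp (j + 1) hj (ih (by omega))).2.2
      refine ⟨by simp [π, hp], ?_, fun j hj => ?_⟩
      · by_contra hc
        have h0 := List.length_pos_iff.2 c'
        have := Δ.hstep _ (red.nodum _ hc)
        have b := hb (BC.length - 1) (by omega)
        rw [Nat.sub_add_cancel h0, List.drop_length] at b
        rw [b] at this
        obtain ⟨l', -, e2⟩ := this.of_inr
        simp at e2
      · cases j with
        | zero => exact ⟨c, (List.getElem_of_eq e.symm hj).symm⟩
        | succ j => exact ⟨(stp _ hj (hb j hj.le)).1, (stp _ hj (hb j hj.le)).2.1⟩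
  obtain ⟨k1, k2, k3⟩ := key
  have hA : 0 < nA := Nat.pos_of_ne_zero (by rintro rfl; exact hne (π0.symm.trans k1))
  obtain ⟨w', hw'd⟩ : ∃ w', w' = (List.range nA).map fun j => Δ.lab (bd Δ j) := ⟨_, rfl⟩
  have elA : ∀ j ≤ nA, c₀ * Δ.el (bd Δ j) =
      z * (((List.range j).map fun j => Δ.lab (bd Δ j)).map (gen Step)).prod := by
    intro j
    induction j with
    | zero => intro _; simpa using hc₀
    | succ j ih =>
      intro hj
      rw [bd_succ, Δ.hel2 _ (red.nodum _ (hA2 j hj).1), ← mul_assoc, ih (by omega),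
        List.range_succ]
      simp [mul_assoc]
  have elB : ∀ j ≤ BC.length, c₀ * Δ.el (bd Δ (nA + j)) =
      z * (w'.map (gen Step)).prod * ((BC.take j).map (gen Step)).prod := by
    intro j
    induction j with
    | zero => intro _; simpa [hw'd] using elA nA le_rfl
    | succ j ih =>
      intro hj
      rw [← add_assoc, bd_succ, Δ.hel2 _ (red.nodum _ (k3 j hj).1), ← mul_assoc, ih (by omega),
        (k3 j hj).2, take_prod_succ _ _ hj, mul_assoc]
  have ww : (w'.map (gen Step)).prod = (w.map (gen Step)).prod := by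
    have := elB _ le_rfl
    rw [k2, List.take_length, ← Δ.hstar, ← Δ.hel, ← b0, hc₀] at this
    rw [← w0] at this
    nth_rewrite 2 [w0] at this
    exact (mul_left_cancel (mul_right_cancel this)).symm
  have nb : ∀ j, j + 1 < nA → Δ.lab (bd Δ (j + 1)) ≠ linv (Δ.lab (bd Δ j)) := fun j hj => by
    have := hJA (j + 1) hj
    rw [bd_succ] at this ⊢
    exact J_nb' H red (hJA j (by omega)) this
  obtain ⟨e, e1, e2, e3, e4⟩ := core H red gen_linv Sum.inl π nA h lip c₀ _ z B C
    hB hC hw' (by rwa [add_assoc, ← lBC]) (fun j hj => by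
      by_cases c : j < nA
      · exact (hA2 j c).1
      · obtain ⟨i, rfl⟩ := Nat.exists_eq_add_of_le (not_lt.1 c)
        exact (k3 i (by omega)).1) hJ
    (fun j hj => by subst hBC; exact (k3 j hj).2)
    (fun j hj => by rw [elB j (by omega), ww, hBC])
    hA (fun j hj hc => nb j hj (by rw [← hc, Δ.hlab _ (red.nodum _ (hA2 j (by omega)).1)]))
    (fun hc => by
      have := H.sym _ _ _ (hJA (nA - 1) (by omega)).2.1
      rw [← bd_succ, Nat.sub_add_cancel hA, k1] at this
      exact exB _ _ hc this)
    (fun hc => exC _ _ hc (π0 ▸ (hJA 0 hA).2.1))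
    (fun e j he hj hr => J_run' H red (d := e) (fun i _ => hJ _ (by rwa [Ou_pow]))
      (fun i hi => by rw [(hr i hi).2]; exact hJA _ (by omega))
      (fun i hi => by
        have := (hr _ hi).1
        rw [(hr _ hi).2, (hr i (by omega)).2, ← bd_succ]
        congr 1
        omega))
  have sA : ∀ i < nA, Step (π (bd Δ i)) (Δ.lab (bd Δ i)) (π (bd Δ (i + 1))) := fun i hi => by
    rw [bd_succ]; exact (hJA i hi).2.1
  have sU : ∀ i < nA, Step (π ((Δ.φ ^ (nA - i)) e)) (Δ.lab (bd Δ i))
      (π ((Δ.φ ^ (nA - (i + 1))) e)) := fun i hi => by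
    have a1 := e2 (nA - (i + 1)) (by omega)
    rw [show nA - 1 - (nA - (i + 1)) = i by omega] at a1
    have := H.sym _ _ _ (hJ _ (by rwa [Ou_pow] : ¬ Ou Δ ((Δ.φ ^ (nA - (i + 1))) e))).2.1
    rw [show Δ.lab ((Δ.φ ^ (nA - (i + 1))) e) = linv (Δ.lab (bd Δ i)) by
      rw [a1, Δ.hlab _ (red.nodum _ (hA2 i hi).1)], linv_linv, ← Perm.mul_apply, ← pow_succ',
      show nA - (i + 1) + 1 = nA - i by omega] at this
    exact this
  have W1 := Wk_of_fun (fun i => π (bd Δ i)) _ nA sA
  have W2 := Wk_of_fun (fun i => π ((Δ.φ ^ (nA - i)) e)) _ nA sU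
  simp only [π0, k1, Nat.sub_zero, Nat.sub_self, pow_zero, Perm.one_apply, ← hw'd] at W1 W2
  rw [Wk_scale H W2] at e3 e4
  refine ⟨_, _, w', W1, W2, ?_, e3, e4⟩
  by_contra hc
  rw [hw'd, List.length_map, List.length_range, not_lt, ← π0] at hc
  have := H.piece (fun i => π (bd Δ i)) (fun i => π ((Δ.φ ^ (nA - i)) e))
    (fun i => Δ.lab (bd Δ i)) (fun i hi => sA i (by omega)) (fun i hi => sU i (by omega))
    (fun i hi => nb i (by omega))
  simp only [π0, Nat.sub_zero] at this
  rw [← this] at e3
  obtain ⟨a1, u', a2⟩ := e3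
  have a3 := H.two v
  obtain ⟨m, hm⟩ : ∃ m, 2 * L v = m + 1 := ⟨2 * L v - 1, by omega⟩
  rw [hm] at a1 a2
  cases C with
  | nil => simp at a1
  | cons c C =>
    rw [List.take_succ_cons] at a2
    cases a2 with
    | cons s _ => exact exC _ _ rfl s

theorem wk_inj' [Nonempty S] (H : SC Step L) {v v' : V} {u : List (S × Bool)}
    (hu : Wk Step v u v') (h1 : (u.map (gen Step)).prod = 1) : v = v' := by
  by_contra hne
  obtain ⟨a, -, -, -, -, -, ⟨b, -⟩, -⟩ := word2 H (fun _ => 0) (fun _ _ => by simp) 1 hu hne [] []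
    trivial trivial (by simpa using h1) (by simp) (by simp)
  have := H.two a
  simp at b
  omega

theorem exists_dev' [Nonempty S] (H : SC Step L) :
    ∃ f : V → Gp Step, (∀ v a v', Step v a v' → f v' = f v * gen Step a) ∧
      ∀ v u v', Wk Step v u v' → f v = f v' → v = v' := by
  let st : Setoid V :=
    { r := fun v v' => ∃ u, Wk Step v u v'
      iseqv := ⟨fun v => ⟨[], .nil v⟩, fun ⟨u, h⟩ => ⟨_, h.rev H.sym⟩,
        fun ⟨u, h⟩ ⟨u', h'⟩ => ⟨_, h.append h'⟩⟩ }
  have hc : ∀ v, ∃ u, Wk Step (Quotient.mk st v).out u v := fun v => Quotient.mk_out (s := st) v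
  choose c hc using hc
  have key : ∀ v u v', Wk Step v u v' →
      ((c v').map (gen Step)).prod = ((c v).map (gen Step)).prod * (u.map (gen Step)).prod := by
    intro v u v' h
    have e : Quotient.mk st v = Quotient.mk st v' := Quotient.sound ⟨u, h⟩
    have h1 := hc v'
    rw [← e] at h1
    have := (((hc v).append h).append (h1.rev H.sym)).gen_prod
    rw [gen_prod, ← FreeGroup.mul_mk, ← FreeGroup.mul_mk, ← FreeGroup.inv_mk,
      QuotientGroup.mk_mul, QuotientGroup.mk_mul, QuotientGroup.mk_inv, mul_inv_eq_one] at this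
    rw [gen_prod, gen_prod, gen_prod, this]
  refine ⟨fun v => ((c v).map (gen Step)).prod, fun v a v' h => ?_, fun v u v' h e => ?_⟩
  · simpa using key v [a] v' (.cons h (.nil _))
  · have := key v u v' h
    dsimp only at e
    rw [← e] at this
    exact wk_inj' H h (by simpa using this)

end Vale.Agent.P089
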