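import Vale.Agent.P089.Word
import Vale.Agent.P089.Word2

/-!
PLAN. `h z` = least length of a word for `z` (`gen_surj`), `tw z` = a geodesic word from `z` to `1` chosen coherently:
`t z` a letter with `h (z * γ (t z)) + 1 = h z` when `z ≠ 1`, `tw z = t z :: tw (z * γ (t z))` (recursion on `h z`), `tw 1 = []`.
`Desc γ h z (tw z)`, `z * (tw z).prod = 1`, `tw z` is reduced. `Fol z v = Rd Step v (tw z) (2 * L v)`,
`rk c n = min over u of h (c * f ⟨n, u⟩)`. Each `U n` is connected (`xp`: a component or its complement has at most half of the vertices and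
is closed under all colours), which gives `f_inj` from `exists_dev'`.
`uniq`: `piece` for the smaller scale. `edge`: `word1`. For `few`, `ord`: let `p` minimise `h (c * f p)`, follow `tw z` from `v` as long as it is readable
(`k` steps, reaching `v_k`, `z_k`; `tw z_k = (tw z).drop k`); if `v_k ≠ p` apply `word2` to a walk from `v_k` to `p`.
`few`: `¬ Fol` means `k < 2 L`, so `v` is within `3 L` steps of `p`; balls of radius `3 L` have at most `129 ^ (3 L)` points; `small`.
`ord`: `v ≠ v'`, so `k < L v'` by `piece`; the walk from `v'` continues past `z_k` for more than `L v'` letters. If `v_k = p` its next point has height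
`rk c n - 1`. Otherwise `u = v'_k` by `piece`, so `c * f p` sits at `u'` in the copy of `v'`, and the first letter of `tw (c * f p)` read from `u'` gives a
point of that copy of height `rk c n - 1`.
-/

namespace Vale.Agent.P089

open Vale.Agent.P194

namespace GeoAux

section tree

variable {S G : Type} [Group G] {γ : S × Bool → G}

/-- a coherent choice of geodesics to the origin -/
structure Tr (γ : S × Bool → G) where
  h : G → ℕ
  t : G → S × Bool
  tw : G → List (S × Bool)
  lip : ∀ z a, h (z * γ a) ≤ h z + 1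
  one : h 1 = 0
  desc : ∀ z, Desc γ h z (tw z)
  prod : ∀ z, z * ((tw z).map γ).prod = 1
  cons : ∀ z a l, tw z = a :: l → a = t z ∧ l = tw (z * γ a)

theorem exists_height (hγ : ∀ a, γ (linv a) = (γ a)⁻¹)
    (hs : ∀ z, ∃ l : List (S × Bool), (l.map γ).prod = z) :
    ∃ h : G → ℕ, (∀ z a, h (z * γ a) ≤ h z + 1) ∧ h 1 = 0 ∧ (∀ z, h z = 0 → z = 1) ∧
      ∀ z, h z ≠ 0 → ∃ a, h (z * γ a) + 1 = h z := by
  classical
  have ex : ∀ z, ∃ k, ∃ l : List (S × Bool), l.length = k ∧ (l.map γ).prod = z := fun z => by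
    obtain ⟨l, hl⟩ := hs z
    exact ⟨_, l, rfl, hl⟩
  have le : ∀ l : List (S × Bool), Nat.find (ex (l.map γ).prod) ≤ l.length := fun l =>
    Nat.find_min' _ ⟨l, rfl, rfl⟩
  have lip : ∀ z a, Nat.find (ex (z * γ a)) ≤ Nat.find (ex z) + 1 := by
    intro z a
    obtain ⟨l, hl, hz⟩ := Nat.find_spec (ex z)
    refine Nat.find_min' _ ⟨l ++ [a], by simp [hl], by simp [hz]⟩
  refine ⟨fun z => Nat.find (ex z), lip, Nat.le_zero.mp (Nat.find_min' _ ⟨[], rfl, rfl⟩), ?_, ?_⟩
  · intro z hz
    obtain ⟨l, hl, hz'⟩ := Nat.find_spec (ex z)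
    rw [List.length_eq_zero_iff.mp (hl.trans hz)] at hz'
    exact hz'.symm
  · intro z hz
    obtain ⟨l, hl, hz'⟩ := Nat.find_spec (ex z)
    have hne : l ≠ [] := fun h => hz (hl.symm.trans (by rw [h]; rfl))
    obtain ⟨l', a, rfl⟩ : ∃ l' a, l = l' ++ [a] := ⟨_, _, (List.dropLast_append_getLast hne).symm⟩
    refine ⟨linv a, ?_⟩
    have e1 : (l'.map γ).prod = z * γ (linv a) := by
      rw [← hz', hγ]
      simp
    have h1 : Nat.find (ex (z * γ (linv a))) ≤ l'.length := Nat.find_min' _ ⟨l', rfl, e1⟩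
    have h2 := lip (z * γ (linv a)) a
    have e2 : z * γ (linv a) * γ a = z := by rw [hγ]; simp
    simp only [e2] at h2
    simp only [List.length_append, List.length_singleton] at hl
    show Nat.find (ex (z * γ (linv a))) + 1 = Nat.find (ex z)
    omega

/-- follow the letters `t` -/
def fw (γ : S × Bool → G) (t : G → S × Bool) : ℕ → G → List (S × Bool)
  | 0, _ => []
  | k + 1, z => t z :: fw γ t k (z * γ (t z))

theorem exists_tree [Nonempty S] (hγ : ∀ a, γ (linv a) = (γ a)⁻¹)
    (hs : ∀ z, ∃ l : List (S × Bool), (l.map γ).prod = z) : Nonempty (Tr γ) := by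
  obtain ⟨h, lip, h1, h0, hd⟩ := exists_height hγ hs
  have : ∀ z, ∃ a, h z ≠ 0 → h (z * γ a) + 1 = h z := fun z => by
    by_cases hz : h z = 0
    · exact ⟨Classical.arbitrary _, fun h => absurd hz h⟩
    · obtain ⟨a, ha⟩ := hd z hz
      exact ⟨a, fun _ => ha⟩
  choose t ht using this
  have key : ∀ k z, h z = k → Desc γ h z (fw γ t k z) ∧ z * ((fw γ t k z).map γ).prod = 1 := by
    intro k
    induction k with
    | zero => intro z hz; exact ⟨trivial, by simp [fw, h0 z hz]⟩
    | succ k ih =>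
      intro z hz
      have e := ht z (by omega)
      obtain ⟨i1, i2⟩ := ih (z * γ (t z)) (by omega)
      exact ⟨⟨e, i1⟩, by rw [fw, List.map_cons, List.prod_cons, ← mul_assoc, i2]⟩
  refine ⟨⟨h, t, fun z => fw γ t (h z) z, lip, h1, fun z => (key _ z rfl).1,
    fun z => (key _ z rfl).2, fun z a l hl => ?_⟩⟩
  rcases hk : h z with _ | k
  · simp only [hk, fw] at hl
    cases hl
  · simp only [hk, fw, List.cons.injEq] at hl
    obtain ⟨rfl, rfl⟩ := hl
    have e := ht z (by omega)
    refine ⟨rfl, ?_⟩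
    rw [show h (z * γ (t z)) = k by omega]

theorem desc_red (hγ : ∀ a, γ (linv a) = (γ a)⁻¹) {h : G → ℕ} :
    ∀ {l : List (S × Bool)} {z : G}, Desc γ h z l → ∀ i (hi : i + 1 < l.length),
      l[i + 1] ≠ linv (l[i]'(by omega))
  | [], _, _, i, hi => absurd hi (by simp)
  | [_], _, _, i, hi => absurd hi (by simp)
  | a :: b :: l, z, hd, 0, _ => by
    intro he
    have e : b = linv a := he
    have h1 := hd.1
    have h2 := hd.2.1
    rw [e, hγ, mul_inv_cancel_right] at h2
    omega
  | a :: b :: l, z, hd, i + 1, hi => desc_red hγ hd.2 i (by simpa using hi)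

end tree

section walks

variable {S V : Type} {Step : V → S × Bool → V → Prop} {L : V → ℕ}

theorem wk_split {l₁ l₂ : List (S × Bool)} : ∀ {u u'' : V}, Wk Step u (l₁ ++ l₂) u'' →
    ∃ u', Wk Step u l₁ u' ∧ Wk Step u' l₂ u'' := by
  induction l₁ with
  | nil => intro u u'' h; exact ⟨u, .nil u, h⟩
  | cons a l ih =>
    intro u u'' h
    cases h with
    | cons s h =>
      obtain ⟨u', h1, h2⟩ := ih h
      exact ⟨u', .cons s h1, h2⟩

theorem rd_mono {u : V} {l : List (S × Bool)} {m m' : ℕ} (h : Rd Step u l m) (hm : m' ≤ m) :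
    Rd Step u l m' := by
  obtain ⟨h1, u', h2⟩ := h
  rw [← List.take_append_drop m' (l.take m), List.take_take, min_eq_left hm] at h2
  obtain ⟨u₁, h3, -⟩ := wk_split h2
  exact ⟨hm.trans h1, u₁, h3⟩

theorem rd_append {u u' : V} {l₁ : List (S × Bool)} (l₂ : List (S × Bool)) (h : Wk Step u l₁ u') :
    Rd Step u (l₁ ++ l₂) l₁.length := ⟨by simp, u', by simpa using h⟩

theorem rd_split {u : V} {l₁ l₂ : List (S × Bool)} {m : ℕ} (h : Rd Step u (l₁ ++ l₂) (l₁.length + m)) :
    ∃ u', Wk Step u l₁ u' ∧ Rd Step u' l₂ m := by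
  obtain ⟨h1, u'', h2⟩ := h
  rw [List.take_length_add_append] at h2
  obtain ⟨u', h3, h4⟩ := wk_split h2
  exact ⟨u', h3, by simpa using h1, u'', h4⟩

theorem rd_one {u : V} {l : List (S × Bool)} (h : Rd Step u l 1) :
    ∃ a l' u', l = a :: l' ∧ Step u a u' := by
  obtain ⟨h1, u'', h2⟩ := h
  cases l with
  | nil => simp at h1
  | cons a l' =>
    cases h2 with
    | cons s _ => exact ⟨a, l', _, rfl, s⟩

theorem piece_rd [Nonempty S] (H : SC Step L) {h : Gp Step → ℕ} {z : Gp Step} {l : List (S × Bool)}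
    (hd : Desc (gen Step) h z l) {u v : V} {m m' : ℕ} (hu : Rd Step u l m) (hv : Rd Step v l m')
    (h1 : L u ≤ m) (h2 : L u ≤ m') : u = v := by
  obtain ⟨hl, u', wu⟩ := rd_mono hu h1
  obtain ⟨-, v', wv⟩ := rd_mono hv h2
  obtain ⟨p, p0, -, ps⟩ := wu.exists_fun
  obtain ⟨q, q0, -, qs⟩ := wv.exists_fun
  have hlen : (l.take (L u)).length = L u := by simp [hl]
  have := H.piece p q (fun i => if hi : i < l.length then l[i] else Classical.arbitrary _)
    (fun i hi => by
      rw [p0] at hi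
      have := ps i (by omega)
      rw [dif_pos (by omega)]
      simpa using this)
    (fun i hi => by
      rw [p0] at hi
      have := qs i (by omega)
      rw [dif_pos (by omega)]
      simpa using this)
    (fun i hi => by
      rw [p0] at hi
      rw [dif_pos (by omega), dif_pos (by omega)]
      exact desc_red gen_linv hd i (by omega))
  rwa [p0, q0] at this

theorem wk_scale (H : SC Step L) {u u' : V} {l : List (S × Bool)} (h : Wk Step u l u') :
    L u' = L u := by
  induction h with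
  | nil v => rfl
  | cons s _ ih => rw [ih, H.scale _ _ _ s]

theorem wk_dev {f : V → Gp Step} (hf : ∀ v a v', Step v a v' → f v' = f v * gen Step a)
    {u u' : V} {l : List (S × Bool)} (h : Wk Step u l u') :
    f u' = f u * (l.map (gen Step)).prod := by
  induction h with
  | nil v => simp
  | cons s _ ih => rw [ih, hf _ _ _ s, List.map_cons, List.prod_cons, mul_assoc]

theorem follow (T : Tr (gen Step)) {f : V → Gp Step}
    (hf : ∀ v a v', Step v a v' → f v' = f v * gen Step a) (c : Gp Step) :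
    ∀ (k : ℕ) (x : V), (T.tw (c * f x)).length = k → ∃ l₁ x', Wk Step x l₁ x' ∧
      T.tw (c * f x) = l₁ ++ T.tw (c * f x') ∧
      ∀ a u, (T.tw (c * f x')).head? = some a → ¬ Step x' a u := by
  intro k
  induction k with
  | zero =>
    intro x hx
    refine ⟨[], x, .nil x, rfl, fun a u ha => ?_⟩
    rw [List.length_eq_zero_iff.mp hx] at ha
    cases ha
  | succ k ih =>
    intro x hx
    by_cases hc : ∀ a u, (T.tw (c * f x)).head? = some a → ¬ Step x a u
    · exact ⟨[], x, .nil x, rfl, hc⟩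
    · push Not at hc
      obtain ⟨a, u, ha, hs⟩ := hc
      obtain ⟨l, hl⟩ := List.head?_eq_some_iff.mp ha
      have e := (T.cons _ _ _ hl).2
      rw [mul_assoc, ← hf _ _ _ hs] at e
      obtain ⟨l₁, x', w, e', ex⟩ := ih u (by
        rw [← e]
        rw [hl] at hx
        simpa using hx)
      exact ⟨a :: l₁, x', .cons hs w, by rw [hl, e, e']; rfl, ex⟩

theorem near [Nonempty S] (H : SC Step L) (T : Tr (gen Step)) {f : V → Gp Step}
    (hf : ∀ v a v', Step v a v' → f v' = f v * gen Step a) (c : Gp Step) (x p : V)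
    (hc : ∀ l x', Wk Step x l x' → ∃ w, Wk Step x' w p)
    (hp : ∀ a u, Step p a u → T.h (c * f p) ≤ T.h (c * f u)) :
    ∃ l₁ x', Wk Step x l₁ x' ∧ T.tw (c * f x) = l₁ ++ T.tw (c * f x') ∧
      (x' = p ∨ ∃ u u' w', Wk Step x' w' p ∧ Wk Step u w' u' ∧ w'.length < L x' ∧
        Rd Step u (T.tw (c * f x')) (2 * L u) ∧ Rd Step u' (T.tw (c * f p)) (2 * L u)) := by
  obtain ⟨l₁, x', w1, e, ex⟩ := follow T hf c _ x rfl
  refine ⟨l₁, x', w1, e, ?_⟩
  by_cases hx : x' = p
  · exact .inl hx
  · right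
    obtain ⟨w, hw⟩ := hc l₁ x' w1
    have e1 : c * f x' * (w.map (gen Step)).prod = c * f p := by rw [wk_dev hf hw, mul_assoc]
    refine word2 H T.h T.lip (c * f x') hw hx _ _ (e1 ▸ T.desc _) (T.desc _) ?_ ?_ ex
    · apply mul_left_cancel (a := c * f x')
      rw [← mul_assoc, e1, T.prod, T.prod]
    · intro a u ha hs
      obtain ⟨l, hl⟩ := List.head?_eq_some_iff.mp ha
      have h1 := T.desc (c * f p)
      rw [hl] at h1
      have h2 := h1.1
      have h3 := hp a u hs
      rw [hf _ _ _ hs, ← mul_assoc] at h3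
      omega

theorem lower_pt [Nonempty S] (H : SC Step L) (T : Tr (gen Step)) {f : V → Gp Step}
    (hf : ∀ v a v', Step v a v' → f v' = f v * gen Step a) (c : Gp Step) (x p : V)
    (hc : ∀ l x', Wk Step x l x' → ∃ w, Wk Step x' w p)
    (hp : ∀ a u, Step p a u → T.h (c * f p) ≤ T.h (c * f u)) {v' : V} (hne : v' ≠ x)
    (hv : Rd Step v' (T.tw (c * f x)) (2 * L v')) :
    ∃ l y, Wk Step v' l y ∧ T.h (c * f x * (f v')⁻¹ * f y) < T.h (c * f p) := by
  obtain ⟨l₁, x', w1, e, hcase⟩ := near H T hf c x p hc hp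
  have hk : l₁.length < L v' := by
    by_contra hk
    exact hne (piece_rd H (T.desc _) hv (e ▸ rd_append _ w1) (by omega) (by omega))
  obtain ⟨y₁, wy, ry⟩ : ∃ y₁, Wk Step v' l₁ y₁ ∧ Rd Step y₁ (T.tw (c * f x')) (L v' + 1) :=
    rd_split (rd_mono (e ▸ hv) (by omega))
  have ey : c * f x * (f v')⁻¹ * f y₁ = c * f x' := by
    rw [wk_dev hf wy, wk_dev hf w1]
    group
  have ly := wk_scale H wy
  obtain ⟨l, y, wl, e2, r1⟩ : ∃ l y, Wk Step v' l y ∧ c * f x * (f v')⁻¹ * f y = c * f p ∧
      Rd Step y (T.tw (c * f p)) 1 := by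
    rcases hcase with rfl | ⟨u, u', w', a1, a2, -, a4, a5⟩
    · exact ⟨l₁, y₁, wy, ey, rd_mono ry (by omega)⟩
    · have hu : u = y₁ := by
        rcases le_total (L u) (L v') with h | h
        · exact piece_rd H (T.desc _) a4 ry (by omega) (by omega)
        · exact (piece_rd H (T.desc _) ry a4 (by omega) (by omega)).symm
      subst hu
      refine ⟨l₁ ++ w', u', wy.append a2, ?_, rd_mono a5 (by have := H.two u; omega)⟩
      rw [wk_dev hf a2, ← mul_assoc, ey, wk_dev hf a1, mul_assoc]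
  obtain ⟨a, l', y', hl, hs⟩ := rd_one r1
  refine ⟨l ++ [a], y', wl.append (.cons hs (.nil _)), ?_⟩
  have h1 := T.desc (c * f p)
  rw [hl] at h1
  have h2 := h1.1
  rw [hf _ _ _ hs, ← mul_assoc, e2]
  omega

end walks

section mon

variable (M : Mon)

theorem step_nx (n : ℕ) (q : Fin 128) (v : M.U n) : M.Step ⟨n, v⟩ (M.lt n q v) ⟨n, M.nx n q v⟩ := by
  refine ⟨?_, ?_⟩ <;> simp only [M.prt_lt]

theorem wk_level {u u' : M.V} {l : List (M.S × Bool)} (h : Wk M.Step u l u') : u'.1 = u.1 := by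
  induction h with
  | nil v => rfl
  | cons s _ ih => rw [ih, s.2]

theorem closed_empty (n : ℕ) (F : Finset (M.U n)) (h1 : 2 * F.card ≤ Fintype.card (M.U n))
    (h2 : ∀ q, ∀ v ∈ F, M.nx n q v ∈ F) : F = ∅ := by
  have h := M.xp n F h1
  have e : (Finset.univ.filter fun p : Fin 128 × M.U n => p.2 ∈ F ∧ M.nx n p.1 p.2 ∈ F) =
      Finset.univ ×ˢ F := by
    ext p
    simp only [Finset.mem_filter, Finset.mem_univ, true_and, Finset.mem_product]
    exact ⟨fun h => h.1, fun h => ⟨h, h2 _ _ h⟩⟩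
  rw [e, Finset.card_product, Finset.card_univ, Fintype.card_fin] at h
  exact Finset.card_eq_zero.mp (by omega)

theorem conn (n : ℕ) (u v : M.U n) : ∃ w, Wk M.Step ⟨n, u⟩ w ⟨n, v⟩ := by
  classical
  set F := Finset.univ.filter fun v : M.U n => ∃ w, Wk M.Step ⟨n, u⟩ w ⟨n, v⟩ with hF
  have hcl : ∀ q, ∀ v ∈ F, M.nx n q v ∈ F := by
    intro q v hv
    obtain ⟨w, hw⟩ := (Finset.mem_filter.mp hv).2
    exact Finset.mem_filter.mpr ⟨Finset.mem_univ _, _, hw.append (.cons (step_nx M n q v) (.nil _))⟩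
  have hu : u ∈ F := Finset.mem_filter.mpr ⟨Finset.mem_univ _, [], .nil _⟩
  by_cases h : 2 * F.card ≤ Fintype.card (M.U n)
  · rw [closed_empty M n F h hcl] at hu
    simp at hu
  · have hc := Finset.card_add_card_compl F
    have := closed_empty M n Fᶜ (by omega) fun q v hv => by
      rw [Finset.mem_compl] at hv ⊢
      intro h'
      have := hcl q _ h'
      rw [M.nx_nx] at this
      exact hv this
    have hv : v ∈ F := by
      by_contra hv
      have h3 := Finset.mem_compl.mpr hv
      rw [this] at h3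
      simp at h3
    exact (Finset.mem_filter.mp hv).2

theorem conn' (x y : M.V) (h : x.1 = y.1) : ∃ w, Wk M.Step x w y := by
  obtain ⟨n, u⟩ := x
  obtain ⟨m, v⟩ := y
  obtain rfl : n = m := h
  exact conn M n u v

theorem ball (n : ℕ) (p : M.U n) (m : ℕ) : ∃ F : Finset (M.U n), F.card ≤ 129 ^ m ∧
    ∀ v w, w.length ≤ m → Wk M.Step ⟨n, v⟩ w ⟨n, p⟩ → v ∈ F := by
  induction m with
  | zero =>
    refine ⟨{p}, by simp, fun v w hw h => ?_⟩
    rw [List.length_eq_zero_iff.mp (Nat.le_zero.mp hw)] at h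
    generalize hx : (⟨n, v⟩ : M.V) = x at h
    generalize hy : (⟨n, p⟩ : M.V) = y at h
    cases h
    exact Finset.mem_singleton.mpr (eq_of_heq (Sigma.mk.inj_iff.mp (hx.trans hy.symm)).2)
  | succ m ih =>
    obtain ⟨F, hF, hm⟩ := ih
    refine ⟨F ∪ Finset.univ.biUnion fun q => F.image (M.nx n q), ?_, fun v w hw h => ?_⟩
    · have h1 := Finset.card_union_le F (Finset.univ.biUnion fun q => F.image (M.nx n q))
      have h2 : (Finset.univ.biUnion fun q => F.image (M.nx n q)).card ≤ 128 * F.card := by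
        refine Finset.card_biUnion_le.trans ((Finset.sum_le_sum fun q _ =>
          Finset.card_image_le).trans ?_)
        simp
      rw [pow_succ]
      omega
    · cases w with
      | nil => exact Finset.mem_union_left _ (hm v [] (Nat.zero_le _) h)
      | cons a w =>
        generalize hx : (⟨n, v⟩ : M.V) = x at h
        generalize hy : (⟨n, p⟩ : M.V) = y at h
        cases h with
        | cons s h =>
          subst hx hy
          rw [s.2] at h
          have := hm _ w (by simpa using hw) h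
          refine Finset.mem_union_right _ (Finset.mem_biUnion.mpr ⟨M.prt a.1, Finset.mem_univ _,
            Finset.mem_image.mpr ⟨_, this, M.nx_nx _ _ _⟩⟩)

end mon

end GeoAux

open GeoAux in
theorem exists_geo (M : Mon) : Nonempty (Geo M) := by
  have H := M.sc
  obtain ⟨T⟩ := exists_tree (γ := gen M.Step) gen_linv fun z => by
    obtain ⟨x, rfl⟩ := QuotientGroup.mk_surjective z
    exact ⟨x.toWord, by rw [gen_prod, FreeGroup.mk_toWord]⟩
  obtain ⟨f, hf, hinj⟩ := exists_dev' H
  have hmin : ∀ (c : M.G) (x : M.V), ∃ p : M.V, p.1 = x.1 ∧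
      T.h (c * f p) = sInf {k | ∃ y : M.V, y.1 = x.1 ∧ T.h (c * f y) = k} := fun c x =>
    Nat.sInf_mem (s := {k | ∃ y : M.V, y.1 = x.1 ∧ T.h (c * f y) = k}) ⟨_, x, rfl, rfl⟩
  have hle : ∀ (c : M.G) (n : ℕ) (y : M.V), y.1 = n →
      sInf {k | ∃ y : M.V, y.1 = n ∧ T.h (c * f y) = k} ≤ T.h (c * f y) := fun c n y hy =>
    Nat.sInf_le ⟨y, hy, rfl⟩
  refine ⟨{ f := f, t := T.t, Fol := fun z v => Rd M.Step v (T.tw z) (2 * M.L v.1),
            rk := fun c n => sInf {k | ∃ y : M.V, y.1 = n ∧ T.h (c * f y) = k},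
            f_step := hf, f_inj := fun n u v huv => ?_, uniq := fun z v v' h1 h2 => ?_,
            edge := fun z a => ?_, few := fun c n B hB => ?_, ord := fun c n v hv v' hv' => ?_,
            base := fun n v => ?_ }⟩
  · obtain ⟨w, hw⟩ := conn M n u v
    exact eq_of_heq (Sigma.mk.inj_iff.mp (hinj _ w _ hw huv)).2
  · rcases le_total (M.L v.1) (M.L v'.1) with h | h
    · exact piece_rd H (T.desc z) h1 h2 (by omega) (by omega)
    · exact (piece_rd H (T.desc z) h2 h1 (by omega) (by omega)).symm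
  · by_cases c1 : a = T.t z
    · exact .inl c1
    by_cases c2 : linv a = T.t (z * M.γ a)
    · exact .inr (.inl c2)
    obtain ⟨u, u', s, r1, r2⟩ := word1 H T.h T.lip z a (T.tw (z * M.γ a)) (T.tw z) (T.desc _)
      (T.desc _) (by
        apply mul_left_cancel (a := z)
        rw [← mul_assoc, T.prod, T.prod]) (fun h => by
        obtain ⟨l, hl⟩ := List.head?_eq_some_iff.mp h
        exact c2 (T.cons _ _ _ hl).1) (fun h => by
        obtain ⟨l, hl⟩ := List.head?_eq_some_iff.mp h
        exact c1 (T.cons _ _ _ hl).1)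
    refine .inr (.inr ⟨u, u', s, r1, ?_⟩)
    have : M.L u'.1 = M.L u.1 := H.scale _ _ _ s
    rw [this]
    exact r2
  · rcases B.eq_empty_or_nonempty with rfl | ⟨v₀, -⟩
    · simp
    obtain ⟨⟨n', p⟩, hp1, hp2⟩ := hmin c ⟨n, v₀⟩
    obtain rfl : n' = n := hp1
    obtain ⟨F, hF, hm⟩ := ball M n' p (3 * M.L n')
    have hBF : B ⊆ F := by
      intro v hv
      obtain ⟨l₁, x', w1, e, hcase⟩ := near H T hf c ⟨n', v⟩ ⟨n', p⟩
        (fun l x' h => conn' M _ _ ((wk_level M h).trans rfl)) (fun a u s => by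
          rw [hp2]
          exact hle c n' u (by rw [s.2]))
      have hk : l₁.length < 2 * M.L n' := by
        by_contra hk
        exact hB v hv (rd_mono (e ▸ rd_append _ w1) (not_lt.mp hk))
      rcases hcase with rfl | ⟨u, u', w', a1, -, a3, -⟩
      · exact hm v l₁ (by omega) w1
      · have hl := wk_level M w1
        simp only [hl] at a3
        exact hm v (l₁ ++ w') (by rw [List.length_append]; omega) (w1.append a1)
    have h1 := Finset.card_le_card hBF
    have h2 := M.small n'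
    omega
  · obtain ⟨p, hp1, hp2⟩ := hmin c ⟨n, v⟩
    obtain ⟨l, y, wl, hlt⟩ := lower_pt H T hf c ⟨n, v⟩ p
      (fun l x' h => conn' M _ _ ((wk_level M h).trans hp1.symm)) (fun a u s => by
        rw [hp2]
        exact hle c n u (by rw [s.2]; exact hp1)) (v' := v') (by rintro rfl; exact hv hv') hv'
    exact (hle _ _ y (wk_level M wl)).trans_lt (hlt.trans_eq hp2)
  · have := hle (f ⟨n, v⟩)⁻¹ n ⟨n, v⟩ rfl
    rw [inv_mul_cancel, T.one] at this
    exact Nat.le_zero.mp this

end Vale.Agent.P089
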