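import Vale.Agent.P089.Basic

/-! Structure of complete copies and the isoperimetric inequality. See the PLAN in `Ext.lean`. -/

namespace Vale.Agent.P089

open Vale.Agent.P194

theorem single_inj {A : Type} [DecidableEq A] {a b : A}
    (h : (Pi.single a 1 : A → ZMod 2) = Pi.single b 1) : a = b := by
  by_contra hab
  have := congrFun h a
  rw [Pi.single_eq_same, Pi.single_eq_of_ne hab] at this
  exact one_ne_zero this

theorem Mon.step_lt (M : Mon) (n : ℕ) (q : Fin 128) (u : M.U n) :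
    M.Step ⟨n, u⟩ (M.lt n q u) ⟨n, M.nx n q u⟩ := by
  refine ⟨?_, ?_⟩ <;> simp only [M.prt_lt]

theorem Mon.γ_linv (M : Mon) (z : M.G) (a : M.S × Bool) : z * M.γ a * M.γ (linv a) = z := by
  rw [Mon.γ, Mon.γ, gen_linv, mul_inv_cancel_right]

namespace Dat

variable (d : Dat) {x : d.M.G → d.M.Al d.r}

theorem cpl_uniq {z : d.M.G} {v v' : d.M.V} (h : d.Cpl x (z * (d.g.f v)⁻¹) v.1)
    (h' : d.Cpl x (z * (d.g.f v')⁻¹) v'.1) : v = v' := by
  let σ : ℕ → Fin 128 := fun i => if Even i then 0 else 1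
  let w := walk (d.M.nx v.1) σ v.2
  let w' := walk (d.M.nx v'.1) σ v'.2
  have lt : ∀ i, z * (d.g.f v)⁻¹ * d.g.f ⟨v.1, w i⟩ = z * (d.g.f v')⁻¹ * d.g.f ⟨v'.1, w' i⟩ →
      d.M.lt v.1 (σ i) (w i) = d.M.lt v'.1 (σ i) (w' i) := by
    intro i e
    have e1 := h (w i)
    rw [e, h' (w' i)] at e1
    exact (single_inj (congrFun (congrArg Prod.fst e1) (σ i))).symm
  have inv : ∀ i, z * (d.g.f v)⁻¹ * d.g.f ⟨v.1, w i⟩ = z * (d.g.f v')⁻¹ * d.g.f ⟨v'.1, w' i⟩ := by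
    intro i
    induction i with
    | zero =>
      show z * (d.g.f v)⁻¹ * d.g.f v = z * (d.g.f v')⁻¹ * d.g.f v'
      rw [inv_mul_cancel_right, inv_mul_cancel_right]
    | succ i ih =>
      have s1 := d.g.f_step _ _ _ (d.M.step_lt v.1 (σ i) (w i))
      have s2 := d.g.f_step _ _ _ (d.M.step_lt v'.1 (σ i) (w' i))
      show z * (d.g.f v)⁻¹ * d.g.f ⟨v.1, d.M.nx v.1 (σ i) (w i)⟩ =
        z * (d.g.f v')⁻¹ * d.g.f ⟨v'.1, d.M.nx v'.1 (σ i) (w' i)⟩
      rw [s1, s2, ← mul_assoc, ← mul_assoc, ih, lt i ih]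
  refine d.M.sc.piece (fun i => ⟨v.1, w i⟩) (fun i => ⟨v'.1, w' i⟩)
    (fun i => d.M.lt v.1 (σ i) (w i)) (fun i _ => d.M.step_lt _ _ _) (fun i _ => ?_) fun i _ e => ?_
  · rw [lt i (inv i)]
    exact d.M.step_lt _ _ _
  · have e1 := congrArg (fun a => d.M.prt a.1) e
    simp only [linv, d.M.prt_lt, σ, Nat.even_add_one] at e1
    by_cases hi : Even i <;> simp [hi] at e1

open Classical in
theorem cl_def {z : d.M.G} {v : d.M.V} (h : d.Cpl x (z * (d.g.f v)⁻¹) v.1) :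
    d.cl x z = Finset.univ.image fun u : d.M.U v.1 => z * (d.g.f v)⁻¹ * d.g.f ⟨v.1, u⟩ := by
  have h0 : ∃ v : d.M.V, d.Cpl x (z * (d.g.f v)⁻¹) v.1 := ⟨v, h⟩
  rw [cl, dif_pos h0]
  have e := d.cpl_uniq h0.choose_spec h
  generalize h0.choose = w at e
  subst e
  rfl

theorem cl_card {z : d.M.G} {v : d.M.V} (h : d.Cpl x (z * (d.g.f v)⁻¹) v.1) :
    z ∈ d.cl x z ∧ (d.cl x z).card = Fintype.card (d.M.U v.1) := by
  classical
  rw [d.cl_def h]
  refine ⟨Finset.mem_image.2 ⟨v.2, Finset.mem_univ _, inv_mul_cancel_right _ _⟩, ?_⟩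
  rw [Finset.card_image_of_injective _ fun u u' e => d.g.f_inj v.1 (mul_left_cancel e),
    Finset.card_univ]

theorem cl_empty {z : d.M.G} (h : ∀ v : d.M.V, ¬ d.Cpl x (z * (d.g.f v)⁻¹) v.1) :
    d.cl x z = ∅ := by
  rw [cl, dif_neg (not_exists.2 h)]

theorem exists_of_ne {z : d.M.G} (h : (d.cl x z).Nonempty) :
    ∃ v : d.M.V, d.Cpl x (z * (d.g.f v)⁻¹) v.1 := by
  by_contra hc
  rw [d.cl_empty (not_exists.1 hc)] at h
  exact Finset.not_nonempty_empty h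

theorem cl_self {z : d.M.G} (h : (d.cl x z).Nonempty) : z ∈ d.cl x z := by
  obtain ⟨v, hv⟩ := d.exists_of_ne h
  exact (d.cl_card hv).1

theorem cl_eq {z z' : d.M.G} (h : z' ∈ d.cl x z) : d.cl x z' = d.cl x z := by
  classical
  obtain ⟨v, hv⟩ := d.exists_of_ne ⟨_, h⟩
  rw [d.cl_def hv] at h
  obtain ⟨u, -, rfl⟩ := Finset.mem_image.1 h
  have hu : d.Cpl x (z * (d.g.f v)⁻¹ * d.g.f ⟨v.1, u⟩ * (d.g.f ⟨v.1, u⟩)⁻¹) v.1 := by
    rwa [mul_inv_cancel_right]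
  rw [d.cl_def (v := ⟨v.1, u⟩) hu, d.cl_def hv, mul_inv_cancel_right]

theorem val_symm {z : d.M.G} {a} (h : d.M.Val x z a) : d.M.Val x (z * d.M.γ a) (linv a) := by
  obtain ⟨h1, h2, h3, h4⟩ := h
  refine ⟨h3, h4, ?_, ?_⟩
  · rwa [d.M.γ_linv]
  · rw [d.M.γ_linv, linv_linv]
    exact h2

theorem mem_cl_val {z : d.M.G} {a} (h : d.M.Val x z a) (hne : (d.cl x z).Nonempty) :
    z * d.M.γ a ∈ d.cl x z := by
  classical
  obtain ⟨v, hv⟩ := d.exists_of_ne hne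
  have e1 : x z = d.M.ell d.r v.1 v.2 := by
    have := hv v.2
    rwa [inv_mul_cancel_right] at this
  have e2 : d.M.lt v.1 (d.M.prt a.1) v.2 = a := by
    have := h.2.1
    rw [e1] at this
    exact single_inj this
  have s1 := d.g.f_step _ _ _ (d.M.step_lt v.1 (d.M.prt a.1) v.2)
  rw [d.cl_def hv]
  refine Finset.mem_image.2 ⟨d.M.nx v.1 (d.M.prt a.1) v.2, Finset.mem_univ _, ?_⟩
  rw [s1, e2, ← mul_assoc, inv_mul_cancel_right]

theorem cl_val {z : d.M.G} {a} (h : d.M.Val x z a) : d.cl x (z * d.M.γ a) = d.cl x z := by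
  by_cases h1 : (d.cl x z).Nonempty
  · exact d.cl_eq (d.mem_cl_val h h1)
  · by_cases h2 : (d.cl x (z * d.M.γ a)).Nonempty
    · have := d.cl_eq (d.mem_cl_val (d.val_symm h) h2)
      rw [d.M.γ_linv] at this
      exact this.symm
    · rw [Finset.not_nonempty_iff_eq_empty.1 h1, Finset.not_nonempty_iff_eq_empty.1 h2]

open Classical in
theorem deg_le (z : d.M.G) : (Finset.univ.filter fun a => d.M.Val x z a).card ≤ 128 := by
  refine le_trans (Finset.card_le_card_of_injOn (t := Finset.univ) (fun a => d.M.prt a.1)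
    (fun _ _ => Finset.mem_coe.2 (Finset.mem_univ _)) fun a ha b hb e => ?_) (by simp)
  have h1 := (Finset.mem_filter.1 ha).2.2.1
  have h2 := (Finset.mem_filter.1 hb).2.2.1
  have e' : d.M.prt a.1 = d.M.prt b.1 := e
  rw [e', h2] at h1
  exact (single_inj h1).symm

open Classical in
theorem deg_eq {z : d.M.G} (h : (d.cl x z).Nonempty) :
    (Finset.univ.filter fun a => d.M.Val x z a).card = 128 := by
  refine le_antisymm (d.deg_le z) ?_
  obtain ⟨v, hv⟩ := d.exists_of_ne h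
  have e1 : x z = d.M.ell d.r v.1 v.2 := by
    have := hv v.2
    rwa [inv_mul_cancel_right] at this
  refine le_trans (by simp) (Finset.card_le_card_of_injOn (s := Finset.univ)
    (fun q : Fin 128 => d.M.lt v.1 q v.2) (fun q _ => ?_) fun q _ q' _ e => ?_)
  · have e2 : x (z * d.M.γ (d.M.lt v.1 q v.2)) = d.M.ell d.r v.1 (d.M.nx v.1 q v.2) := by
      have := hv (d.M.nx v.1 q v.2)
      rwa [d.g.f_step _ _ _ (d.M.step_lt v.1 q v.2), ← mul_assoc, inv_mul_cancel_right] at this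
    refine Finset.mem_coe.2 (Finset.mem_filter.2 ⟨Finset.mem_univ _, ?_, ?_, ?_, ?_⟩)
    · rw [e1]; rfl
    · rw [e1, d.M.prt_lt]; rfl
    · rw [e2]; rfl
    · rw [e2, d.M.prt_lt, ← d.M.lt_nx]; rfl
  · have := congrArg (fun a => d.M.prt a.1) e
    simpa only [d.M.prt_lt] using this

open Classical in
/-- the copy followed from `z` -/
noncomputable def cop (z : d.M.G) : d.M.G × ℕ :=
  if h : ∃ u, d.g.Fol z u then (z * (d.g.f h.choose)⁻¹, h.choose.1) else (1, 0)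

theorem cop_eq {z : d.M.G} {u : d.M.V} (h : d.g.Fol z u) : d.cop z = (z * (d.g.f u)⁻¹, u.1) := by
  have h0 : ∃ u, d.g.Fol z u := ⟨u, h⟩
  rw [cop, dif_pos h0, d.g.uniq _ _ _ h0.choose_spec h]

open Classical in
theorem iso_fib (hx : x ∈ d.X) (F : Finset d.M.G)
    (hF : ∀ z, 2 * (F ∩ d.cl x z).card ≤ (d.cl x z).card) (P : Finset (d.M.G × (d.M.S × Bool)))
    (c : d.M.G) (n : ℕ)
    (hP : ∀ p ∈ P, p.1 ∈ F ∧ d.M.Val x p.1 p.2 ∧ p.1 * d.M.γ p.2 ∈ F ∧ d.cop p.1 = (c, n) ∧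
      ∃ u u', d.M.Step u p.2 u' ∧ d.g.Fol p.1 u ∧ d.g.Fol (p.1 * d.M.γ p.2) u') :
    P.card ≤ 120 * (F.filter fun z => d.cop z = (c, n)).card := by
  rcases P.eq_empty_or_nonempty with rfl | ⟨p₀, hp₀⟩
  · simp
  set Fc : Finset (d.M.U n) := Finset.univ.filter fun u => c * d.g.f ⟨n, u⟩ ∈ F ∧
    d.g.Fol (c * d.g.f ⟨n, u⟩) ⟨n, u⟩ ∧ (x (c * d.g.f ⟨n, u⟩)).2 = 0 with hFc
  have hP' : ∀ p ∈ P, ∃ u ∈ Fc, d.M.nx n (d.M.prt p.2.1) u ∈ Fc ∧ c * d.g.f ⟨n, u⟩ = p.1 ∧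
      d.M.lt n (d.M.prt p.2.1) u = p.2 := by
    intro p hp
    obtain ⟨h1, h2, h3, h4, ⟨m, u⟩, u', h5, h6, h7⟩ := hP p hp
    rw [d.cop_eq h6] at h4
    obtain ⟨hc, rfl⟩ := Prod.mk.inj h4
    have hz : c * d.g.f ⟨m, u⟩ = p.1 := by rw [← hc, inv_mul_cancel_right]
    have s1 := d.g.f_step _ _ _ h5
    obtain ⟨h8, rfl⟩ := h5
    refine ⟨u, ?_, ?_, hz, h8⟩
    · refine Finset.mem_filter.2 ⟨Finset.mem_univ _, ?_⟩
      rw [hz]
      exact ⟨h1, h6, h2.1⟩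
    · refine Finset.mem_filter.2 ⟨Finset.mem_univ _, ?_⟩
      rw [s1, ← mul_assoc, hz]
      exact ⟨h3, h7, h2.2.2.1⟩
  have hinj : Function.Injective fun u : d.M.U n => c * d.g.f ⟨n, u⟩ := fun u u' e =>
    d.g.f_inj n (mul_left_cancel e)
  have hsmall : 2 * Fc.card ≤ Fintype.card (d.M.U n) := by
    obtain ⟨u₀, -, -, hz, -⟩ := hP' p₀ hp₀
    rcases d.dist n _ (hx c n) with h | h | h
    · refine le_trans (Nat.mul_le_mul_left 2 (Finset.card_le_card fun u hu => ?_)) h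
      exact Finset.mem_filter.2 ⟨Finset.mem_univ _, (Finset.mem_filter.1 hu).2.2.2⟩
    · exfalso
      have h1 := (hP p₀ hp₀).2.1.2.1
      have h2 : x (c * d.g.f ⟨n, u₀⟩) = 0 := congrFun h u₀
      rw [← hz, h2] at h1
      have h3 := congrFun h1 p₀.2
      rw [Pi.single_eq_same] at h3
      exact zero_ne_one h3
    · have hc : d.Cpl x (c * d.g.f ⟨n, u₀⟩ * (d.g.f ⟨n, u₀⟩)⁻¹) n := by
        rw [mul_inv_cancel_right]
        exact congrFun h
      have h1 := hF (c * d.g.f ⟨n, u₀⟩)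
      rw [(d.cl_card (v := ⟨n, u₀⟩) hc).2, d.cl_def (v := ⟨n, u₀⟩) hc, mul_inv_cancel_right] at h1
      refine le_trans (Nat.mul_le_mul_left 2 ?_) h1
      refine Finset.card_le_card_of_injOn (fun u => c * d.g.f ⟨n, u⟩) (fun u hu => ?_) hinj.injOn
      exact Finset.mem_coe.2 (Finset.mem_inter.2 ⟨(Finset.mem_filter.1 hu).2.1,
        Finset.mem_image.2 ⟨u, Finset.mem_univ _, rfl⟩⟩)
  have h1 : P.card ≤ (Finset.univ.filter fun p : Fin 128 × d.M.U n =>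
      p.2 ∈ Fc ∧ d.M.nx n p.1 p.2 ∈ Fc).card := by
    refine le_trans (Finset.card_le_card fun p hp => ?_) (Finset.card_image_le
      (f := fun p : Fin 128 × d.M.U n => (c * d.g.f ⟨n, p.2⟩, d.M.lt n p.1 p.2)))
    obtain ⟨u, h1, h2, h3, h4⟩ := hP' p hp
    exact Finset.mem_image.2 ⟨(d.M.prt p.2.1, u), Finset.mem_filter.2 ⟨Finset.mem_univ _, h1, h2⟩,
      Prod.ext h3 h4⟩
  refine h1.trans ((d.M.xp n Fc hsmall).trans (Nat.mul_le_mul_left 120 ?_))
  refine Finset.card_le_card_of_injOn (fun u => c * d.g.f ⟨n, u⟩) (fun u hu => ?_) hinj.injOn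
  have hu' := (Finset.mem_filter.1 hu).2
  refine Finset.mem_coe.2 (Finset.mem_filter.2 ⟨hu'.1, ?_⟩)
  rw [d.cop_eq hu'.2.1, mul_inv_cancel_right]

open Classical in
theorem iso (hx : x ∈ d.X) (F : Finset d.M.G)
    (hF : ∀ z, 2 * (F ∩ d.cl x z).card ≤ (d.cl x z).card) :
    ((F ×ˢ Finset.univ).filter fun p : d.M.G × (d.M.S × Bool) =>
      d.M.Val x p.1 p.2 ∧ p.1 * d.M.γ p.2 ∈ F).card ≤ 122 * F.card := by
  set P := (F ×ˢ Finset.univ).filter fun p : d.M.G × (d.M.S × Bool) =>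
    d.M.Val x p.1 p.2 ∧ p.1 * d.M.γ p.2 ∈ F with hP
  have hm : ∀ p ∈ P, p.1 ∈ F ∧ d.M.Val x p.1 p.2 ∧ p.1 * d.M.γ p.2 ∈ F := fun p hp =>
    ⟨(Finset.mem_product.1 (Finset.mem_filter.1 hp).1).1, (Finset.mem_filter.1 hp).2⟩
  have h1 : (P.filter fun p => p.2 = d.g.t p.1).card ≤ F.card := by
    refine Finset.card_le_card_of_injOn (fun p => p.1) (fun p hp => ?_) fun p hp p' hp' e => ?_
    · exact (hm p (Finset.mem_filter.1 hp).1).1
    · have e' : p.1 = p'.1 := e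
      exact Prod.ext e' (by rw [(Finset.mem_filter.1 hp).2, (Finset.mem_filter.1 hp').2, e'])
  have h2 : (P.filter fun p => linv p.2 = d.g.t (p.1 * d.M.γ p.2)).card ≤ F.card := by
    refine Finset.card_le_card_of_injOn (fun p => p.1 * d.M.γ p.2) (fun p hp => ?_)
      fun p hp p' hp' e => ?_
    · exact (hm p (Finset.mem_filter.1 hp).1).2.2
    · have e' : p.1 * d.M.γ p.2 = p'.1 * d.M.γ p'.2 := e
      have e2 : p.2 = p'.2 := by
        rw [← linv_linv p.2, (Finset.mem_filter.1 hp).2, e', ← (Finset.mem_filter.1 hp').2,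
          linv_linv]
      rw [e2] at e'
      exact Prod.ext (mul_right_cancel e') e2
  set P₃ := P.filter fun p => ∃ u u', d.M.Step u p.2 u' ∧ d.g.Fol p.1 u ∧
    d.g.Fol (p.1 * d.M.γ p.2) u' with hP₃
  have h3 : P₃.card ≤ 120 * F.card := by
    rw [Finset.card_eq_sum_card_fiberwise (f := fun p => d.cop p.1) (s := P₃) (t := F.image d.cop)
      fun p hp => Finset.mem_coe.2
        (Finset.mem_image_of_mem _ (hm p (Finset.mem_filter.1 hp).1).1),
      Finset.card_eq_sum_card_image d.cop F, Finset.mul_sum]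
    refine Finset.sum_le_sum fun k _ => d.iso_fib hx F hF _ k.1 k.2 fun p hp => ?_
    obtain ⟨h4, h5⟩ := Finset.mem_filter.1 hp
    obtain ⟨h6, h7⟩ := Finset.mem_filter.1 h4
    exact ⟨(hm p h6).1, (hm p h6).2.1, (hm p h6).2.2, h5, h7⟩
  have h4 : P ⊆ (P.filter fun p => p.2 = d.g.t p.1) ∪
      (P.filter fun p => linv p.2 = d.g.t (p.1 * d.M.γ p.2)) ∪ P₃ := by
    intro p hp
    rw [Finset.mem_union, Finset.mem_union]
    rcases d.g.edge p.1 p.2 with h | h | h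
    · exact Or.inl (Or.inl (Finset.mem_filter.2 ⟨hp, h⟩))
    · exact Or.inl (Or.inr (Finset.mem_filter.2 ⟨hp, h⟩))
    · exact Or.inr (Finset.mem_filter.2 ⟨hp, h⟩)
  have h5 := (Finset.card_le_card h4).trans ((Finset.card_union_le _ _).trans
    (Nat.add_le_add_right (Finset.card_union_le _ _) _))
  omega

end Dat

end Vale.Agent.P089
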