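import Vale.Agent.P089.Haar
import Vale.Agent.P089.Ext
import Vale.Agent.P089.Iso

/-!
The trace of the projection is irrational.
-/

open MeasureTheory

namespace Vale.Agent.P089

namespace Dat

variable (d : Dat)

/-- configurations for which the copy through the origin based at `v` is complete -/
def EE (v : d.M.V) : Set d.X :=
  {x | ∀ u, x.1 ((d.g.f v)⁻¹ * d.g.f ⟨v.1, u⟩) = d.M.ell d.r v.1 u}

theorem mem_EE {v : d.M.V} {x : d.X} : x ∈ d.EE v ↔ d.Cpl x.1 (1 * (d.g.f v)⁻¹) v.1 := by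
  rw [one_mul]; rfl

theorem meas_EE (v : d.M.V) : MeasurableSet (d.EE v) := by
  have : d.EE v = ⋂ u, (fun x : d.X => x.1 ((d.g.f v)⁻¹ * d.g.f ⟨v.1, u⟩)) ⁻¹'
      {d.M.ell d.r v.1 u} := by
    ext x; simp [EE]
  rw [this]
  exact MeasurableSet.iInter fun u =>
    ((measurable_pi_apply _).comp measurable_subtype_coe) (measurableSet_singleton _)

theorem EE_uniq {v v' : d.M.V} {x : d.X} (h : x ∈ d.EE v) (h' : x ∈ d.EE v') : v = v' :=
  d.cpl_uniq (d.mem_EE.1 h) (d.mem_EE.1 h')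

theorem card_EE {v : d.M.V} {x : d.X} (h : x ∈ d.EE v) :
    (d.cl x.1 1).card = Fintype.card (d.M.U v.1) := (d.cl_card (d.mem_EE.1 h)).2

theorem card_not {x : d.X} (h : ∀ v, x ∉ d.EE v) : (d.cl x.1 1).card = 0 := by
  rw [d.cl_empty fun v hv => h v (d.mem_EE.2 hv), Finset.card_empty]

theorem four_le (n : ℕ) : 4 ≤ Fintype.card (d.M.U n) :=
  le_trans (Nat.le_mul_of_pos_right _ (by positivity)) (d.M.small n)

theorem meas_card : Measurable fun x : d.X => (d.cl x.1 1).card := by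
  refine measurable_to_countable' fun m => ?_
  have : (fun x : d.X => (d.cl x.1 1).card) ⁻¹' {m} =
      (⋃ v : d.M.V, ⋃ _ : Fintype.card (d.M.U v.1) = m, d.EE v) ∪
        ⋃ _ : m = 0, (⋃ v : d.M.V, d.EE v)ᶜ := by
    ext x
    simp only [Set.mem_preimage, Set.mem_singleton_iff, Set.mem_union, Set.mem_iUnion,
      Set.mem_compl_iff, not_exists, exists_prop]
    constructor
    · intro h
      by_cases hx : ∃ v, x ∈ d.EE v
      · obtain ⟨v, hv⟩ := hx
        exact Or.inl ⟨v, (d.card_EE hv).symm.trans h, hv⟩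
      · exact Or.inr ⟨h.symm.trans (d.card_not fun v hv => hx ⟨v, hv⟩), fun v hv => hx ⟨v, hv⟩⟩
    · rintro (⟨v, h1, h2⟩ | ⟨h1, h2⟩)
      · exact (d.card_EE h2).trans h1
      · exact (d.card_not h2).trans h1.symm
  rw [this]
  exact (MeasurableSet.iUnion fun v => MeasurableSet.iUnion fun _ => d.meas_EE v).union
    (MeasurableSet.iUnion fun _ => (MeasurableSet.iUnion d.meas_EE).compl)

theorem trace_irr [Countable d.M.G] (μ : Measure d.X) [IsProbabilityMeasure μ]
    [μ.IsAddLeftInvariant] :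
    Integrable (fun x : d.X => (((d.cl x.1 1).card : ℝ))⁻¹) μ ∧
      Irrational (∫ x : d.X, (((d.cl x.1 1).card : ℝ))⁻¹ ∂μ) := by
  have hi : Integrable (fun x : d.X => (((d.cl x.1 1).card : ℝ))⁻¹) μ := by
    refine (integrable_const (1 : ℝ)).mono'
      ((measurable_from_nat (f := fun m : ℕ => ((m : ℝ))⁻¹)).comp d.meas_card).aestronglyMeasurable
      (Filter.Eventually.of_forall fun x => ?_)
    rw [Real.norm_of_nonneg (by positivity)]
    exact Nat.cast_inv_le_one _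
  refine ⟨hi, ?_⟩
  set E : ℕ → Set d.X := fun n => ⋃ u : d.M.U n, d.EE ⟨n, u⟩ with hE
  have hm : ∀ n, MeasurableSet (E n) := fun n => MeasurableSet.iUnion fun u => d.meas_EE _
  have hd : Pairwise (Function.onFun Disjoint E) := by
    intro n m hnm
    refine Set.disjoint_left.2 fun x h1 h2 => hnm ?_
    obtain ⟨u, hu⟩ := Set.mem_iUnion.1 h1
    obtain ⟨u', hu'⟩ := Set.mem_iUnion.1 h2
    exact congrArg Sigma.fst (d.EE_uniq hu hu')
  have hs := hasSum_integral_iUnion hm hd hi.integrableOn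
  rw [setIntegral_eq_integral_of_forall_compl_eq_zero (fun x hx => by
    rw [d.card_not fun v hv => hx (Set.mem_iUnion.2 ⟨v.1, Set.mem_iUnion.2 ⟨v.2, hv⟩⟩)]
    simp)] at hs
  have h1 : ∀ n, ∫ x in E n, (((d.cl x.1 1).card : ℝ))⁻¹ ∂μ =
      μ.real (E n) / Fintype.card (d.M.U n) := by
    intro n
    rw [setIntegral_congr_fun (hm n) (g := fun _ => ((Fintype.card (d.M.U n) : ℝ))⁻¹)
      (fun x hx => by
        obtain ⟨u, hu⟩ := Set.mem_iUnion.1 hx
        simp only [d.card_EE hu]), setIntegral_const, smul_eq_mul, div_eq_mul_inv]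
  have h2 : ∀ n, μ.real (E n) = ∑ u : d.M.U n, μ.real (d.EE ⟨n, u⟩) := fun n =>
    measureReal_iUnion_fintype (fun u u' h => Set.disjoint_left.2 fun x h1 h2 =>
      h (eq_of_heq (Sigma.mk.inj (d.EE_uniq h1 h2)).2)) fun u => d.meas_EE _
  have h3 : ∀ n (u : d.M.U n), 0 < μ.real (d.EE ⟨n, u⟩) ∧ ∃ k : ℕ,
      (Fintype.card (d.M.Al d.r) : ℝ) ^ Fintype.card (d.M.U n) * μ.real (d.EE ⟨n, u⟩) = k :=
    fun n u => cyl d.X μ (fun w => (d.g.f ⟨n, u⟩)⁻¹ * d.g.f ⟨n, w⟩) (d.M.ell d.r n)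
      (d.exists_cpl ⟨n, u⟩)
  have h4 : ∀ n, (0 : ℝ) < Fintype.card (d.M.U n) := fun n => by
    have := d.four_le n
    exact_mod_cast (by omega : 0 < Fintype.card (d.M.U n))
  simp only [h1] at hs
  refine irr (fun n => Fintype.card (d.M.U n)) (Fintype.card (d.M.Al d.r)) _ _ Fintype.card_pos
    (fun n => le_trans (by norm_num) (d.four_le n)) d.M.grow (fun n => ?_) (fun n => ?_)
    (fun n => ?_) hs
  · refine div_pos ?_ (h4 n)
    rw [h2]
    have : Nonempty (d.M.U n) := Fintype.card_pos_iff.1 (by have := d.four_le n; omega)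
    exact Finset.sum_pos (fun u _ => (h3 n u).1) Finset.univ_nonempty
  · exact div_le_div_of_nonneg_right measureReal_le_one (h4 n).le
  · choose k hk using fun u => (h3 n u).2
    refine ⟨∑ u, k u, ?_⟩
    rw [Nat.cast_sum, ← Finset.sum_congr rfl fun u _ => hk u, ← Finset.mul_sum, ← h2]
    field_simp [(h4 n).ne']

end Dat

end Vale.Agent.P089
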