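import Vale.Agent.P089.Rosen
import Vale.Agent.P089.Basic

/-!
Small cancellation labellings.

PLAN. `Λ = Fin q` with `β = 2 ^ 2000`, `q = β + 1` (any large constant; keep it as a variable with an
inequality, never evaluate it). Level `n`: edges `E = Fin 128 × U n`, the edge of colour `q` at `v` is
`ed q v = (q, if side v then nx q v else v)`; a labelling `x : E → Λ` gives `lab q v = x (ed q v)`.
`label_step`: given the labellings of the levels `m < n`, apply `rosen` with constraints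
(a) `(m < n, p₀ : U n, q₀ : U m, σ : Fin (L m) → Fin 128 reduced)`: bad = the walk from `p₀` has the labels of
the walk from `q₀`; `supp = T =` the `L m` edges of the walk from `p₀` (distinct by girth, `L m ≤ L n`);
(b) `(p₀ ≠ q₀ : U n` on the same side, `σ : Fin (L n) → Fin 128` reduced): bad = equal labels; `supp` = edges of both
walks; the map `φ : e_j ↦ e'_j` is injective without fixed point (`p_j ≠ q_j` are on the same side);
`T` from `exists_free`
(for `f` on the second walk exchange the roles). Every `T` has `card - 1 ≥ L / 6 - 1`; through a given edge there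
are at most `4 L 128 ^ L card (U m) ≤ 2 ^ (270 L)` constraints of scale `m`. With `L ≥ 24`, each scale contributes
`≤ 2 ^ (-L m)`, and the `L m` are distinct. Then recursion over `n` (`Nat.strongRec` / `WellFounded.fix` with
choice). For the final statement: `m = n` is (b), `n < m` is (a) at level `m`, `m < n` is (a) at level `n` applied
to the first `L m ≤ L n` steps.
-/

namespace Vale.Agent.P089

open Finset

theorem rosen' {E Λ C : Type} [Fintype E] [DecidableEq E] [Fintype Λ] [Fintype C]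
    (supp : C → Finset E) (bad : C → (E → Λ) → Prop) (k : C → ℕ) (β : ℝ) (hβ : 1 ≤ β)
    (ne : ∀ c, (supp c).Nonempty)
    (loc : ∀ c x y, (∀ e ∈ supp c, x e = y e) → bad c x → bad c y)
    (hT : ∀ c x₀, bad c x₀ → ∀ f ∈ supp c, ∃ T ⊆ supp c, f ∈ T ∧ k c + 1 ≤ T.card ∧
      ∀ x y, bad c x → bad c y → (∀ e, e ∉ T → x e = y e) → x = y)
    (hs : ∀ f, ∑ c with f ∈ supp c, 1 / β ^ k c ≤ 1) (hΛ : β + 1 ≤ Fintype.card Λ) :
    ∃ x, ∀ c, ¬ bad c x := by
  classical
  have : Nonempty Λ := Fintype.card_pos_iff.1 (by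
    have : (0 : ℝ) < Fintype.card Λ := by linarith
    exact_mod_cast this)
  have h1 : ∀ (c : {c // ∃ x, bad c x}) (f : E), ∃ T : Finset E, f ∈ supp c.1 →
      T ⊆ supp c.1 ∧ f ∈ T ∧ k c.1 + 1 ≤ T.card ∧
      ∀ x y, bad c.1 x → bad c.1 y → (∀ e, e ∉ T → x e = y e) → x = y := by
    rintro ⟨c, x₀, hx⟩ f
    by_cases hf : f ∈ supp c
    · obtain ⟨T, h⟩ := hT c x₀ hx f hf
      exact ⟨T, fun _ => h⟩
    · exact ⟨∅, fun h => absurd h hf⟩
  choose T hT' using h1
  obtain ⟨x, hx⟩ := rosen (C := {c // ∃ x, bad c x}) (fun c => supp c.1) (fun c => bad c.1) T β hβ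
    (fun c => ne c.1) (fun c => loc c.1) (fun c f hf => ⟨(hT' c f hf).2.1, (hT' c f hf).1⟩)
    (fun c f hf => (hT' c f hf).2.2.2) (fun f => by
      refine le_trans (add_le_add le_rfl (le_trans ?_ (hs f))) hΛ
      calc ∑ c : {c // ∃ x, bad c x} with f ∈ supp c.1, 1 / β ^ ((T c f).card - 1)
          ≤ ∑ c : {c // ∃ x, bad c x} with f ∈ supp c.1, 1 / β ^ k c.1 := by
            refine sum_le_sum fun c hc => ?_
            have := (hT' c f (mem_filter.1 hc).2).2.2.1
            exact one_div_le_one_div_of_le (by positivity) (pow_le_pow_right₀ hβ (by omega))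
        _ = ∑ c ∈ (univ.filter fun c : {c // ∃ x, bad c x} => f ∈ supp c.1).map
              (Function.Embedding.subtype _), 1 / β ^ k c := by rw [sum_map]; rfl
        _ ≤ _ := by
            refine sum_le_sum_of_subset_of_nonneg (fun c hc => ?_) fun c _ _ => by positivity
            obtain ⟨c', hc', rfl⟩ := mem_map.1 hc
            exact mem_filter.2 ⟨mem_univ _, (mem_filter.1 hc').2⟩)
  exact ⟨x, fun c hc => hx ⟨c, x, hc⟩ hc⟩

theorem free_T {E : Type} [DecidableEq E] (e e' : ℕ → E) (l : ℕ) (he : Set.InjOn e (range l))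
    (he' : Set.InjOn e' (range l)) (hne : ∀ j < l, e' j ≠ e j) {f : E} (hf : f ∈ (range l).image e) :
    ∃ T ⊆ (range l).image e, f ∈ T ∧ l ≤ 3 * T.card ∧ ∀ {Λ : Type} (x y : E → Λ),
      (∀ j < l, x (e j) = x (e' j)) → (∀ j < l, y (e j) = y (e' j)) →
      (∀ g, g ∉ T → x g = y g) → x = y := by
  classical
  let φ : E → E := fun g => if h : ∃ j ∈ range l, e j = g then e' h.choose else g
  have hφ : ∀ j ∈ range l, φ (e j) = e' j := by
    intro j hj
    have h : ∃ j' ∈ range l, e j' = e j := ⟨j, hj, rfl⟩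
    simp only [φ, dif_pos h]
    rw [he (mem_coe.2 h.choose_spec.1) (mem_coe.2 hj) h.choose_spec.2]
  obtain ⟨T, h1, h2, h3, h4⟩ := exists_free ((range l).image e) φ (by
      intro a ha b hb hab
      obtain ⟨i, hi, rfl⟩ := mem_image.1 (mem_coe.1 ha)
      obtain ⟨j, hj, rfl⟩ := mem_image.1 (mem_coe.1 hb)
      rw [hφ i hi, hφ j hj] at hab
      rw [he' (mem_coe.2 hi) (mem_coe.2 hj) hab]) (by
      intro a ha
      obtain ⟨i, hi, rfl⟩ := mem_image.1 ha
      rw [hφ i hi]
      exact hne i (mem_range.1 hi)) f hf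
  rw [card_image_of_injOn he, card_range] at h4
  refine ⟨T, h1, h2, h4, fun x y hx hy hxy => funext fun g => ?_⟩
  by_cases hg : g ∈ T
  · obtain ⟨i, hi, rfl⟩ := mem_image.1 (h1 hg)
    have := h3 _ hg
    rw [hφ i hi] at this
    rw [hx i (mem_range.1 hi), hy i (mem_range.1 hi), hxy _ this]
  · exact hxy g hg

section walks

variable {W : Type} {nx : Fin 128 → W → W} {side : W → Bool}

theorem walk_congr {σ σ' : ℕ → Fin 128} (v : W) :
    ∀ i, (∀ j < i, σ j = σ' j) → walk nx σ v i = walk nx σ' v i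
  | 0, _ => rfl
  | i + 1, h => by
    rw [walk, walk, h i (Nat.lt_succ_self i),
      walk_congr v i fun j hj => h j (Nat.lt_succ_of_lt hj)]

theorem walk_shift (σ : ℕ → Fin 128) (v : W) (a : ℕ) :
    ∀ k, walk nx (fun k => σ (a + k)) (walk nx σ v a) k = walk nx σ v (a + k)
  | 0 => rfl
  | k + 1 => by rw [walk, walk_shift σ v a k, ← add_assoc, walk]

theorem walk_start (inv : ∀ q v, nx q (nx q v) = v) (σ : ℕ → Fin 128) {v v' : W} :
    ∀ i, walk nx σ v i = walk nx σ v' i → v = v'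
  | 0, h => h
  | i + 1, h => walk_start inv σ i (Function.Involutive.injective (inv (σ i)) h)

theorem walk_side (hs : ∀ q v, side (nx q v) = !side v) (σ : ℕ → Fin 128) {v v' : W}
    (h : side v = side v') : ∀ i, side (walk nx σ v i) = side (walk nx σ v' i)
  | 0 => h
  | i + 1 => by rw [walk, walk, hs, hs, walk_side hs σ h i]

theorem walk_ne {g l : ℕ} (gir : Gir nx g) (hl : l < g) {σ : ℕ → Fin 128}
    (hσ : ∀ i, i + 1 < l → σ (i + 1) ≠ σ i) (v : W) {a b : ℕ} (hab : a < b) (hb : b ≤ l) :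
    walk nx σ v b ≠ walk nx σ v a := by
  intro h
  have := gir (fun k => σ (a + k)) (walk nx σ v a) (b - a) (by omega)
    (fun i hi => hσ (a + i) (by omega)) (by rw [walk_shift, Nat.add_sub_cancel' hab.le, h])
  omega

/-- the edge of colour `q` at `v` -/
def ed (nx : Fin 128 → W → W) (side : W → Bool) (q : Fin 128) (v : W) : Fin 128 × W :=
  (q, if side v then nx q v else v)

theorem ed_nx (hs : ∀ q v, side (nx q v) = !side v) (inv : ∀ q v, nx q (nx q v) = v) (q : Fin 128)
    (v : W) : ed nx side q (nx q v) = ed nx side q v := by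
  simp only [ed, hs, inv]
  cases side v <;> simp

theorem ed_eq (inv : ∀ q v, nx q (nx q v) = v) {q q' : Fin 128} {v v' : W}
    (h : ed nx side q v = ed nx side q' v') :
    q = q' ∧ (v' = v ∨ v' = nx q v) ∧ (side v = side v' → v = v') := by
  obtain ⟨rfl, h2⟩ := Prod.mk.inj h
  have hi := Function.Involutive.injective (inv q)
  refine ⟨rfl, ?_⟩
  cases h3 : side v <;> cases h4 : side v' <;> simp only [h3, h4] at h2
  · exact ⟨Or.inl h2.symm, fun _ => h2⟩
  · refine ⟨Or.inr ?_, fun h => by simp at h⟩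
    have h5 : v = nx q v' := h2
    rw [h5, inv]
  · exact ⟨Or.inr h2.symm, fun h => by simp at h⟩
  · exact ⟨Or.inl (hi h2).symm, fun _ => hi h2⟩

/-- the edges along a walk -/
def eg (nx : Fin 128 → W → W) (side : W → Bool) (σ : ℕ → Fin 128) (v : W) (j : ℕ) : Fin 128 × W :=
  ed nx side (σ j) (walk nx σ v j)

theorem eg_inj (inv : ∀ q v, nx q (nx q v) = v) {g l : ℕ} (gir : Gir nx g) (hl : l < g)
    {σ : ℕ → Fin 128} (hσ : ∀ i, i + 1 < l → σ (i + 1) ≠ σ i) (v : W) :
    Set.InjOn (eg nx side σ v) (range l) := by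
  have key : ∀ i j, i < j → j < l → eg nx side σ v i ≠ eg nx side σ v j := by
    intro i j hij hj h
    obtain ⟨h1, h2 | h2, -⟩ := ed_eq inv h
    · exact walk_ne gir hl hσ v hij hj.le h2
    · rcases Nat.eq_or_lt_of_le (Nat.succ_le_of_lt hij) with h3 | h3
      · subst h3
        exact hσ i hj h1.symm
      · exact walk_ne gir hl hσ v h3 hj.le h2
  intro i hi j hj h
  rcases lt_trichotomy i j with h1 | h1 | h1
  · exact absurd h (key i j h1 (mem_range.1 (mem_coe.1 hj)))
  · exact h1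
  · exact absurd h.symm (key j i h1 (mem_range.1 (mem_coe.1 hi)))

/-- extension of a finite colour sequence -/
def ex {l : ℕ} (σ : Fin l → Fin 128) (i : ℕ) : Fin 128 := if h : i < l then σ ⟨i, h⟩ else 0

theorem ex_res (σ : ℕ → Fin 128) (l : ℕ) {i : ℕ} (hi : i < l) :
    ex (fun j : Fin l => σ j) i = σ i := dif_pos hi

theorem cnt [Fintype W] [DecidableEq W] (hs : ∀ q v, side (nx q v) = !side v)
    (inv : ∀ q v, nx q (nx q v) = v) {K : Type} [Fintype K] (l : ℕ) (f : Fin 128 × W)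
    (A : Finset (W × K × (Fin l → Fin 128)))
    (hA : ∀ c ∈ A, f ∈ (range l).image (eg nx side (ex c.2.2) c.1)) :
    A.card ≤ l * (2 * (Fintype.card K * 128 ^ l)) := by
  classical
  refine le_trans (card_le_card (t := (range l).biUnion fun j =>
    A.filter fun c => eg nx side (ex c.2.2) c.1 j = f) fun c hc => ?_) ?_
  · obtain ⟨j, hj, e⟩ := mem_image.1 (hA c hc)
    exact mem_biUnion.2 ⟨j, hj, mem_filter.2 ⟨hc, e⟩⟩
  · refine le_trans (card_biUnion_le_card_mul _ _ (2 * (Fintype.card K * 128 ^ l)) fun j _ => ?_)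
      (by rw [card_range])
    refine le_trans (card_le_card_of_injOn (t := (univ : Finset (Bool × K × (Fin l → Fin 128))))
      (fun c => (side c.1, c.2)) (fun _ _ => mem_coe.2 (mem_univ _)) ?_) (by simp)
    rintro ⟨p, c⟩ hc ⟨p', c'⟩ hc' e
    obtain ⟨e1, rfl⟩ := Prod.mk.inj e
    have h1 := (mem_filter.1 (mem_coe.1 hc)).2.trans (mem_filter.1 (mem_coe.1 hc')).2.symm
    exact Prod.ext (walk_start inv _ j ((ed_eq inv h1).2.2 (walk_side hs _ e1 j))) rfl

end walks

theorem num {l N c s : ℕ} (hl : 24 ≤ l) (hc : c ≤ 2 ^ (250 * l)) (hs : 2000 ≤ s)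
    (hN : N ≤ 2 * (l * (2 * (c * 128 ^ l)))) :
    (N : ℝ) * (1 / (2 ^ s) ^ (l / 6)) ≤ (1 / 2) ^ l := by
  have h1 : l ≤ 2 ^ l := Nat.lt_two_pow_self.le
  have h2 : 4 ≤ 2 ^ l := le_trans (by norm_num) (Nat.pow_le_pow_right (by norm_num) hl)
  have h3 : N * 2 ^ l ≤ 2 ^ (s * (l / 6)) := by
    calc N * 2 ^ l ≤ 4 * l * c * 128 ^ l * 2 ^ l := Nat.mul_le_mul_right _ (hN.trans (le_of_eq (by ring)))
      _ ≤ 2 ^ l * 2 ^ l * 2 ^ (250 * l) * 128 ^ l * 2 ^ l := by gcongr
      _ = 2 ^ (260 * l) := by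
        rw [show (128 : ℕ) = 2 ^ 7 by norm_num, ← pow_mul, ← pow_add, ← pow_add, ← pow_add,
          ← pow_add]
        congr 1
        ring
      _ ≤ 2 ^ (s * (l / 6)) := by
        refine Nat.pow_le_pow_right (by norm_num) (le_trans ?_ (Nat.mul_le_mul_right _ hs))
        omega
  rw [mul_one_div, one_div_pow, div_le_div_iff₀ (by positivity) (by positivity), one_mul, ← pow_mul]
  exact_mod_cast h3

theorem geo (n : ℕ) : ∑ m : Fin n, (1 / 2 : ℝ) ^ (m.1 + 1) + (1 / 2) ^ (n + 1) ≤ 1 := by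
  have : ∀ n : ℕ, ∑ m ∈ range n, (1 / 2 : ℝ) ^ (m + 1) = 1 - (1 / 2) ^ n := by
    intro n
    induction n with
    | zero => simp
    | succ n ih => rw [sum_range_succ, ih]; ring
  rw [Fin.sum_univ_eq_sum_range (fun m => (1 / 2 : ℝ) ^ (m + 1)), this, pow_succ]
  have : (0 : ℝ) ≤ (1 / 2) ^ n := by positivity
  linarith

theorem label_step (U : ℕ → Type) [∀ n, Fintype (U n)] [∀ n, DecidableEq (U n)]
    (nx : ∀ n, Fin 128 → U n → U n) (L : ℕ → ℕ) (hL : StrictMono L) (h0 : 24 ≤ L 0)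
    (side : ∀ n, U n → Bool) (hs : ∀ n q v, side n (nx n q v) = !side n v)
    (inv : ∀ n q v, nx n q (nx n q v) = v) (gir : ∀ n, Gir (nx n) (30 * L n))
    (hc : ∀ n, Fintype.card (U n) ≤ 2 ^ (250 * L n)) {Λ : Type} [Fintype Λ] {s : ℕ} (hs' : 2000 ≤ s)
    (hΛ : (2 : ℝ) ^ s + 1 ≤ Fintype.card Λ) (n : ℕ) (lab' : ∀ m, Fin 128 → U m → Λ) :
    ∃ lab : Fin 128 → U n → Λ, (∀ q v, lab q (nx n q v) = lab q v) ∧
      (∀ m < n, ∀ (p : U n) (p' : U m) (σ : ℕ → Fin 128), (∀ i, i + 1 < L m → σ (i + 1) ≠ σ i) →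
        ¬ ∀ i < L m, lab (σ i) (walk (nx n) σ p i) = lab' m (σ i) (walk (nx m) σ p' i)) ∧
      ∀ (p p' : U n) (σ : ℕ → Fin 128), side n p = side n p' →
        (∀ i, i + 1 < L n → σ (i + 1) ≠ σ i) →
        (∀ i < L n, lab (σ i) (walk (nx n) σ p i) = lab (σ i) (walk (nx n) σ p' i)) → p = p' := by
  classical
  have hL1 : ∀ m, m + 24 ≤ L m := fun m => le_trans (by omega) (hL.add_le_nat m 0)
  have hLg : ∀ m ≤ n, L m < 30 * L n := fun m hm => by
    have := hL.monotone hm
    have := hL1 n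
    omega
  refine Exists.elim (rosen' (E := Fin 128 × U n) (Λ := Λ)
    (C := (Σ m : Fin n, U n × U m × (Fin (L m) → Fin 128)) ⊕ (U n × U n × (Fin (L n) → Fin 128)))
    (Sum.elim (fun c => (range (L c.1)).image (eg (nx n) (side n) (ex c.2.2.2) c.2.1))
      (fun c => (range (L n)).image (eg (nx n) (side n) (ex c.2.2) c.1) ∪
        (range (L n)).image (eg (nx n) (side n) (ex c.2.2) c.2.1)))
    (Sum.elim (fun c x => (∀ i, i + 1 < L c.1 → ex c.2.2.2 (i + 1) ≠ ex c.2.2.2 i) ∧
        ∀ j < L c.1, x (eg (nx n) (side n) (ex c.2.2.2) c.2.1 j) =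
          lab' c.1 (ex c.2.2.2 j) (walk (nx c.1) (ex c.2.2.2) c.2.2.1 j))
      (fun c x => ((∀ i, i + 1 < L n → ex c.2.2 (i + 1) ≠ ex c.2.2 i) ∧ c.1 ≠ c.2.1 ∧
        side n c.1 = side n c.2.1) ∧
        ∀ j < L n, x (eg (nx n) (side n) (ex c.2.2) c.1 j) =
          x (eg (nx n) (side n) (ex c.2.2) c.2.1 j)))
    (Sum.elim (fun c => L c.1 / 6) fun _ => L n / 6) (2 ^ s) (one_le_pow₀ (by norm_num)) ?_ ?_ ?_ ?_ hΛ)
    fun x hx => ?_
  rotate_right
  · refine ⟨fun q v => x (ed (nx n) (side n) q v), fun q v => congrArg x (ed_nx (hs n) (inv n) q v),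
      fun m hm p p' σ hσ h => ?_, fun p p' σ h1 hσ h => ?_⟩
    · refine hx (Sum.inl ⟨⟨m, hm⟩, p, p', fun j => σ j⟩) ⟨fun i hi => ?_, fun j hj => ?_⟩
      · simp only [ex_res σ _ hi, ex_res σ _ (Nat.lt_of_succ_lt hi)]
        exact hσ i hi
      · have hj' : j < L m := hj
        have e : ∀ i < j, ex (fun j : Fin (L m) => σ j) i = σ i := fun i hi =>
          ex_res σ _ (hi.trans hj')
        simp only [eg, ex_res σ _ hj', walk_congr _ j e]
        exact h j hj'
    · by_contra hne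
      refine hx (Sum.inr ⟨p, p', fun j => σ j⟩) ⟨⟨fun i hi => ?_, hne, h1⟩, fun j hj => ?_⟩
      · simp only [ex_res σ _ hi, ex_res σ _ (Nat.lt_of_succ_lt hi)]
        exact hσ i hi
      · have e : ∀ i < j, ex (fun j : Fin (L n) => σ j) i = σ i := fun i hi =>
          ex_res σ _ (hi.trans hj)
        simp only [eg, ex_res σ _ hj, walk_congr _ j e]
        exact h j hj
  · rintro (c | c)
    · exact (nonempty_range_iff.2 (by have := hL1 c.1; omega)).image _
    · exact Finset.Nonempty.inl ((nonempty_range_iff.2 (by have := hL1 n; omega)).image _)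
  · rintro (c | c) x y hxy ⟨h1, h2⟩
    · refine ⟨h1, fun j hj => ?_⟩
      rw [← h2 j hj]
      exact (hxy _ (mem_image_of_mem _ (mem_range.2 hj))).symm
    · refine ⟨h1, fun j hj => ?_⟩
      rw [← hxy _ (mem_union_left _ (mem_image_of_mem _ (mem_range.2 hj))),
        ← hxy _ (mem_union_right _ (mem_image_of_mem _ (mem_range.2 hj)))]
      exact h2 j hj
  · rintro (c | c) x₀ ⟨h1, -⟩ f hf
    · refine ⟨_, subset_rfl, hf, ?_, fun x y hx hy hxy => funext fun g => ?_⟩
      · show L c.1 / 6 + 1 ≤ ((range (L c.1)).image (eg (nx n) (side n) (ex c.2.2.2) c.2.1)).card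
        rw [card_image_of_injOn (eg_inj (inv n) (gir n) (hLg c.1 c.1.2.le) h1 _), card_range]
        have := hL1 c.1
        omega
      · by_cases hg : g ∈ (range (L c.1)).image (eg (nx n) (side n) (ex c.2.2.2) c.2.1)
        · obtain ⟨j, hj, rfl⟩ := mem_image.1 hg
          rw [hx.2 j (mem_range.1 hj), hy.2 j (mem_range.1 hj)]
        · exact hxy g hg
    · obtain ⟨h1, h2, h3⟩ := h1
      have i1 := eg_inj (side := side n) (inv n) (gir n) (hLg n le_rfl) h1 c.1
      have i2 := eg_inj (side := side n) (inv n) (gir n) (hLg n le_rfl) h1 c.2.1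
      have hne : ∀ j, eg (nx n) (side n) (ex c.2.2) c.1 j ≠ eg (nx n) (side n) (ex c.2.2) c.2.1 j :=
        fun j h => h2 (walk_start (inv n) _ j ((ed_eq (inv n) h).2.2 (walk_side (hs n) _ h3 j)))
      have := hL1 n
      rcases mem_union.1 hf with hf | hf
      · obtain ⟨T, t1, t2, t3, t4⟩ := free_T _ _ _ i1 i2 (fun j _ => (hne j).symm) hf
        refine ⟨T, t1.trans subset_union_left, t2, ?_, fun x y hx hy => t4 x y hx.2 hy.2⟩
        show L n / 6 + 1 ≤ T.card
        omega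
      · obtain ⟨T, t1, t2, t3, t4⟩ := free_T _ _ _ i2 i1 (fun j _ => hne j) hf
        refine ⟨T, t1.trans subset_union_right, t2, ?_, fun x y hx hy =>
          t4 x y (fun j hj => (hx.2 j hj).symm) fun j hj => (hy.2 j hj).symm⟩
        show L n / 6 + 1 ≤ T.card
        omega
  · intro f
    have hp : ∀ m, (1 / 2 : ℝ) ^ L m ≤ (1 / 2) ^ (m + 1) := fun m =>
      pow_le_pow_of_le_one (by norm_num) (by norm_num) (by have := hL1 m; omega)
    rw [sum_filter, Fintype.sum_sum_type, Fintype.sum_sigma]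
    refine le_trans (add_le_add (sum_le_sum fun m _ => ?_) ?_) (geo n)
    · show (∑ c : U n × U m × (Fin (L m) → Fin 128),
        if f ∈ (range (L m)).image (eg (nx n) (side n) (ex c.2.2) c.1) then
          1 / ((2 : ℝ) ^ s) ^ (L m / 6) else 0) ≤ _
      rw [← sum_filter, sum_const, nsmul_eq_mul]
      refine le_trans (num (by have := hL1 m; omega) (hc m) hs' ?_) (hp m)
      exact le_trans (cnt (hs n) (inv n) _ f _ fun c hc => (mem_filter.1 hc).2) (by omega)
    · show (∑ c : U n × U n × (Fin (L n) → Fin 128),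
        if f ∈ (range (L n)).image (eg (nx n) (side n) (ex c.2.2) c.1) ∪
          (range (L n)).image (eg (nx n) (side n) (ex c.2.2) c.2.1) then
          1 / ((2 : ℝ) ^ s) ^ (L n / 6) else 0) ≤ _
      rw [← sum_filter, sum_const, nsmul_eq_mul]
      refine le_trans (num (by have := hL1 n; omega) (hc n) hs' ?_) (hp n)
      simp only [mem_union]
      rw [filter_or, two_mul]
      refine (card_union_le _ _).trans (add_le_add
        (cnt (hs n) (inv n) _ f _ fun c hc => (mem_filter.1 hc).2) ?_)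
      let sw : U n × U n × (Fin (L n) → Fin 128) → U n × U n × (Fin (L n) → Fin 128) :=
        fun c => (c.2.1, c.1, c.2.2)
      have hsw : Function.Injective sw := Function.Involutive.injective fun _ => rfl
      rw [← card_image_of_injective _ hsw]
      refine cnt (hs n) (inv n) _ f _ fun c hc => ?_
      obtain ⟨c', hc', rfl⟩ := mem_image.1 hc
      exact (mem_filter.1 hc').2

theorem exists_label (U : ℕ → Type) [∀ n, Fintype (U n)] [∀ n, DecidableEq (U n)]
    (nx : ∀ n, Fin 128 → U n → U n) (L : ℕ → ℕ) (hL : StrictMono L) (h0 : 24 ≤ L 0)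
    (side : ∀ n, U n → Bool) (hs : ∀ n q v, side n (nx n q v) = !side n v)
    (inv : ∀ n q v, nx n q (nx n q v) = v) (gir : ∀ n, Gir (nx n) (30 * L n))
    (hc : ∀ n, Fintype.card (U n) ≤ 2 ^ (250 * L n)) :
    ∃ (Λ : Type) (_ : Fintype Λ) (_ : DecidableEq Λ) (lab : ∀ n, Fin 128 → U n → Λ),
      (∀ n q v, lab n q (nx n q v) = lab n q v) ∧
      ∀ (n m : ℕ) (p : U n) (p' : U m) (σ : ℕ → Fin 128), side n p = side m p' →
        (∀ i, i + 1 < L n → σ (i + 1) ≠ σ i) →
        (∀ i < L n, lab n (σ i) (walk (nx n) σ p i) = lab m (σ i) (walk (nx m) σ p' i)) →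
        (⟨n, p⟩ : Σ n, U n) = ⟨m, p'⟩ := by
  classical
  obtain ⟨s, hs'⟩ : ∃ s : ℕ, 2000 ≤ s := ⟨_, le_rfl⟩
  choose F h1 h2 h3 using label_step U nx L hL h0 side hs inv gir hc (Λ := Fin (2 ^ s + 1)) hs'
    (by simp)
  obtain ⟨lab, hlab⟩ : ∃ lab : ∀ n, Fin 128 → U n → Fin (2 ^ s + 1), ∀ n, lab n =
      F n fun m => if m < n then lab m else fun _ _ => 0 := by
    refine ⟨Nat.lt_wfRel.wf.fix fun n ih => F n fun m => if h : m < n then ih m h else fun _ _ => 0,
      fun n => ?_⟩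
    rw [WellFounded.fix_eq]
    rfl
  have ha : ∀ n, ∀ m < n, ∀ (p : U n) (p' : U m) (σ : ℕ → Fin 128),
      (∀ i, i + 1 < L m → σ (i + 1) ≠ σ i) →
        ¬ ∀ i < L m, lab n (σ i) (walk (nx n) σ p i) = lab m (σ i) (walk (nx m) σ p' i) := by
    intro n m hm p p' σ hσ
    have := h2 n (fun m => if m < n then lab m else fun _ _ => 0) m hm p p' σ hσ
    rw [← hlab n] at this
    simpa only [if_pos hm] using this
  refine ⟨Fin (2 ^ s + 1), inferInstance, inferInstance, lab, fun n q v => ?_,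
    fun n m p p' σ e hσ h => ?_⟩
  · rw [hlab n]
    exact h1 _ _ q v
  · rcases lt_trichotomy m n with hm | rfl | hm
    · have := hL hm
      exact absurd (fun i hi => h i (hi.trans this))
        (ha n m hm p p' σ fun i hi => hσ i (hi.trans this))
    · rw [hlab m] at h
      rw [h3 _ _ p p' σ e hσ h]
    · exact absurd (fun i hi => (h i hi).symm) (ha m n hm p' p σ hσ)

end Vale.Agent.P089
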