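import Vale.Agent.P089.Label
import Vale.Agent.P089.Expan

/-!
PLAN. `L 0 = 24`, `L (n+1) = u ^ ((u + 2) ^ 2)` with `u = 2 * 129 ^ (31 * L n)`; `U n = Bool × Fin (129 ^ (31 * L n))`
(make `L` irreducible / use an existential so that nothing is evaluated). `nx` from `exists_expander`, `lab` from
`exists_label` (`2 * 129 ^ (31 L) ≤ 2 ^ (250 L)` from `129 ≤ 2 ^ 8`).
`S = {s : Fin 128 × Λ // ∃ n v, lab n s.1 v = s.2}`, `prt s = s.1.1`, `lt n q v = (⟨(q, lab n q v), _⟩, v.1)`.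
A sequence of `RStep`s is a `walk` along `σ i = prt (ℓ i).1`; `ℓ (i+1) ≠ linv (ℓ i)` gives `σ (i+1) ≠ σ i`.
-/

namespace Vale.Agent.P089

open Vale.Agent.P194

theorem exists_rec (F : ℕ → ℕ) (a : ℕ) : ∃ L : ℕ → ℕ, L 0 = a ∧ ∀ n, L (n + 1) = F (L n) :=
  ⟨fun n => Nat.rec a (fun _ x => F x) n, rfl, fun _ => rfl⟩

theorem exists_scale : ∃ L : ℕ → ℕ, StrictMono L ∧ 24 ≤ L 0 ∧
    ∀ n, (2 * 129 ^ (31 * L n)) ^ ((2 * 129 ^ (31 * L n) + 2) ^ 2) ≤ L (n + 1) := by
  obtain ⟨L, h0, h⟩ := exists_rec (fun x => (2 * 129 ^ (31 * x)) ^ ((2 * 129 ^ (31 * x) + 2) ^ 2)) 24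
  refine ⟨L, strictMono_nat_of_lt_succ fun n => ?_, h0.ge, fun n => (h n).ge⟩
  rw [h n]
  generalize L n = x
  have h1 : 31 * x < 129 ^ (31 * x) := Nat.lt_pow_self (by norm_num)
  have h2 : 2 * 129 ^ (31 * x) ≤ (2 * 129 ^ (31 * x)) ^ ((2 * 129 ^ (31 * x) + 2) ^ 2) :=
    Nat.le_self_pow (by positivity) _
  omega

section steps

variable {S : Type} {U : ℕ → Type} {prt : S → Fin 128} {nx : ∀ n, Fin 128 → U n → U n}
  {lt : ∀ n, Fin 128 → U n → S × Bool}

theorem steps_walk {p : ℕ → Σ n, U n} {ℓ : ℕ → S × Bool} {k : ℕ}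
    (h : ∀ i < k, RStep prt nx lt (p i) (ℓ i) (p (i + 1))) :
    ∀ i ≤ k, p i = ⟨(p 0).1, walk (nx (p 0).1) (fun i => prt (ℓ i).1) (p 0).2 i⟩ := by
  intro i
  induction i with
  | zero => intro _; rfl
  | succ i ih =>
    intro hi
    have h1 := (h i (by omega)).2
    rw [ih (by omega)] at h1
    exact h1

theorem steps_lt {p : ℕ → Σ n, U n} {ℓ : ℕ → S × Bool} {k : ℕ}
    (h : ∀ i < k, RStep prt nx lt (p i) (ℓ i) (p (i + 1))) (i : ℕ) (hi : i < k) :
    lt (p 0).1 (prt (ℓ i).1) (walk (nx (p 0).1) (fun i => prt (ℓ i).1) (p 0).2 i) = ℓ i := by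
  have h1 := (h i hi).1
  rw [steps_walk h i hi.le] at h1
  exact h1

theorem steps_red (hlt : ∀ n q v, lt n q (nx n q v) = linv (lt n q v)) {p : ℕ → Σ n, U n}
    {ℓ : ℕ → S × Bool} {k : ℕ} (h : ∀ i < k, RStep prt nx lt (p i) (ℓ i) (p (i + 1)))
    (hr : ∀ i, i + 1 < k → ℓ (i + 1) ≠ linv (ℓ i)) (i : ℕ) (hi : i + 1 < k) :
    prt (ℓ (i + 1)).1 ≠ prt (ℓ i).1 := by
  intro he
  apply hr i hi
  have h1 := steps_lt h (i + 1) hi
  have h2 := steps_lt h i (by omega)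
  rw [← h1, ← h2, he]
  simp only [h2]
  exact (hlt _ _ _).trans (congrArg linv h2)

end steps

theorem exists_mon : Nonempty Mon := by
  classical
  obtain ⟨L, hL, h0, hgrow⟩ := exists_scale
  have h24 : ∀ n, 24 ≤ L n := fun n => h0.trans (hL.monotone (Nat.zero_le n))
  choose nx inv side gir xp using fun n => exists_expander (L n) (by have := h24 n; omega)
  have hcard : ∀ n, Fintype.card (Bool × Fin (129 ^ (31 * L n))) = 2 * 129 ^ (31 * L n) := fun n => by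
    rw [Fintype.card_prod, Fintype.card_bool, Fintype.card_fin]
  obtain ⟨Λ, fΛ, dΛ, lab, hlab, hpiece⟩ := exists_label (fun n => Bool × Fin (129 ^ (31 * L n))) nx L hL h0
    (fun _ v => v.1) side inv gir (fun n => by
      rw [hcard]
      have h1 := h24 n
      generalize L n = x at h1 ⊢
      calc 2 * 129 ^ (31 * x) ≤ 2 * (2 ^ 8) ^ (31 * x) :=
            Nat.mul_le_mul_left _ (Nat.pow_le_pow_left (by norm_num) _)
        _ = 2 ^ (8 * (31 * x) + 1) := by rw [← pow_mul, pow_succ, mul_comm]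
        _ ≤ 2 ^ (250 * x) := Nat.pow_le_pow_right (by norm_num) (by omega))
  let S : Type := {s : Fin 128 × Λ // ∃ n v, lab n s.1 v = s.2}
  let lt : ∀ n, Fin 128 → Bool × Fin (129 ^ (31 * L n)) → S × Bool :=
    fun n q v => (⟨(q, lab n q v), n, v, rfl⟩, v.1)
  have hlt : ∀ n q v, lt n q (nx n q v) = linv (lt n q v) := fun n q v =>
    Prod.ext (Subtype.ext (Prod.ext rfl (hlab n q v))) (side n q v)
  have hne : Nonempty S := ⟨(lt 0 0 (false, ⟨0, by positivity⟩)).1⟩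
  refine ⟨{ S := S, prt := fun s => s.1.1, U := fun n => Bool × Fin (129 ^ (31 * L n)), nx := nx, lt := lt,
            L := L, nx_nx := inv, lt_nx := hlt, prt_lt := fun _ _ _ => rfl, sc := ?_, xp := xp,
            small := fun n => ?_, grow := fun n => ?_ }⟩
  · refine ⟨?_, ?_, ?_, ?_, fun v => ?_, ?_, ?_⟩
    · rintro ⟨n, v⟩ a v' ⟨h1, rfl⟩
      refine ⟨(hlt n _ v).trans (congrArg linv h1), ?_⟩
      exact congrArg (Sigma.mk n) (inv n _ v).symm
    · rintro v a v' v'' ⟨-, rfl⟩ ⟨-, rfl⟩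
      rfl
    · rintro ⟨⟨⟨q, l⟩, n, v, hv⟩, b⟩
      by_cases hb : v.1 = b
      · exact ⟨⟨n, v⟩, _, Prod.ext (Subtype.ext (Prod.ext rfl hv)) hb, rfl⟩
      · refine ⟨⟨n, nx n q v⟩, _, Prod.ext (Subtype.ext (Prod.ext rfl ((hlab n q v).trans hv))) ?_, rfl⟩
        refine (side n q v).trans ?_
        revert hb
        cases v.1 <;> cases b <;> simp
    · rintro v a v' ⟨-, rfl⟩
      rfl
    · have := h24 v.1
      omega
    · intro p q ℓ hp hq hr
      have hpos : 0 < L (p 0).1 := by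
        have := h24 (p 0).1
        omega
      refine hpiece (p 0).1 (q 0).1 (p 0).2 (q 0).2 (fun i => (ℓ i).1.1.1) ?_
        (steps_red hlt hp hr) fun i hi => ?_
      · exact congrArg Prod.snd ((hp 0 hpos).1.trans (hq 0 hpos).1.symm)
      · exact congrArg (fun a : S × Bool => a.1.1.2) ((steps_lt hp i hi).trans (steps_lt hq i hi).symm)
    · intro p ℓ k hk hp hr he
      refine gir (p 0).1 (fun i => (ℓ i).1.1.1) (p 0).2 k hk (steps_red hlt hp hr) ?_
      have h1 := steps_walk hp k le_rfl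
      rw [he] at h1
      exact (eq_of_heq (Sigma.mk.inj_iff.mp h1).2).symm
  · rw [hcard]
    have h1 := h24 n
    generalize L n = x at h1 ⊢
    have h2 : 129 ^ (3 * x + 1) ≤ 129 ^ (31 * x) := Nat.pow_le_pow_right (by norm_num) (by omega)
    rw [pow_succ] at h2
    omega
  · rw [hcard, hcard]
    refine (hgrow n).trans ?_
    generalize L (n + 1) = x
    have h1 : 31 * x < 129 ^ (31 * x) := Nat.lt_pow_self (by norm_num)
    omega

end Vale.Agent.P089
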