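import Vale.Agent.P089.Geo
import Vale.Agent.P089.MonEx
import Vale.Agent.P089.Code
import Vale.Agent.P089.Irr
import Vale.Agent.P089.Gap
import Vale.Agent.P089.Four

open MeasureTheory
open scoped InnerProductSpace

namespace Vale.Agent.P089

open Vale.Agent.P194

theorem exists_dat : Nonempty Dat := by
  obtain ⟨M⟩ := exists_mon
  obtain ⟨g⟩ := exists_geo M
  obtain ⟨r, hr⟩ := exists_code (Fin 128 → M.S × Bool → ZMod 2)
  have ne : ∀ n, Nonempty (M.U n) := fun n => Fintype.card_pos_iff.1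
    (lt_of_lt_of_le (by positivity) (M.small n))
  choose C h1 h2 h3 using fun n => hr (M.U n) fun v q => Pi.single (M.lt n q v) 1
  exact ⟨⟨M, g, r, C, h1, h2, h3⟩⟩

theorem main : ∃ (G : Type) (_ : Group G) (_ : Countable G),
    ∀ (H : Type) [NormedAddCommGroup H] [InnerProductSpace ℂ H] [CompleteSpace H]
      (δ : HilbertBasis G ℂ H),
      ∃ p ∈ closure (Submodule.span ℂ {T : H →L[ℂ] H | ∃ a, ∀ b, T (δ b) = δ (a * b)} :
          Set (H →L[ℂ] H)),
        IsStarProjection p ∧ ∃ t : ℝ, Irrational t ∧ ⟪δ 1, p (δ 1)⟫_ℂ = t := by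
  classical
  obtain ⟨d⟩ := exists_dat
  haveI : Countable d.M.G := by
    haveI : Countable (FreeGroup d.M.S) :=
      (show Function.Surjective (FreeGroup.mk : List (d.M.S × Bool) → _) from
        Quot.mk_surjective).countable
    exact QuotientGroup.mk_surjective.countable
  obtain ⟨μ, hμ, hμ'⟩ := exists_haar d.X (by
    intro x hx c n
    obtain ⟨y, hy, e⟩ := hx (Finset.univ.image fun v => c * d.g.f ⟨n, v⟩)
    have : (fun v => x (c * d.g.f ⟨n, v⟩)) = fun v => y (c * d.g.f ⟨n, v⟩) :=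
      funext fun v => (e _ (Finset.mem_image_of_mem _ (Finset.mem_univ v))).symm
    rw [this]
    exact hy c n)
  obtain ⟨ρ, r0, r1, hg⟩ := gap
  have key := fun x (hx : x ∈ d.X) => hg (d.M.Val x) (fun z a => z * d.M.γ a) linv (d.cl x)
    linv_linv (fun z a h => ⟨d.val_symm h, by simp [gen_linv], d.cl_val h⟩) d.deg_le
    (fun z h => ⟨d.cl_self h, d.deg_eq h⟩) (fun z z' => d.cl_eq) (fun F hF => by
      refine le_trans (le_of_eq (congrArg Finset.card (Finset.ext fun p => by simp)))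
        (d.iso hx F fun z => le_trans (le_of_eq ?_) (hF z))
      exact congrArg (2 * ·) (congrArg Finset.card (Finset.ext fun p => by simp)))
  obtain ⟨i1, i2⟩ := d.trace_irr μ
  obtain ⟨Γ, I, _, _, _, c, g, a1, a2, a3⟩ := four d.X
    (fun z x hx c n => by simpa [mul_assoc] using hx (z * c) n) μ d.M.γ linv d.M.Val
    (fun x z a => by simp [Mon.Val])
    (fun a => ⟨{1, d.M.γ a}, fun x y e h => by
      have e1 := e 1 (by simp)
      have e2 := e (d.M.γ a) (by simp)
      simpa [Mon.Val, ← e1, ← e2] using h⟩)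
    linv_linv gen_linv (fun x z a => d.val_symm) 4 ρ r0 r1
    (fun x hx f T hT j T' => by
      have b1 := key x hx f T hT (j + 1) T'
      have b2 := key x hx f T hT j T'
      have b3 : 0 ≤ ∑ z ∈ T, ‖f z‖ ^ 2 := Finset.sum_nonneg fun _ _ => sq_nonneg _
      have b4 : ρ ^ (j + 1) * ∑ z ∈ T, ‖f z‖ ^ 2 ≤ ρ ^ j * ∑ z ∈ T, ‖f z‖ ^ 2 :=
        mul_le_mul_of_nonneg_right (pow_le_pow_of_le_one r0 r1.le (Nat.le_succ j)) b3
      have b5 : ∀ a b c : ℂ, ‖a - b‖ ^ 2 ≤ 2 * ‖a - c‖ ^ 2 + 2 * ‖b - c‖ ^ 2 := by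
        intro a b c
        have := norm_sub_le (a - c) (b - c)
        rw [sub_sub_sub_cancel_right] at this
        nlinarith [norm_nonneg (a - b), norm_nonneg (a - c), norm_nonneg (b - c),
          sq_nonneg (‖a - c‖ - ‖b - c‖)]
      refine (Finset.sum_le_sum fun z _ =>
        b5 _ _ ((∑ w ∈ d.cl x z, f w) / (d.cl x z).card)).trans ?_
      rw [Finset.sum_add_distrib, ← Finset.mul_sum, ← Finset.mul_sum]
      linarith)
    _ i1 (fun x j => by
      generalize (fun a b => Classical.propDecidable (a = b) : DecidableEq d.M.G) = inst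
      have b := key x.1 x.2 (Pi.single 1 1) {1} (fun z hz => by
        rw [Pi.single_eq_of_ne (by simpa using hz)]) j {1}
      have e : (∑ w ∈ d.cl x.1 1, (Pi.single 1 1 : d.M.G → ℂ) w) / (d.cl x.1 1).card =
          ((((d.cl x.1 1).card : ℝ))⁻¹ : ℝ) := by
        rcases (d.cl x.1 1).eq_empty_or_nonempty with c | c
        · simp [c]
        · simp [Finset.sum_pi_single', d.cl_self c]
      rw [Finset.sum_singleton, Finset.sum_singleton, e] at b
      simpa using b)
  refine ⟨Γ, inferInstance, inferInstance, fun H _ _ _ δ => ?_⟩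
  obtain ⟨p, p1, p2, p3⟩ := exists_proj c g 4 ρ _ r0 r1 a1 a2 a3 H δ
  exact ⟨p, p1, p2, _, i2, p3⟩

end Vale.Agent.P089
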