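import Vale.Agent.P089.Basic
import Vale.Agent.P186.Thin

/-!
Curvature count for a triangular diagram. Model: `thin_count` in `P186/Thin.lean`.

The outer face is `star, bd 0, .., bd (n-1)`, `n = nA + nB + nC`, cut in the sides `A` (type 0), `B` (type 1, the height `u` drops
by one along each dart), `C` (type 2, `u` rises by one). Special vertices = `σ`-orbits of `star`, `bd nA`, `bd (nA + nB)`.
`gn d` is the turning of the face of the inner dart `d` at its initial vertex (6 = half turn).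

PLAN `budget`: `Dg.count` with `c = 12`, `ω₁ d = if d ∈ R then 12 else if SpV d then 0 else if O d then 6 else 6 - gn d`,
`ω₂ d = (if d = star then 12 else gn d) - ex d`. The vertex inequality at non special vertices is the one of `thin_count`
(no fixed point of `σ`: for an `O` dart use `leaf` on side `A`, the height on sides `B`, `C`; for an inner dart `J_nb`).
Then `∑ (ω₁ + ω₂) ≤ 6 card D + 12 + 12 #R - 6 #N - ∑ ex`.
-/

namespace Vale.Agent.P089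

open Vale.Agent.P194 Equiv

variable {S V W G : Type} [Group G] {Step : V → S × Bool → V → Prop} {L : V → ℕ}
  {St : W → S × Bool → W → Prop} {γ : S × Bool → G} {x y : W}

/-- boundary darts -/
def bd (Δ : Dg St γ x y) (j : ℕ) : Δ.D := (Δ.φ ^ (j + 1)) Δ.star

/-- outer darts -/
def Ou (Δ : Dg St γ x y) (d : Δ.D) : Prop := d ∈ orb Δ.φ Δ.star

/-- triangular diagrams -/
structure Su (Step : V → S × Bool → V → Prop) (L : V → ℕ) (Δ : Dg St γ x y) where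
  H : SC Step L
  red : Δ.Red
  hγ : ∀ a, γ (linv a) = (γ a)⁻¹
  ι : V → W
  π : Δ.D → V
  nA : ℕ
  nB : ℕ
  nC : ℕ
  u : G → ℤ
  hn : bd Δ (nA + nB + nC) = Δ.star
  hne : ∀ j < nA + nB + nC, bd Δ j ≠ Δ.star
  hJ : ∀ d, ¬ Ou Δ d → Δ.J Step ι π d
  u1 : ∀ z a, u (z * γ a) ≤ u z + 1
  uB : ∀ j, nA ≤ j → j < nA + nB → u (Δ.el (bd Δ (j + 1))) + 1 = u (Δ.el (bd Δ j))
  uC : ∀ j, nA + nB ≤ j → j < nA + nB + nC → u (Δ.el (bd Δ (j + 1))) = u (Δ.el (bd Δ j)) + 1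
  hA : 0 < nA
  leaf : ∀ j, j + 1 < nA → Δ.α (bd Δ j) ≠ bd Δ (j + 1)
  exB : 0 < nB → Δ.α (bd Δ (nA - 1)) ≠ bd Δ nA
  exC : 0 < nC → Δ.α (bd Δ 0) ≠ bd Δ (nA + nB + nC - 1)
  run : ∀ e j, ¬ Ou Δ e → j < nA →
    (∀ i < L (π e), i ≤ j ∧ Δ.α ((Δ.φ ^ i) e) = bd Δ (j - i)) → False

variable {Δ : Dg St γ x y}

theorem bd_succ (j : ℕ) : bd Δ (j + 1) = Δ.φ (bd Δ j) := by
  simp [bd, pow_succ']

theorem Ou_star : Ou Δ Δ.star := self_mem_orb _ _

theorem Ou_phi (d : Δ.D) : Ou Δ (Δ.φ d) ↔ Ou Δ d := apply_mem_orb _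

theorem Ou_pow (n : ℕ) (d : Δ.D) : Ou Δ ((Δ.φ ^ n) d) ↔ Ou Δ d := pow_mem_orb _ n

theorem Ou_bd (j : ℕ) : Ou Δ (bd Δ j) := (Ou_pow _ _).2 Ou_star

namespace Su

variable (s : Su Step L Δ)

/-- the side of an outer dart -/
def Ty (t : Fin 3) (d : Δ.D) : Prop :=
  ∃ j < s.nA + s.nB + s.nC, d = bd Δ j ∧
    t = if j < s.nA then 0 else if j < s.nA + s.nB then 1 else 2

/-- darts at special vertices -/
def SpV (d : Δ.D) : Prop :=
  d ∈ orb Δ.σ Δ.star ∨ d ∈ orb Δ.σ (bd Δ s.nA) ∨ d ∈ orb Δ.σ (bd Δ (s.nA + s.nB))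

open Classical in
/-- turning -/
noncomputable def gn (d : Δ.D) : ℚ :=
  if Ou Δ d then 0 else if s.SpV d then 6 else if Δ.σ (Δ.σ d) = d then 0 else
    if Ou Δ (Δ.σ d) then (if Ou Δ (Δ.σ⁻¹ d) then 6 else 3) else (if Ou Δ (Δ.σ⁻¹ d) then 3 else 2)

theorem bd_inj {i j : ℕ} (hi : i ≤ s.nA + s.nB + s.nC) (hj : j ≤ s.nA + s.nB + s.nC)
    (h : bd Δ i = bd Δ j) : i = j := by
  wlog c : i < j generalizing i j
  · rcases (not_lt.1 c).eq_or_lt with c | c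
    · exact c.symm
    · exact (this hj hi h.symm c).symm
  exfalso
  refine s.hne (i + (s.nA + s.nB + s.nC - j)) (by omega) ?_
  have e : ∀ k m, bd Δ (k + m) = (Δ.φ ^ m) (bd Δ k) := fun k m => by
    rw [bd, bd, ← Perm.mul_apply, ← pow_add]; congr 2; omega
  rw [e, h, ← e, show j + (s.nA + s.nB + s.nC - j) = s.nA + s.nB + s.nC by omega, s.hn]

include s in
theorem Ou_iff (d : Δ.D) : Ou Δ d ↔ ∃ j ≤ s.nA + s.nB + s.nC, d = bd Δ j := by
  constructor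
  · intro h
    obtain ⟨n, rfl⟩ := ((mem_orb _).1 h).exists_nat_pow_eq
    clear h
    induction n with
    | zero => exact ⟨_, le_rfl, s.hn.symm⟩
    | succ n ih =>
      obtain ⟨j, hj, e⟩ := ih
      rw [pow_succ', Perm.mul_apply, e]
      rcases hj.eq_or_lt with c | c
      · exact ⟨0, Nat.zero_le _, by rw [c, s.hn]; simp [bd]⟩
      · exact ⟨j + 1, c, (bd_succ j).symm⟩
  · rintro ⟨j, -, rfl⟩
    exact Ou_bd j

theorem Ty_Ou {t d} (h : s.Ty t d) : Ou Δ d := by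
  obtain ⟨j, -, rfl, -⟩ := h
  exact Ou_bd j

theorem Ty_uniq {t t' d} (h : s.Ty t d) (h' : s.Ty t' d) : t = t' := by
  obtain ⟨i, hi, e, ht⟩ := h
  obtain ⟨j, hj, e', ht'⟩ := h'
  obtain rfl := s.bd_inj hi.le hj.le (e.symm.trans e')
  rw [ht, ht']

theorem Ty_ex {d} (h : Ou Δ d) (hd : d ≠ Δ.star) : ∃ t, s.Ty t d := by
  obtain ⟨j, hj, rfl⟩ := (s.Ou_iff d).1 h
  rcases hj.eq_or_lt with c | c
  · exact absurd (by rw [c, s.hn]) hd
  · exact ⟨_, j, c, rfl, rfl⟩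

theorem gn_nonneg (d : Δ.D) : 0 ≤ s.gn d := by
  unfold gn; split_ifs <;> norm_num

theorem gn_sp {d : Δ.D} (h : ¬ Ou Δ d) (h' : s.SpV d) : s.gn d = 6 := by
  unfold gn; rw [if_neg h, if_pos h']

theorem SpV_σ (d : Δ.D) : s.SpV (Δ.σ d) ↔ s.SpV d := by
  simp only [SpV, apply_mem_orb]

theorem SpV_orb {d e : Δ.D} (h : e ∈ orb Δ.σ d) : s.SpV e ↔ s.SpV d := by
  obtain ⟨n, rfl⟩ := ((mem_orb _).1 h).exists_nat_pow_eq
  simp only [SpV, pow_mem_orb]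

theorem nst {e : Δ.D} (he : ¬ Ou Δ e) : e ≠ Δ.star := by
  rintro rfl; exact he Ou_star

/-- consecutive outer darts at a non special vertex -/
theorem consec {d : Δ.D} (hd : Ou Δ d) (hs : d ≠ Δ.star) (h : ¬ s.SpV (Δ.φ d)) :
    ∃ j, d = bd Δ j ∧ (j + 1 < s.nA ∨ (s.nA ≤ j ∧ j + 1 < s.nA + s.nB) ∨
      (s.nA + s.nB ≤ j ∧ j + 1 < s.nA + s.nB + s.nC)) := by
  obtain ⟨j, hj, rfl⟩ := (s.Ou_iff d).1 hd
  refine ⟨j, rfl, ?_⟩
  rw [← bd_succ] at h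
  have c0 : j ≠ s.nA + s.nB + s.nC := fun c => hs (by rw [c, s.hn])
  have c1 : j + 1 ≠ s.nA := fun c => h (.inr (.inl (by rw [c]; exact self_mem_orb _ _)))
  have c2 : j + 1 ≠ s.nA + s.nB := fun c => h (.inr (.inr (by rw [c]; exact self_mem_orb _ _)))
  have c3 : j + 1 ≠ s.nA + s.nB + s.nC := fun c =>
    h (.inl (by rw [c, s.hn]; exact self_mem_orb _ _))
  omega

theorem gcase {e : Δ.D} (he : ¬ Ou Δ e) :
    (s.gn (Δ.φ e) = 0 ∧ Δ.φ (Δ.α (Δ.φ e)) = Δ.α e ∧ (Ou Δ (Δ.α (Δ.φ e)) ↔ Ou Δ (Δ.α e)) ∧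
      ∀ t, (s.Ty t (Δ.α (Δ.φ e)) ↔ s.Ty t (Δ.α e))) ∨
    (2 ≤ s.gn (Δ.φ e) ∧ (Ou Δ (Δ.α e) ∨ Ou Δ (Δ.α (Δ.φ e)) → 3 ≤ s.gn (Δ.φ e)) ∧
      (Ou Δ (Δ.α e) → Ou Δ (Δ.α (Δ.φ e)) → 6 ≤ s.gn (Δ.φ e))) := by
  have he' : ¬ Ou Δ (Δ.φ e) := by rwa [Ou_phi]
  by_cases c0 : s.SpV (Δ.φ e)
  · right
    rw [s.gn_sp he' c0]
    exact ⟨by norm_num, fun _ => by norm_num, fun _ _ => le_rfl⟩
  by_cases c : Δ.σ (Δ.σ (Δ.φ e)) = Δ.φ e
  · left
    have a1 := Δ.σσ c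
    have a2 : Ou Δ (Δ.α (Δ.φ e)) ↔ Ou Δ (Δ.α e) := by rw [← a1, Ou_phi]
    refine ⟨by unfold gn; rw [if_neg he', if_neg c0, if_pos c], a1, a2, fun t => ?_⟩
    by_cases ho : Ou Δ (Δ.α (Δ.φ e))
    · obtain ⟨j, e1, hj⟩ := s.consec ho (Δ.alpha_ne (nst he'))
        (by rw [← Δ.σ_apply, SpV_σ]; exact c0)
      rw [← a1, e1, ← bd_succ]
      have k : ∃ t₀, s.Ty t₀ (bd Δ j) ∧ s.Ty t₀ (bd Δ (j + 1)) := by
        refine ⟨_, ⟨j, by omega, rfl, rfl⟩, j + 1, by omega, rfl, ?_⟩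
        split_ifs <;> first | rfl | omega
      obtain ⟨t₀, k1, k2⟩ := k
      exact ⟨fun h => s.Ty_uniq k1 h ▸ k2, fun h => s.Ty_uniq k2 h ▸ k1⟩
    · exact iff_of_false (fun h => ho (s.Ty_Ou h)) (fun h => ho (a2.2 (s.Ty_Ou h)))
  · right
    have a1 : Δ.σ⁻¹ (Δ.φ e) = Δ.α e := by
      rw [Perm.inv_eq_iff_eq, Δ.σ_apply, Δ.invol]
    have a2 : Ou Δ (Δ.σ (Δ.φ e)) ↔ Ou Δ (Δ.α (Δ.φ e)) := by rw [Δ.σ_apply, Ou_phi]
    unfold gn
    rw [if_neg he', if_neg c0, if_neg c, a1]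
    by_cases c1 : Ou Δ (Δ.α e) <;> by_cases c2 : Ou Δ (Δ.α (Δ.φ e)) <;>
      simp [c1, c2, a2] <;> norm_num

theorem nofix {e : Δ.D} (h : ¬ s.SpV e) : e ≠ Δ.σ e := by
  intro hc
  have c1 : e ≠ Δ.star := by rintro rfl; exact h (.inl (self_mem_orb _ _))
  have a1 : Δ.φ (Δ.α e) = e := hc.symm
  have a2 : Ou Δ e ↔ Ou Δ (Δ.α e) := by rw [← Ou_phi (Δ.α e), a1]
  by_cases c2 : Ou Δ e
  · obtain ⟨j, e1, hj⟩ := s.consec (a2.1 c2) (Δ.alpha_ne c1) (by rwa [a1])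
    have e2 : e = bd Δ (j + 1) := by rw [bd_succ, ← e1, a1]
    have e3 : Δ.el (bd Δ (j + 1 + 1)) = Δ.el (bd Δ j) := by rw [bd_succ, ← e2, Δ.hel, e1]
    rcases hj with hj | hj | hj
    · exact s.leaf j hj (by rw [← e1, Δ.invol, e2])
    · have b1 := s.uB j hj.1 (by omega)
      have b2 := s.uB (j + 1) (by omega) hj.2
      rw [e3] at b2
      omega
    · have b1 := s.uC j hj.1 (by omega)
      have b2 := s.uC (j + 1) (by omega) hj.2
      rw [e3] at b2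
      omega
  · have h1 := s.hJ _ (by rwa [← a2] : ¬ Ou Δ (Δ.α e))
    have h2 := s.hJ _ (by rwa [a1] : ¬ Ou Δ (Δ.φ (Δ.α e)))
    have hl : Δ.lab (Δ.φ (Δ.α e)) = linv (Δ.lab (Δ.α e)) := by
      rw [a1, Δ.hlab e (s.red.nodum e c1), linv_linv]
    refine s.red.noF _ h1.1 h2.1 hl ?_
    have := h2.2.1
    rw [hl] at this
    rw [h2.2.2.2, h1.2.2.1, s.H.det _ _ _ _ this (s.H.sym _ _ _ h1.2.1)]

theorem budget (R N : Finset Δ.D) (hRN : R ⊆ N) (hN : ∀ d ∈ N, Ou Δ d ∧ s.SpV d)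
    (hR : ∀ d, s.SpV d → ∃ r ∈ R, r ∈ orb Δ.σ d) (ex : Δ.D → ℚ) (h0 : ∀ d, Ou Δ d → ex d = 0)
    (h1 : ∀ d, ¬ Ou Δ d → 12 + ∑ e ∈ orb Δ.φ d, ex e ≤ ∑ e ∈ orb Δ.φ d, s.gn e) :
    ∑ d, ex d ≤ 12 * R.card - 6 * N.card - 6 := by
  classical
  let ω₁ : Δ.D → ℚ := fun d => if d ∈ R then 12 else if s.SpV d then 0 else
    if Ou Δ d then 6 else 6 - s.gn d
  have g6 : ∀ d, s.gn d ≤ 6 := fun d => by unfold gn; split_ifs <;> norm_num
  have p1 : ∀ e, 0 ≤ ω₁ e := fun e => by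
    simp only [ω₁]; split_ifs <;> linarith [g6 e]
  have oorb : ∀ d e, e ∈ orb Δ.φ d → (Ou Δ e ↔ Ou Δ d) := by
    intro d e he
    obtain ⟨n, rfl⟩ := ((mem_orb _).1 he).exists_nat_pow_eq
    exact Ou_pow n d
  have := Δ.count s.red ω₁ (fun d => (if d = Δ.star then 12 else s.gn d) - ex d) 12 (by norm_num)
    ?_ ?_
  · have e : ∀ e, ω₁ e + ((if e = Δ.star then 12 else s.gn e) - ex e) ≤
        6 + (if e = Δ.star then 12 else 0) + (if e ∈ R then 12 else 0) -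
          (if e ∈ N then 6 else 0) - ex e := by
      intro e
      by_cases c : Ou Δ e
      · have g0 : s.gn e = 0 := by unfold gn; rw [if_pos c]
        simp only [ω₁, g0, if_pos c]
        by_cases c1 : e ∈ R
        · simp only [if_pos c1, if_pos (hRN c1)]; linarith
        · simp only [if_neg c1]
          by_cases c2 : e ∈ N
          · simp only [if_pos c2, if_pos (hN e c2).2]; linarith
          · simp only [if_neg c2]; split_ifs <;> linarith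
      · have c2 : e ∉ N := fun h => c (hN e h).1
        have c1 : e ∉ R := fun h => c2 (hRN h)
        simp only [ω₁, if_neg c, if_neg c1, if_neg c2, if_neg (nst c)]
        split_ifs <;> linarith [g6 e]
    have e2 := Finset.sum_le_sum (s := Finset.univ) fun i _ => e i
    simp only [Finset.sum_sub_distrib, Finset.sum_add_distrib, Finset.sum_const,
      Finset.card_univ, nsmul_eq_mul, Finset.sum_ite_eq', Finset.mem_univ, if_true,
      Finset.sum_ite_mem, Finset.univ_inter] at this e2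
    linarith
  · intro d
    by_cases c : s.SpV d
    · obtain ⟨r, hr, he⟩ := hR d c
      refine le_trans ?_ (orb_ge1 _ (fun e _ => p1 e) he)
      simp [ω₁, hr]
    have c' : ∀ e ∈ orb Δ.σ d, ¬ s.SpV e := fun e he => by rwa [s.SpV_orb he]
    have q0 : ∀ e ∈ orb Δ.σ d, ω₁ e = if Ou Δ e then 6 else 6 - s.gn e := fun e he => by
      simp only [ω₁, if_neg (c' e he), if_neg (fun h => c' e he (hN e (hRN h)).2)]
    have fix : ∀ e ∈ orb Δ.σ d, e ≠ Δ.σ e := fun e he => s.nofix (c' e he)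
    have m0 := self_mem_orb Δ.σ d
    have m1 := (apply_mem_orb Δ.σ).2 m0
    have m2 := (apply_mem_orb Δ.σ).2 m1
    by_cases b2 : Δ.σ (Δ.σ d) = d
    · refine le_trans ?_ (orb_ge2 _ (fun e _ => p1 e) m0 m1 (fix d m0))
      rw [q0 _ m0, q0 _ m1]
      unfold gn
      simp only [b2, c' _ m0, c' _ m1, if_true, if_false]
      split_ifs <;> norm_num
    have b3 : ∀ e ∈ orb Δ.σ d, Δ.σ (Δ.σ e) ≠ e := by
      intro e he hc
      obtain ⟨n, rfl⟩ := ((mem_orb _).1 he).exists_nat_pow_eq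
      apply b2
      apply (Δ.σ ^ n).injective
      rw [← hc]
      simp only [← Perm.mul_apply, ← mul_assoc, ← pow_succ, ← pow_succ']
    have mi : ∀ e ∈ orb Δ.σ d, Δ.σ⁻¹ e ∈ orb Δ.σ d := fun e he => by
      rw [← apply_mem_orb]; simpa using he
    have q : ∀ e ∈ orb Δ.σ d, ω₁ e = if Ou Δ e then 6 else
        if Ou Δ (Δ.σ e) then (if Ou Δ (Δ.σ⁻¹ e) then 0 else 3) else
          (if Ou Δ (Δ.σ⁻¹ e) then 3 else 4) := by
      intro e he
      rw [q0 e he]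
      unfold gn
      simp only [c' _ he, b3 e he, if_false]
      split_ifs <;> norm_num
    by_cases c1 : ∃ e ∈ orb Δ.σ d, Ou Δ e
    · obtain ⟨e, he, ho⟩ := c1
      by_cases c2 : ∃ e' ∈ orb Δ.σ d, Ou Δ e' ∧ e ≠ e'
      · obtain ⟨e', he', ho', ne⟩ := c2
        refine le_trans ?_ (orb_ge2 _ (fun e _ => p1 e) he he' ne)
        rw [q _ he, q _ he', if_pos ho, if_pos ho']; norm_num
      have c3 : ∀ e' ∈ orb Δ.σ d, e ≠ e' → ¬ Ou Δ e' := fun e' he' ne ho' => c2 ⟨e', he', ho', ne⟩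
      have n1 := (apply_mem_orb Δ.σ).2 he
      have n2 := (apply_mem_orb Δ.σ).2 n1
      have n3 := mi _ he
      have n4 := mi _ n3
      have r1 : e ≠ Δ.σ⁻¹ e := fun hc => fix e he (by rw [Perm.eq_inv_iff_eq] at hc; exact hc.symm)
      have r2 : e ≠ Δ.σ⁻¹ (Δ.σ⁻¹ e) := fun hc => b3 e he (by
        rwa [Perm.eq_inv_iff_eq, Perm.eq_inv_iff_eq] at hc)
      have r3 : Δ.σ e ≠ Δ.σ⁻¹ e := fun hc => b3 e he (by rwa [Perm.eq_inv_iff_eq] at hc)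
      refine le_trans ?_ (orb_ge3 _ (fun e _ => p1 e) he n1 n3 (fix e he) r1 r3)
      have r4 : Δ.σ⁻¹ (Δ.σ e) = e := by simp
      have r5 : Δ.σ (Δ.σ⁻¹ e) = e := by simp
      rw [q _ he, q _ n1, q _ n3, r4, r5]
      simp only [ho, c3 _ n1 (fix e he), c3 _ n2 (b3 e he).symm, c3 _ n3 r1, c3 _ n4 r2,
        if_true, if_false]
      norm_num
    · push Not at c1
      refine le_trans ?_ (orb_ge3 _ (fun e _ => p1 e) m0 m1 m2 (fix d m0) (Ne.symm b2)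
        (fix _ m1))
      have q' : ∀ e ∈ orb Δ.σ d, ω₁ e = 4 := fun e he => by
        rw [q e he, if_neg (c1 _ he), if_neg (c1 _ ((apply_mem_orb _).2 he)),
          if_neg (c1 _ (mi _ he))]
      rw [q' _ m0, q' _ m1, q' _ m2]; norm_num
  · intro d
    rw [Finset.sum_sub_distrib]
    by_cases c : Ou Δ d
    · rw [Finset.sum_eq_zero (f := ex) fun e he => h0 e ((oorb d e he).2 c), sub_zero]
      have : Δ.star ∈ orb Δ.φ d := by rw [orb_eq _ c]; exact self_mem_orb _ _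
      refine le_trans ?_ (orb_ge1 _ (fun e _ => ?_) this)
      · simp
      · split_ifs
        · norm_num
        · exact s.gn_nonneg e
    · rw [Finset.sum_congr rfl fun e he => if_neg (nst (by rwa [oorb d e he]))]
      linarith [h1 d c]

end Su

end Vale.Agent.P089
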