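import Vale.Agent.P089.Tri1

/-!
Inner faces. PLAN: adapt `J_nb`, `J_card`, `J_run` (`P194/SC.lean`) to `SC` (the scale `L (π e)` is constant along an inner face by
`scale`), and `faceA`, `faceB` of `thin_count`.
* `cross`: from `gcase`, `3 * #{t | Ty t (α e) xor Ty t (α (φ e))} ≤ gn (φ e)`; then `orb_cross2` for each type.
* `window`: every dart `e` of the face whose opposite is not of type 1 or 2 has a turning `≥ 2` among the next `L` darts
  (`J_run` if the opposite is inner, `run` if it is of type 0), `orb_window`.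
* `counts`: the height changes along the face sum to zero; they are `+1` opposite to type 1, `-1` opposite to type 2, and of modulus
  at most one otherwise. With `card ≥ 30 L` (`J_card`).
-/

namespace Vale.Agent.P089

open Vale.Agent.P194 Equiv

variable {S V W G : Type} [Group G] {Step : V → S × Bool → V → Prop} {L : V → ℕ}
  {St : W → S × Bool → W → Prop} {γ : S × Bool → G} {x y : W} {Δ : Dg St γ x y}

theorem J_nb' (H : SC Step L) (h : Δ.Red) {ι : V → W} {π : Δ.D → V} {d : Δ.D}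
    (h1 : Δ.J Step ι π d) (h2 : Δ.J Step ι π (Δ.φ d)) : Δ.lab (Δ.φ d) ≠ linv (Δ.lab d) := by
  intro hc
  refine h.noF d h1.1 h2.1 hc ?_
  have := h2.2.1
  rw [hc] at this
  rw [h2.2.2.2, h1.2.2.1, H.det _ _ _ _ this (H.sym _ _ _ h1.2.1)]

theorem J_run' (H : SC Step L) (h : Δ.Red) {ι : V → W} {π : Δ.D → V} {d : Δ.D}
    (h1 : ∀ i < L (π d), Δ.J Step ι π ((Δ.φ ^ i) d))
    (h2 : ∀ i < L (π d), Δ.J Step ι π (Δ.α ((Δ.φ ^ i) d)))
    (h3 : ∀ i, i + 1 < L (π d) → Δ.φ (Δ.α ((Δ.φ ^ (i + 1)) d)) = Δ.α ((Δ.φ ^ i) d)) : False := by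
  have two := H.two (π d)
  have k : ∀ e, Δ.J Step ι π e → Δ.J Step ι π (Δ.α e) →
      Step (π (Δ.φ (Δ.α e))) (Δ.lab e) (π (Δ.α e)) := by
    intro e he he'
    have := H.sym _ _ _ he'.2.1
    rwa [Δ.hlab e (h.nodum e he.1), linv_linv] at this
  have := H.piece (fun i => π ((Δ.φ ^ i) d))
    (fun i => if i < L (π d) then π (Δ.φ (Δ.α ((Δ.φ ^ i) d))) else
      π (Δ.α ((Δ.φ ^ (L (π d) - 1)) d)))
    (fun i => Δ.lab ((Δ.φ ^ i) d)) (fun i hi => by simpa [pow_succ'] using (h1 i hi).2.1)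
    (fun i hi => by
      have hi' : i < L (π d) := hi
      have := k _ (h1 i hi) (h2 i hi)
      rw [if_pos hi']
      split_ifs with c
      · rw [h3 i c]; exact this
      · rw [show L (π d) - 1 = i by omega]
        exact this)
    (fun i hi => by
      have hi' : i + 1 < L (π d) := hi
      have := h1 (i + 1) hi'
      rw [pow_succ', Perm.mul_apply] at this ⊢
      exact J_nb' H h (h1 i (by omega)) this)
  simp only [pow_zero, Perm.one_apply, show 0 < L (π d) by omega, if_true] at this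
  have a1 : Δ.J Step ι π d := h1 0 (by omega)
  have a2 : Δ.J Step ι π (Δ.α d) := h2 0 (by omega)
  refine h.noE d a1.1 ?_ ?_
  · have b := k d a1 a2
    rw [← this] at b
    rw [a1.2.2.2, a2.2.2.1, H.det _ _ _ _ a1.2.1 b]
  · rw [a2.2.2.2, a1.2.2.1, this]

namespace Su

variable (s : Su Step L Δ)

theorem L_pow {d : Δ.D} (hd : ¬ Ou Δ d) (n : ℕ) : L (s.π ((Δ.φ ^ n) d)) = L (s.π d) := by
  induction n with
  | zero => rfl
  | succ n ih =>
    rw [pow_succ', Perm.mul_apply, ← ih]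
    exact s.H.scale _ _ _ (s.hJ _ (by rwa [Ou_pow])).2.1

theorem inn {d e : Δ.D} (hd : ¬ Ou Δ d) (he : e ∈ orb Δ.φ d) : ¬ Ou Δ e := by
  obtain ⟨n, rfl⟩ := ((mem_orb _).1 he).exists_nat_pow_eq
  rwa [Ou_pow]

theorem L_orb {d e : Δ.D} (hd : ¬ Ou Δ d) (he : e ∈ orb Δ.φ d) : L (s.π e) = L (s.π d) := by
  obtain ⟨n, rfl⟩ := ((mem_orb _).1 he).exists_nat_pow_eq
  exact s.L_pow hd n

theorem card_ge {d : Δ.D} (hd : ¬ Ou Δ d) : 30 * L (s.π d) ≤ (orb Δ.φ d).card := by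
  refine orb_card _ _ _ fun n hn h => ?_
  have hm : ∀ i, Δ.J Step s.ι s.π ((Δ.φ ^ i) d) := fun i => s.hJ _ (by rwa [Ou_pow])
  refine s.H.girth (fun i => s.π ((Δ.φ ^ i) d)) (fun i => Δ.lab ((Δ.φ ^ i) d)) n hn
    (fun i _ => ?_) (fun i _ => ?_) (by simp [h])
  · simpa [pow_succ'] using (hm i).2.1
  · have := hm (i + 1)
    rw [pow_succ', Perm.mul_apply] at this ⊢
    exact J_nb' s.H s.red (hm i) this

open Classical in
theorem cross {e : Δ.D} (he : ¬ Ou Δ e) :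
    3 * ∑ t : Fin 3, (if (s.Ty t (Δ.α e) ↔ s.Ty t (Δ.α (Δ.φ e))) then (0 : ℚ) else 1) ≤
      s.gn (Δ.φ e) := by
  have he' : ¬ Ou Δ (Δ.φ e) := by rwa [Ou_phi]
  have one : ∀ d, d ≠ Δ.star →
      ∑ t : Fin 3, (if s.Ty t d then (1 : ℚ) else 0) = if Ou Δ d then 1 else 0 := by
    intro d hd
    split_ifs with c
    · obtain ⟨t₀, h₀⟩ := s.Ty_ex c hd
      rw [Finset.sum_eq_single t₀ (fun t _ ht => if_neg fun h => ht (s.Ty_uniq h h₀))
        (fun h => absurd (Finset.mem_univ _) h), if_pos h₀]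
    · exact Finset.sum_eq_zero fun t _ => if_neg fun h => c (s.Ty_Ou h)
  rcases s.gcase he with c | c
  · rw [Finset.sum_eq_zero fun t _ => if_pos (c.2.2.2 t).symm, c.1]; norm_num
  · have le : ∑ t : Fin 3, (if (s.Ty t (Δ.α e) ↔ s.Ty t (Δ.α (Δ.φ e))) then (0 : ℚ) else 1) ≤
        ∑ t : Fin 3, ((if s.Ty t (Δ.α e) then (1 : ℚ) else 0) +
          (if s.Ty t (Δ.α (Δ.φ e)) then (1 : ℚ) else 0)) :=
      Finset.sum_le_sum fun t _ => by
        by_cases c1 : s.Ty t (Δ.α e) <;> by_cases c2 : s.Ty t (Δ.α (Δ.φ e)) <;> simp [c1, c2]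
    rw [Finset.sum_add_distrib, one _ (Δ.alpha_ne (nst he)), one _ (Δ.alpha_ne (nst he'))] at le
    split_ifs at le with c1 c2 c2
    · linarith [c.2.2 c1 c2]
    · linarith [c.2.1 (.inl c1)]
    · linarith [c.2.1 (.inr c2)]
    · linarith [c.1]

open Classical in
theorem faceT {d : Δ.D} (hd : ¬ Ou Δ d) (T : Finset (Fin 3))
    (h : ∀ t ∈ T, ∃ e ∈ orb Δ.φ d, ∃ e' ∈ orb Δ.φ d, s.Ty t (Δ.α e) ∧ ¬ s.Ty t (Δ.α e')) :
    6 * (T.card : ℚ) ≤ ∑ e ∈ orb Δ.φ d, s.gn e := by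
  rw [← orb_sum_apply]
  refine le_trans ?_ (Finset.sum_le_sum fun e he => s.cross (inn hd he))
  rw [← Finset.mul_sum, Finset.sum_comm]
  have h1 := Finset.sum_le_sum_of_subset_of_nonneg (Finset.subset_univ T)
    (f := fun t => ∑ e ∈ orb Δ.φ d,
      (if (s.Ty t (Δ.α e) ↔ s.Ty t (Δ.α (Δ.φ e))) then (0 : ℚ) else 1))
    fun _ _ _ => Finset.sum_nonneg fun _ _ => by split_ifs <;> norm_num
  have h2 : ∑ _t ∈ T, (2 : ℚ) ≤ ∑ t ∈ T, ∑ e ∈ orb Δ.φ d,
      (if (s.Ty t (Δ.α e) ↔ s.Ty t (Δ.α (Δ.φ e))) then (0 : ℚ) else 1) :=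
    Finset.sum_le_sum fun t ht => by
      obtain ⟨e, he, e', he', a1, a2⟩ := h t ht
      refine (orb_cross2 Δ.φ (fun e => s.Ty t (Δ.α e)) he he' a1 a2).trans (le_of_eq ?_)
      exact Finset.sum_congr rfl fun e _ => by split_ifs <;> rfl
  simp only [Finset.sum_const, nsmul_eq_mul] at h2
  linarith

theorem face2 {d e₁ e₂ : Δ.D} (hd : ¬ Ou Δ d) (m1 : e₁ ∈ orb Δ.φ d) (m2 : e₂ ∈ orb Δ.φ d)
    (t1 : s.Ty 1 (Δ.α e₁)) (t2 : s.Ty 2 (Δ.α e₂)) : 12 ≤ ∑ e ∈ orb Δ.φ d, s.gn e := by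
  have := s.faceT hd {1, 2} (by
    simp only [Finset.mem_insert, Finset.mem_singleton]
    rintro t (rfl | rfl)
    · exact ⟨_, m1, _, m2, t1, fun h => absurd (s.Ty_uniq h t2) (by decide)⟩
    · exact ⟨_, m2, _, m1, t2, fun h => absurd (s.Ty_uniq h t1) (by decide)⟩)
  rw [Finset.card_pair (by decide)] at this
  push_cast at this
  linarith

theorem face3 {d e₀ e₁ e₂ : Δ.D} (hd : ¬ Ou Δ d) (m0 : e₀ ∈ orb Δ.φ d) (m1 : e₁ ∈ orb Δ.φ d)
    (m2 : e₂ ∈ orb Δ.φ d) (t0 : s.Ty 0 (Δ.α e₀)) (t1 : s.Ty 1 (Δ.α e₁)) (t2 : s.Ty 2 (Δ.α e₂)) :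
    18 ≤ ∑ e ∈ orb Δ.φ d, s.gn e := by
  have := s.faceT hd Finset.univ (by
    intro t _
    fin_cases t
    · exact ⟨_, m0, _, m1, t0, fun h => absurd (s.Ty_uniq h t1) (by decide)⟩
    · exact ⟨_, m1, _, m2, t1, fun h => absurd (s.Ty_uniq h t2) (by decide)⟩
    · exact ⟨_, m2, _, m1, t2, fun h => absurd (s.Ty_uniq h t1) (by decide)⟩)
  rw [Finset.card_univ, Fintype.card_fin] at this
  push_cast at this
  linarith

open Classical in
theorem window {d : Δ.D} (hd : ¬ Ou Δ d) :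
    ∑ e ∈ orb Δ.φ d, (if s.Ty 1 (Δ.α e) ∨ s.Ty 2 (Δ.α e) then (0 : ℚ) else 2) ≤
      L (s.π d) * ∑ e ∈ orb Δ.φ d, s.gn e := by
  refine orb_window Δ.φ d _ s.gn _ (fun e _ => s.gn_nonneg e) fun e he => ?_
  split_ifs with c
  · exact .inl le_rfl
  right
  by_contra hc
  push Not at hc c
  have ie := inn hd he
  have m : ∀ i, ¬ Ou Δ ((Δ.φ ^ i) e) := fun i => by rwa [Ou_pow]
  rw [← s.L_orb hd he] at hc
  have m2 : ∀ i < L (s.π e), Δ.φ (Δ.α ((Δ.φ ^ (i + 1)) e)) = Δ.α ((Δ.φ ^ i) e) := by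
    intro i hi
    have := hc i hi
    rw [pow_succ', Perm.mul_apply] at this ⊢
    rcases s.gcase (m i) with b | b
    · exact b.2.1
    · exact absurd b.1 (not_le.2 this)
  by_cases o : Ou Δ (Δ.α e)
  · obtain ⟨t, ht⟩ := s.Ty_ex o (Δ.alpha_ne (nst ie))
    obtain ⟨j, hj, e1, e2⟩ := id ht
    have jA : j < s.nA := by
      by_contra hn
      rw [if_neg hn] at e2
      split_ifs at e2 <;> subst e2
      exacts [c.1 ht, c.2 ht]
    refine s.run e j ie jA fun i => ?_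
    induction i with
    | zero => exact fun _ => ⟨Nat.zero_le _, e1⟩
    | succ i ih =>
      intro hi
      obtain ⟨a1, a2⟩ := ih (by omega)
      have a3 := m2 i (by omega)
      rw [a2] at a3
      have a4 : i + 1 ≤ j := by
        by_contra hn
        rw [show j - i = 0 by omega, show bd Δ 0 = Δ.φ Δ.star by simp [bd]] at a3
        exact Δ.alpha_ne (nst (m _)) (Δ.φ.injective a3)
      refine ⟨a4, Δ.φ.injective ?_⟩
      rw [a3, ← bd_succ]; congr 1; omega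
  · have m3 : ∀ i < L (s.π e), ¬ Ou Δ (Δ.α ((Δ.φ ^ i) e)) := by
      intro i
      induction i with
      | zero => exact fun _ => o
      | succ i ih =>
        intro hi
        rw [← Ou_phi, m2 i (by omega)]
        exact ih (by omega)
    exact J_run' s.H s.red (d := e) (fun i _ => s.hJ _ (m i)) (fun i hi => s.hJ _ (m3 i hi))
      fun i hi => m2 i (by omega)

open Classical in
theorem height {d : Δ.D} (hd : ¬ Ou Δ d) :
    (0 : ℚ) ≤ ∑ e ∈ orb Δ.φ d, (if s.Ty 2 (Δ.α e) then (-1 : ℚ) else 1) ∧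
      (0 : ℚ) ≤ ∑ e ∈ orb Δ.φ d, (if s.Ty 1 (Δ.α e) then (-1 : ℚ) else 1) := by
  have z : ∑ e ∈ orb Δ.φ d, ((s.u (Δ.el (Δ.φ e)) : ℚ) - s.u (Δ.el e)) = 0 := by
    rw [Finset.sum_sub_distrib, orb_sum_apply Δ.φ d (fun e => (s.u (Δ.el e) : ℚ)), sub_self]
  have k : ∀ e j, Δ.α e = bd Δ j → Δ.el (Δ.φ e) = Δ.el (bd Δ j) ∧ Δ.el e = Δ.el (bd Δ (j + 1)) :=
    fun e j h => ⟨by rw [Δ.hel, h], by rw [bd_succ, Δ.hel, ← h, Δ.invol]⟩
  constructor
  · rw [← z]
    refine Finset.sum_le_sum fun e he => ?_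
    split_ifs with c
    · obtain ⟨j, hj, e1, e2⟩ := c
      have : s.nA + s.nB ≤ j := by
        split_ifs at e2 with c1 c2
        exacts [absurd e2 (by decide), absurd e2 (by decide), by omega]
      rw [(k e j e1).1, (k e j e1).2, s.uC j this hj]
      push_cast; linarith
    · rw [Δ.hel2 e (s.red.nodum e (nst (inn hd he)))]
      have : (s.u (Δ.el e * γ (Δ.lab e)) : ℚ) ≤ s.u (Δ.el e) + 1 := by exact_mod_cast s.u1 _ _
      linarith
  · rw [← neg_zero, ← z, ← Finset.sum_neg_distrib]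
    refine Finset.sum_le_sum fun e he => ?_
    split_ifs with c
    · obtain ⟨j, hj, e1, e2⟩ := c
      have : s.nA ≤ j ∧ j < s.nA + s.nB := by
        split_ifs at e2 with c1 c2
        exacts [absurd e2 (by decide), by omega, absurd e2 (by decide)]
      rw [(k e j e1).1, (k e j e1).2, ← s.uB j this.1 this.2]
      push_cast; linarith
    · have a := s.u1 (Δ.el (Δ.φ e)) (linv (Δ.lab e))
      rw [s.hγ, Δ.hel2 e (s.red.nodum e (nst (inn hd he))), mul_inv_cancel_right,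
        ← Δ.hel2 e (s.red.nodum e (nst (inn hd he)))] at a
      have : (s.u (Δ.el e) : ℚ) ≤ s.u (Δ.el (Δ.φ e)) + 1 := by exact_mod_cast a
      linarith

theorem face1 {d : Δ.D} (hd : ¬ Ou Δ d)
    (h : (∀ e ∈ orb Δ.φ d, ¬ s.Ty 1 (Δ.α e)) ∨ ∀ e ∈ orb Δ.φ d, ¬ s.Ty 2 (Δ.α e)) :
    30 ≤ ∑ e ∈ orb Δ.φ d, s.gn e := by
  classical
  have w := s.window hd
  have c : (30 : ℚ) * L (s.π d) ≤ (orb Δ.φ d).card := by exact_mod_cast s.card_ge hd
  have two : (2 : ℚ) ≤ L (s.π d) := by exact_mod_cast s.H.two (s.π d)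
  have k : ((orb Δ.φ d).card : ℚ) ≤
      ∑ e ∈ orb Δ.φ d, (if s.Ty 1 (Δ.α e) ∨ s.Ty 2 (Δ.α e) then (0 : ℚ) else 2) := by
    rcases h with h | h
    · have := (s.height hd).1
      rw [Finset.sum_congr rfl (g := fun e =>
        (if s.Ty 1 (Δ.α e) ∨ s.Ty 2 (Δ.α e) then (0 : ℚ) else 2) - 1) (fun e he => by
          by_cases c2 : s.Ty 2 (Δ.α e) <;> simp [h e he, c2]; norm_num),
        Finset.sum_sub_distrib] at this
      simpa using this
    · have := (s.height hd).2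
      rw [Finset.sum_congr rfl (g := fun e =>
        (if s.Ty 1 (Δ.α e) ∨ s.Ty 2 (Δ.α e) then (0 : ℚ) else 2) - 1) (fun e he => by
          by_cases c2 : s.Ty 1 (Δ.α e) <;> simp [h e he, c2]; norm_num),
        Finset.sum_sub_distrib] at this
      simpa using this
  by_contra hc
  push Not at hc
  nlinarith

open Classical in
theorem counts {d : Δ.D} (hd : ¬ Ou Δ d) (h : ∑ e ∈ orb Δ.φ d, s.gn e ≤ 18) :
    2 * L (s.π d) ≤ ((orb Δ.φ d).filter fun e => s.Ty 1 (Δ.α e)).card ∧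
      2 * L (s.π d) ≤ ((orb Δ.φ d).filter fun e => s.Ty 2 (Δ.α e)).card := by
  have w := s.window hd
  have c : (30 : ℚ) * L (s.π d) ≤ (orb Δ.φ d).card := by exact_mod_cast s.card_ge hd
  have two : (2 : ℚ) ≤ L (s.π d) := by exact_mod_cast s.H.two (s.π d)
  have w' : ∑ e ∈ orb Δ.φ d, (if s.Ty 1 (Δ.α e) ∨ s.Ty 2 (Δ.α e) then (0 : ℚ) else 2) ≤
      18 * L (s.π d) := by nlinarith
  obtain ⟨h1, h2⟩ := s.height hd
  constructor
  · have k : ∑ e ∈ orb Δ.φ d, (if s.Ty 2 (Δ.α e) then (-1 : ℚ) else 1) ≤ ∑ e ∈ orb Δ.φ d,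
        ((if s.Ty 1 (Δ.α e) ∨ s.Ty 2 (Δ.α e) then (0 : ℚ) else 2) - 1 +
          2 * (if s.Ty 1 (Δ.α e) then 1 else 0)) :=
      Finset.sum_le_sum fun e _ => by
        by_cases c1 : s.Ty 1 (Δ.α e) <;> by_cases c2 : s.Ty 2 (Δ.α e) <;> simp [c1, c2] <;> norm_num
    rw [Finset.sum_add_distrib, Finset.sum_sub_distrib, ← Finset.mul_sum, Finset.sum_boole] at k
    simp only [Finset.sum_const, nsmul_eq_mul, mul_one] at k
    have : (2 : ℚ) * L (s.π d) ≤ ((orb Δ.φ d).filter fun e => s.Ty 1 (Δ.α e)).card := by linarith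
    exact_mod_cast this
  · have k : ∑ e ∈ orb Δ.φ d, (if s.Ty 1 (Δ.α e) then (-1 : ℚ) else 1) ≤ ∑ e ∈ orb Δ.φ d,
        ((if s.Ty 1 (Δ.α e) ∨ s.Ty 2 (Δ.α e) then (0 : ℚ) else 2) - 1 +
          2 * (if s.Ty 2 (Δ.α e) then 1 else 0)) :=
      Finset.sum_le_sum fun e _ => by
        by_cases c1 : s.Ty 1 (Δ.α e) <;> by_cases c2 : s.Ty 2 (Δ.α e) <;> simp [c1, c2] <;> norm_num
    rw [Finset.sum_add_distrib, Finset.sum_sub_distrib, ← Finset.mul_sum, Finset.sum_boole] at k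
    simp only [Finset.sum_const, nsmul_eq_mul, mul_one] at k
    have : (2 : ℚ) * L (s.π d) ≤ ((orb Δ.φ d).filter fun e => s.Ty 2 (Δ.α e)).card := by linarith
    exact_mod_cast this

end Su

end Vale.Agent.P089
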