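import Vale.Agent.P089.Tri2

/-!
The top face. PLAN. `s₁ = bd nA`, `s₂ = bd (nA + nB)`, `b₀ = bd 0 = σ star`, `R = {star, s₁, s₂}`, `N = insert b₀ R`
(`b₀ ∉ R`). All inner faces have turning `≥ 12` (`face1`, `face2`), so `budget` applies with `ex` supported on chosen darts.
(0) two different elements of `R` are in different `σ`-orbits (otherwise drop one from `R`: negative budget).
(1) budget `≤ 6 #R - 12 ≤ 6`: every inner face has turning `≤ 18`, so touches types 1 and 2.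
(2) extra darts: if `α b₀` is outer, `x₁ = σ b₀` is an outer dart at the vertex of `star`, `≠ b₀`, and `= star` only if
`α b₀ = bd (n-1)`; if `x₂ = α (bd (nA-1))` is outer, it is at the vertex of `s₁` (`σ x₂ = s₁`), `≠ star`.
If `nB = 0` or `nC = 0` there is no inner dart and the budget with `x₁` (if `nC > 0`) or `x₂` (if `nB > 0`) or nothing (both zero) is negative.
(3) `nB, nC > 0`: both outer: budget `-6`; one outer: budget `0` but the other lies in a face of turning `≥ 18` (`face3`);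
both inner: same face (else excess `12`), and no further outer dart at a special vertex.
-/

namespace Vale.Agent.P089

open Vale.Agent.P194 Equiv

variable {S V W G : Type} [Group G] {Step : V → S × Bool → V → Prop} {L : V → ℕ}
  {St : W → S × Bool → W → Prop} {γ : S × Bool → G} {x y : W} {Δ : Dg St γ x y}

namespace Su

variable (s : Su Step L Δ)

theorem face12 {d : Δ.D} (hd : ¬ Ou Δ d) : 12 ≤ ∑ e ∈ orb Δ.φ d, s.gn e := by
  by_cases c : (∀ e ∈ orb Δ.φ d, ¬ s.Ty 1 (Δ.α e)) ∨ ∀ e ∈ orb Δ.φ d, ¬ s.Ty 2 (Δ.α e)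
  · linarith [s.face1 hd c]
  · push Not at c
    obtain ⟨⟨e₁, m1, t1⟩, e₂, m2, t2⟩ := c
    exact s.face2 hd m1 m2 t1 t2

theorem ex_one {d₀ : Δ.D} {c : ℚ} (h : 12 + c ≤ ∑ e ∈ orb Δ.φ d₀, s.gn e) (d : Δ.D)
    (hd : ¬ Ou Δ d) :
    12 + ∑ e ∈ orb Δ.φ d, (if e = d₀ then c else 0) ≤ ∑ e ∈ orb Δ.φ d, s.gn e := by
  rw [Finset.sum_ite_eq']
  split_ifs with m
  · rwa [orb_eq _ m] at h
  · linarith [s.face12 hd]

theorem top : 0 < s.nB ∧ 0 < s.nC ∧ ¬ Ou Δ (Δ.α (bd Δ (s.nA - 1))) ∧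
    Δ.α (bd Δ 0) ∈ orb Δ.φ (Δ.α (bd Δ (s.nA - 1))) ∧
    ∑ e ∈ orb Δ.φ (Δ.α (bd Δ (s.nA - 1))), s.gn e ≤ 18 ∧
    bd Δ s.nA ∉ orb Δ.σ Δ.star ∧
    (∀ d, Ou Δ d → d ∈ orb Δ.σ Δ.star → d = Δ.star ∨ d = bd Δ 0) ∧
    (∀ d, Ou Δ d → d ∈ orb Δ.σ (bd Δ s.nA) → d = bd Δ s.nA) := by
  classical
  have hA := s.hA
  have sym : ∀ a b, a ∈ orb Δ.σ b → b ∈ orb Δ.σ a := fun a b h => by
    rw [orb_eq _ h]; exact self_mem_orb _ _
  have tra : ∀ a b c, a ∈ orb Δ.σ b → b ∈ orb Δ.σ c → a ∈ orb Δ.σ c := fun a b c h h' => by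
    rwa [← orb_eq _ h']
  obtain ⟨R, hRd⟩ : ∃ R : Finset Δ.D, R = {Δ.star, bd Δ s.nA, bd Δ (s.nA + s.nB)} := ⟨_, rfl⟩
  have mR : ∀ d, d ∈ R ↔ d = Δ.star ∨ d = bd Δ s.nA ∨ d = bd Δ (s.nA + s.nB) := fun d => by
    simp [hRd]
  have r0 : Δ.star ∈ R := (mR _).2 (.inl rfl)
  have r1 : bd Δ s.nA ∈ R := (mR _).2 (.inr (.inl rfl))
  have r2 : bd Δ (s.nA + s.nB) ∈ R := (mR _).2 (.inr (.inr rfl))
  have R3 : R.card ≤ 3 := by rw [hRd]; exact Finset.card_le_three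
  have b0 : bd Δ 0 = Δ.φ Δ.star := by simp [bd]
  have b0s : bd Δ 0 = Δ.σ Δ.star := by rw [b0, Δ.σ_apply, Δ.hstar]
  have b0o : bd Δ 0 ∈ orb Δ.σ Δ.star := by
    rw [b0s, apply_mem_orb]; exact self_mem_orb _ _
  have b0R : bd Δ 0 ∉ R := by
    rw [mR]
    rintro (h | h | h)
    · exact s.hne 0 (by omega) h
    · have := s.bd_inj (by omega) (by omega) h; omega
    · have := s.bd_inj (by omega) (by omega) h; omega
  have hR : ∀ d, s.SpV d → ∃ r ∈ R, r ∈ orb Δ.σ d := by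
    rintro d (h | h | h)
    exacts [⟨_, r0, sym _ _ h⟩, ⟨_, r1, sym _ _ h⟩, ⟨_, r2, sym _ _ h⟩]
  have hN : ∀ d ∈ insert (bd Δ 0) R, Ou Δ d ∧ s.SpV d := by
    intro d hd
    rcases Finset.mem_insert.1 hd with rfl | hd
    · exact ⟨Ou_bd _, .inl b0o⟩
    · rcases (mR _).1 hd with rfl | rfl | rfl
      exacts [⟨Ou_star, .inl (self_mem_orb _ _)⟩, ⟨Ou_bd _, .inr (.inl (self_mem_orb _ _))⟩,
        ⟨Ou_bd _, .inr (.inr (self_mem_orb _ _))⟩]
  have z12 : ∀ d, ¬ Ou Δ d → 12 + ∑ _e ∈ orb Δ.φ d, (0 : ℚ) ≤ ∑ e ∈ orb Δ.φ d, s.gn e :=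
    fun d hd => by simpa using s.face12 hd
  have dis : ∀ a ∈ R, ∀ b ∈ R, a ≠ b → a ∉ orb Δ.σ b := by
    intro a ha b hb ne h
    have := s.budget (R.erase a) (insert (bd Δ 0) R)
      ((Finset.erase_subset _ _).trans (Finset.subset_insert _ _)) hN (fun d hd => by
        obtain ⟨r, hr, m⟩ := hR d hd
        by_cases c : r = a
        · exact ⟨b, Finset.mem_erase.2 ⟨ne.symm, hb⟩, tra _ _ _ (sym _ _ h) (c ▸ m)⟩
        · exact ⟨r, Finset.mem_erase.2 ⟨c, hr⟩, m⟩) (fun _ => 0) (fun _ _ => rfl) z12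
    have e1 := Finset.card_erase_add_one ha
    rw [Finset.card_insert_of_notMem b0R, ← e1] at this
    have : ((R.erase a).card : ℚ) ≤ 2 := by exact_mod_cast (by omega : (R.erase a).card ≤ 2)
    simp only [Finset.sum_const_zero] at *
    push_cast at *
    linarith
  have B : ∀ X : Finset Δ.D, (∀ d ∈ X, Ou Δ d ∧ s.SpV d ∧ d ≠ bd Δ 0 ∧ d ∉ R) →
      ∀ ex : Δ.D → ℚ, (∀ d, Ou Δ d → ex d = 0) →
      (∀ d, ¬ Ou Δ d → 12 + ∑ e ∈ orb Δ.φ d, ex e ≤ ∑ e ∈ orb Δ.φ d, s.gn e) →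
      ∑ d, ex d ≤ 6 * R.card - 12 - 6 * X.card := by
    intro X hX ex h0 h1
    have := s.budget R (X ∪ insert (bd Δ 0) R)
      ((Finset.subset_insert _ _).trans Finset.subset_union_right) (fun d hd => by
        rcases Finset.mem_union.1 hd with h | h
        exacts [⟨(hX d h).1, (hX d h).2.1⟩, hN d h]) hR ex h0 h1
    rw [Finset.card_union_of_disjoint (Finset.disjoint_left.2 fun d h h' => by
      rcases Finset.mem_insert.1 h' with h' | h'
      exacts [(hX d h).2.2.1 h', (hX d h).2.2.2 h']), Finset.card_insert_of_notMem b0R] at this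
    push_cast at this
    linarith
  have B0 : ∀ X : Finset Δ.D, (∀ d ∈ X, Ou Δ d ∧ s.SpV d ∧ d ≠ bd Δ 0 ∧ d ∉ R) →
      X.card + 2 ≤ R.card := by
    intro X hX
    have := B X hX (fun _ => 0) (fun _ _ => rfl) z12
    rw [Finset.sum_const_zero] at this
    have : (X.card : ℚ) + 2 ≤ R.card := by linarith
    exact_mod_cast this
  have B1 : ∀ X : Finset Δ.D, (∀ d ∈ X, Ou Δ d ∧ s.SpV d ∧ d ≠ bd Δ 0 ∧ d ∉ R) →
      ∀ d₀, ¬ Ou Δ d₀ → ∑ e ∈ orb Δ.φ d₀, s.gn e ≤ 18 - 6 * X.card := by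
    intro X hX d₀ h₀
    have := B X hX (fun e => if e = d₀ then ∑ e ∈ orb Δ.φ d₀, s.gn e - 12 else 0)
      (fun d hd => if_neg (by rintro rfl; exact h₀ hd)) (s.ex_one (by linarith))
    rw [Finset.sum_ite_eq', if_pos (Finset.mem_univ _)] at this
    have : (R.card : ℚ) ≤ 3 := by exact_mod_cast R3
    linarith
  have le18 : ∀ d₀, ¬ Ou Δ d₀ → ∑ e ∈ orb Δ.φ d₀, s.gn e ≤ 18 := fun d₀ h₀ => by
    simpa using B1 ∅ (by simp) d₀ h₀
  have touch : ∀ d, ¬ Ou Δ d →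
      (∃ e ∈ orb Δ.φ d, s.Ty 1 (Δ.α e)) ∧ ∃ e ∈ orb Δ.φ d, s.Ty 2 (Δ.α e) := by
    intro d hd
    by_contra hc
    have := s.face1 hd (by
      by_contra h
      push Not at h
      exact hc h)
    linarith [le18 d hd]
  have ge18 : ∀ d, ¬ Ou Δ d → s.Ty 0 (Δ.α d) → 18 ≤ ∑ e ∈ orb Δ.φ d, s.gn e := by
    intro d hd t0
    obtain ⟨⟨e₁, m1, t1⟩, e₂, m2, t2⟩ := touch d hd
    exact s.face3 hd (self_mem_orb _ _) m1 m2 t0 t1 t2
  have allO : s.nB = 0 ∨ s.nC = 0 → ∀ d, Ou Δ d := by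
    intro h d
    by_contra hd
    obtain ⟨⟨e₁, -, j, hj, -, t1⟩, e₂, -, j', hj', -, t2⟩ := touch d hd
    split_ifs at t1 with c1 c2
    · exact absurd t1 (by decide)
    · split_ifs at t2 with c3 c4
      · exact absurd t2 (by decide)
      · exact absurd t2 (by decide)
      · omega
    · exact absurd t1 (by decide)
  have x1o : Δ.σ (bd Δ 0) ∈ orb Δ.σ Δ.star := (apply_mem_orb _).2 b0o
  have gen1 : ∀ d, Ou Δ d → d ∈ orb Δ.σ Δ.star → d ≠ Δ.star → d ≠ bd Δ 0 →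
      Ou Δ d ∧ s.SpV d ∧ d ≠ bd Δ 0 ∧ d ∉ R := fun d h1 h2 h3 h4 =>
    ⟨h1, .inl h2, h4, fun h => dis _ h _ r0 h3 h2⟩
  have X1 : 0 < s.nC → Ou Δ (Δ.α (bd Δ 0)) → Ou Δ (Δ.σ (bd Δ 0)) ∧ s.SpV (Δ.σ (bd Δ 0)) ∧
      Δ.σ (bd Δ 0) ≠ bd Δ 0 ∧ Δ.σ (bd Δ 0) ∉ R := by
    intro hC h
    refine gen1 _ ((Ou_phi _).2 h) x1o (fun hc => s.exC hC (Δ.φ.injective ?_)) fun hc => ?_
    · rw [← bd_succ, Nat.sub_add_cancel (by omega), s.hn, ← hc]; rfl
    · rw [b0s] at hc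
      have := Δ.σ.injective hc
      rw [← b0s] at this
      exact s.hne 0 (by omega) this
  have σe : Δ.σ (Δ.α (bd Δ (s.nA - 1))) = bd Δ s.nA := by
    rw [Δ.σ_apply, Δ.invol, ← bd_succ, Nat.sub_add_cancel hA]
  have eo : Δ.α (bd Δ (s.nA - 1)) ∈ orb Δ.σ (bd Δ s.nA) := by
    rw [← apply_mem_orb, σe]; exact self_mem_orb _ _
  have s1s : 0 < s.nB → bd Δ s.nA ∉ orb Δ.σ Δ.star := fun hB =>
    dis _ r1 _ r0 (s.hne _ (by omega))
  have gen2 : 0 < s.nB → ∀ d, Ou Δ d → d ∈ orb Δ.σ (bd Δ s.nA) → d ≠ bd Δ s.nA →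
      Ou Δ d ∧ s.SpV d ∧ d ≠ bd Δ 0 ∧ d ∉ R := fun hB d h1 h2 h3 =>
    ⟨h1, .inr (.inl h2), fun hc => s1s hB (tra _ _ _ (sym _ _ h2) (hc ▸ b0o)),
      fun h => dis _ h _ r1 h3 h2⟩
  have X2 := fun (hB : 0 < s.nB) h => gen2 hB _ h eo (s.exB hB)
  have hBC : 0 < s.nB ∧ 0 < s.nC := by
    by_contra hc
    have h0 : s.nB = 0 ∨ s.nC = 0 := by omega
    have hn := s.hn
    by_cases cB : s.nB = 0
    · by_cases cC : s.nC = 0
      · have := B0 ∅ (by simp)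
        rw [cB, cC] at hn
        have hn' : bd Δ s.nA = Δ.star := hn
        have e2 : bd Δ (s.nA + s.nB) = Δ.star := by rw [cB]; exact hn
        rw [hRd, e2, hn'] at this
        simp at this
      · have := B0 {Δ.σ (bd Δ 0)} (by
          simpa using X1 (by omega) (allO h0 _))
        have h2 : R.card ≤ 2 := by
          rw [hRd, cB, Nat.add_zero, Finset.pair_eq_singleton]; exact Finset.card_le_two
        rw [Finset.card_singleton] at this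
        omega
    · have cC : s.nC = 0 := by omega
      have := B0 {Δ.α (bd Δ (s.nA - 1))} (by
        simpa using X2 (by omega) (allO h0 _))
      have h2 : R.card ≤ 2 := by
        rw [cC] at hn
        rw [hRd, show bd Δ (s.nA + s.nB) = Δ.star from hn, Finset.pair_comm, Finset.insert_idem]
        exact Finset.card_le_two
      rw [Finset.card_singleton] at this
      omega
  obtain ⟨hB, hC⟩ := hBC
  have t0 : s.Ty 0 (Δ.α (Δ.α (bd Δ (s.nA - 1)))) :=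
    ⟨s.nA - 1, by omega, Δ.invol _, by rw [if_pos (by omega)]⟩
  have t1 : s.Ty 0 (Δ.α (Δ.α (bd Δ 0))) := ⟨0, by omega, Δ.invol _, by rw [if_pos hA]⟩
  have noX : ∀ d₀, ¬ Ou Δ d₀ → s.Ty 0 (Δ.α d₀) → ∀ d,
      ¬ (Ou Δ d ∧ s.SpV d ∧ d ≠ bd Δ 0 ∧ d ∉ R) := by
    intro d₀ h₀ t d hd
    have := B1 {d} (by simpa using hd) d₀ h₀
    rw [Finset.card_singleton] at this
    push_cast at this
    linarith [ge18 d₀ h₀ t]
  have i2 : ¬ Ou Δ (Δ.α (bd Δ (s.nA - 1))) := by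
    intro h2
    by_cases h1 : Ou Δ (Δ.α (bd Δ 0))
    · have := B0 {Δ.σ (bd Δ 0), Δ.α (bd Δ (s.nA - 1))} (by
        intro d hd
        rcases Finset.mem_insert.1 hd with rfl | hd
        · exact X1 hC h1
        · rw [Finset.mem_singleton.1 hd]; exact X2 hB h2)
      have ne : Δ.σ (bd Δ 0) ≠ Δ.α (bd Δ (s.nA - 1)) := fun hc =>
        s1s hB (tra _ _ _ (sym _ _ eo) (by rw [← hc]; exact x1o))
      rw [Finset.card_pair ne] at this
      omega
    · exact noX _ h1 t1 _ (X2 hB h2)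
  have i1 : ¬ Ou Δ (Δ.α (bd Δ 0)) := fun h1 => noX _ i2 t0 _ (X1 hC h1)
  refine ⟨hB, hC, i2, ?_, le18 _ i2, s1s hB, fun d h1 h2 => ?_, fun d h1 h2 => ?_⟩
  · by_contra hc
    have := B ∅ (by simp) (fun e => (if e = Δ.α (bd Δ 0) then 6 else 0) +
        (if e = Δ.α (bd Δ (s.nA - 1)) then 6 else 0))
      (fun d hd => by
        rw [if_neg (by rintro rfl; exact i1 hd), if_neg (by rintro rfl; exact i2 hd), add_zero])
      (fun d hd => by
        rw [Finset.sum_add_distrib, Finset.sum_ite_eq', Finset.sum_ite_eq']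
        have a1 := ge18 _ i1 t1
        have a2 := ge18 _ i2 t0
        split_ifs with m1 m2 m2
        · exact absurd (by rwa [orb_eq _ m2]) hc
        · rw [orb_eq _ m1] at a1; linarith
        · rw [orb_eq _ m2] at a2; linarith
        · linarith [s.face12 hd])
    simp only [Finset.sum_add_distrib, Finset.sum_ite_eq', Finset.mem_univ, if_true,
      Finset.card_empty] at this
    have : (R.card : ℚ) ≤ 3 := by exact_mod_cast R3
    push_cast at *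
    linarith
  · by_contra hc
    push Not at hc
    exact noX _ i2 t0 _ (gen1 d h1 h2 hc.1 hc.2)
  · by_contra hc
    exact noX _ i2 t0 _ (gen2 hB d h1 h2 hc)

end Su

end Vale.Agent.P089
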