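import Vale.Agent.P089.Tri3

/-! The shape of the top face. -/

namespace Vale.Agent.P089

open Vale.Agent.P194 Equiv

theorem orb_param {D : Type} [Fintype D] [DecidableEq D] (π : Perm D) (d : D) :
    ∃ N, 0 < N ∧ (π ^ N) d = d ∧ Set.InjOn (fun i => (π ^ i) d) (Finset.range N) ∧
      orb π d = (Finset.range N).image fun i => (π ^ i) d := by
  have hp : d ∈ Function.periodicPts π := π.injective.mem_periodicPts d
  have h0 := Function.minimalPeriod_pos_of_mem_periodicPts hp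
  refine ⟨Function.minimalPeriod π d, h0, ?_, ?_, ?_⟩
  · have := Function.iterate_minimalPeriod (f := π) (x := d)
    rwa [← Perm.coe_pow] at this
  · rw [Finset.coe_range]
    simp only [Perm.coe_pow]
    exact Function.iterate_injOn_Iio_minimalPeriod
  · ext e
    simp only [Finset.mem_image, Finset.mem_range]
    constructor
    · intro he
      obtain ⟨n, rfl⟩ := ((mem_orb π).1 he).exists_nat_pow_eq
      refine ⟨n % Function.minimalPeriod π d, Nat.mod_lt _ h0, ?_⟩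
      simp only [Perm.coe_pow]
      exact Function.iterate_mod_minimalPeriod_eq
    · rintro ⟨i, -, rfl⟩
      exact (pow_mem_orb π i).2 (self_mem_orb π d)

open Classical in
theorem change_le (Z : ℕ → Prop) (a b : ℕ) (hab : a ≤ b) (h : ¬ (Z a ↔ Z b)) :
    (1 : ℚ) ≤ ∑ k ∈ Finset.range b, (if (Z k ↔ Z (k + 1)) then (0 : ℚ) else 1) -
      ∑ k ∈ Finset.range a, (if (Z k ↔ Z (k + 1)) then (0 : ℚ) else 1) := by
  have mono : ∀ b, a ≤ b → ∑ k ∈ Finset.range a, (if (Z k ↔ Z (k + 1)) then (0 : ℚ) else 1) ≤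
      ∑ k ∈ Finset.range b, (if (Z k ↔ Z (k + 1)) then (0 : ℚ) else 1) := fun b hb =>
    Finset.sum_le_sum_of_subset_of_nonneg (Finset.range_mono hb) fun _ _ _ => by
      split_ifs <;> norm_num
  induction b, hab using Nat.le_induction with
  | base => exact absurd Iff.rfl h
  | succ b hb ih =>
    rw [Finset.sum_range_succ]
    by_cases c : Z b ↔ Z (b + 1)
    · have := ih fun hc => h (hc.trans c)
      rw [if_pos c]; linarith
    · have := mono b hb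
      rw [if_neg c]; linarith

variable {S V W G : Type} [Group G] {Step : V → S × Bool → V → Prop} {L : V → ℕ}
  {St : W → S × Bool → W → Prop} {γ : S × Bool → G} {x y : W} {Δ : Dg St γ x y}

namespace Su

variable (s : Su Step L Δ)

theorem Ty_bd {t : Fin 3} {j : ℕ} (hj : j ≤ s.nA + s.nB + s.nC) (h : s.Ty t (bd Δ j)) :
    j < s.nA + s.nB + s.nC ∧ t = if j < s.nA then 0 else if j < s.nA + s.nB then 1 else 2 := by
  obtain ⟨i, hi, e, ht⟩ := h
  obtain rfl := s.bd_inj hj hi.le e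
  exact ⟨hi, ht⟩

theorem tri : ∃ e, ¬ Ou Δ e ∧ (∀ i < s.nA, (Δ.φ ^ i) e = Δ.α (bd Δ (s.nA - 1 - i))) ∧
    2 * L (s.π e) ≤ s.nB ∧ 2 * L (s.π e) ≤ s.nC ∧
    (∀ i < 2 * L (s.π e), (Δ.φ ^ (s.nA + i)) e = Δ.α (bd Δ (s.nA + s.nB + s.nC - 1 - i))) ∧
    ∀ i < 2 * L (s.π e), (Δ.φ ^ (i + 1)) (Δ.α (bd Δ (s.nA + i))) = e := by
  classical
  obtain ⟨hB, hC, hin, hm, h18, hv, hx1, hx2⟩ := s.top
  have hA := s.hA
  obtain ⟨e, he⟩ : ∃ e, e = Δ.α (bd Δ (s.nA - 1)) := ⟨_, rfl⟩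
  rw [← he] at hin hm h18
  obtain ⟨cB, cC⟩ := s.counts hin h18
  have hL := s.H.two (s.π e)
  obtain ⟨N, N0, hN, inj, ho⟩ := orb_param Δ.φ e
  have inn : ∀ i, ¬ Ou Δ ((Δ.φ ^ i) e) := fun i => by rwa [Ou_pow]
  have ps : ∀ i, (Δ.φ ^ (i + 1)) e = Δ.φ ((Δ.φ ^ i) e) := fun i => by
    rw [pow_succ', Perm.mul_apply]
  have nst : ∀ i, Δ.α ((Δ.φ ^ i) e) ≠ Δ.star := fun i hc => by
    have := inn i
    rw [← Δ.invol ((Δ.φ ^ i) e), hc, Δ.hstar] at this
    exact this Ou_star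
  have b0 : bd Δ 0 = Δ.φ Δ.star := by simp [bd]
  have σe : Δ.σ e = bd Δ s.nA := by
    rw [Δ.σ_apply, he, Δ.invol, ← bd_succ, Nat.sub_add_cancel hA]
  have eo : e ∈ orb Δ.σ (bd Δ s.nA) := by
    rw [← apply_mem_orb, σe]; exact self_mem_orb _ _
  have b0o : bd Δ 0 ∈ orb Δ.σ Δ.star := by
    rw [b0, ← Δ.hstar, ← Δ.σ_apply, Δ.hstar, apply_mem_orb]; exact self_mem_orb _ _
  rw [ho] at hm
  obtain ⟨i₁, hi₁, e₁⟩ := Finset.mem_image.1 hm
  rw [Finset.mem_range] at hi₁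
  have v0 : (Δ.φ ^ (i₁ + 1)) e ∈ orb Δ.σ Δ.star := by
    rw [ps, e₁, ← Δ.σ_apply, apply_mem_orb]; exact b0o
  have lt : i₁ + 1 < N := by
    by_contra hc
    obtain rfl : N = i₁ + 1 := by omega
    rw [hN, ← apply_mem_orb, σe] at v0
    exact hv v0
  obtain ⟨F, hF⟩ : ∃ F : ℕ → ℚ, ∀ k, F k = ∑ i ∈ Finset.range k, s.gn ((Δ.φ ^ (i + 1)) e) :=
    ⟨_, fun _ => rfl⟩
  have Fs : ∀ k, F (k + 1) = F k + s.gn ((Δ.φ ^ (k + 1)) e) := fun k => by
    rw [hF, hF, Finset.sum_range_succ]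
  have F0 : F 0 = 0 := by simp [hF]
  have Fm : ∀ a b, a ≤ b → F a ≤ F b := fun a b h =>
    monotone_nat_of_le_succ (fun k => by rw [Fs]; linarith [s.gn_nonneg ((Δ.φ ^ (k + 1)) e)]) h
  have F12 : F (N - 1) ≤ 12 := by
    rw [ho, Finset.sum_image inj] at h18
    obtain ⟨M, rfl⟩ : ∃ M, N = M + 1 := ⟨N - 1, by omega⟩
    rw [Finset.sum_range_succ', ← hF] at h18
    have := s.gn_sp hin (.inr (.inl eo))
    simp only [pow_zero, Perm.one_apply, this] at h18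
    rw [Nat.add_sub_cancel]; linarith
  have F6 : F (i₁ + 1) = F i₁ + 6 := by rw [Fs, s.gn_sp (inn _) (.inl v0)]
  have tr : ∀ a b t t', a ≤ b → s.Ty t (Δ.α ((Δ.φ ^ a) e)) → s.Ty t' (Δ.α ((Δ.φ ^ b) e)) →
      t ≠ t' → F a + 6 ≤ F b := by
    intro a b t t' hab h1 h2 ne
    have c1 := change_le (fun k => s.Ty t (Δ.α ((Δ.φ ^ k) e))) a b hab
      (fun hc => ne (s.Ty_uniq (hc.1 h1) h2))
    have c2 := change_le (fun k => s.Ty t' (Δ.α ((Δ.φ ^ k) e))) a b hab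
      (fun hc => ne (s.Ty_uniq h1 (hc.2 h2)))
    obtain ⟨m, rfl⟩ := Nat.exists_eq_add_of_le hab
    rw [Finset.sum_range_add, add_sub_cancel_left] at c1 c2
    rw [hF, hF, Finset.sum_range_add]
    have : ∀ k, 3 * ((if (s.Ty t (Δ.α ((Δ.φ ^ k) e)) ↔ s.Ty t (Δ.α ((Δ.φ ^ (k + 1)) e))) then
        (0 : ℚ) else 1) + (if (s.Ty t' (Δ.α ((Δ.φ ^ k) e)) ↔
          s.Ty t' (Δ.α ((Δ.φ ^ (k + 1)) e))) then (0 : ℚ) else 1)) ≤
        s.gn ((Δ.φ ^ (k + 1)) e) := by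
      intro k
      rw [ps]
      refine le_trans ?_ (s.cross (inn k))
      refine mul_le_mul_of_nonneg_left ?_ (by norm_num)
      rw [← Finset.sum_pair (f := fun t => if (s.Ty t (Δ.α ((Δ.φ ^ k) e)) ↔
        s.Ty t (Δ.α (Δ.φ ((Δ.φ ^ k) e)))) then (0 : ℚ) else 1) ne]
      exact Finset.sum_le_sum_of_subset_of_nonneg (Finset.subset_univ _) fun _ _ _ => by
        split_ifs <;> norm_num
    have c3 := Finset.sum_le_sum fun k (_ : k ∈ Finset.range m) => this (a + k)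
    rw [← Finset.mul_sum, Finset.sum_add_distrib] at c3
    linarith
  have st : ∀ a b, F b ≤ F a → ∀ k, a ≤ k → k < b →
      Δ.φ (Δ.α ((Δ.φ ^ (k + 1)) e)) = Δ.α ((Δ.φ ^ k) e) ∧
        ∀ t, (s.Ty t (Δ.α ((Δ.φ ^ (k + 1)) e)) ↔ s.Ty t (Δ.α ((Δ.φ ^ k) e))) := by
    intro a b h k h1 h2
    have a1 := Fm a k h1
    have a2 := Fm (k + 1) b h2
    rw [Fs, ps] at a2
    rw [ps]
    rcases s.gcase (inn k) with c | c
    · exact ⟨c.2.1, c.2.2.2⟩
    · linarith [c.1]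
  have st' : ∀ a b, F b ≤ F a → ∀ t k, a ≤ k → k ≤ b →
      (s.Ty t (Δ.α ((Δ.φ ^ k) e)) ↔ s.Ty t (Δ.α ((Δ.φ ^ a) e))) := by
    intro a b h t k h1
    induction k, h1 using Nat.le_induction with
    | base => exact fun _ => Iff.rfl
    | succ k hk ih => exact fun h2 => ((st a b h k hk h2).2 t).trans (ih (by omega))
  have t0 : s.Ty 0 (Δ.α ((Δ.φ ^ 0) e)) :=
    ⟨s.nA - 1, by omega, by simp [he, Δ.invol _], by rw [if_pos (by omega)]⟩
  have t1 : s.Ty 0 (Δ.α ((Δ.φ ^ i₁) e)) :=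
    ⟨0, by omega, by rw [e₁, Δ.invol], by rw [if_pos hA]⟩
  have late : ∀ t i, t ≠ 0 → s.Ty t (Δ.α ((Δ.φ ^ i) e)) → i₁ < i := by
    intro t i ht h
    by_contra hc
    have a1 := tr 0 i 0 t (Nat.zero_le _) t0 h ht.symm
    have a2 := tr i i₁ t 0 (by omega) h t1 ht
    have a3 := Fm (i₁ + 1) (N - 1) (by omega)
    linarith
  have cd : ∀ t, ((orb Δ.φ e).filter fun e => s.Ty t (Δ.α e)).card ≤
      ((Finset.range N).filter fun i => s.Ty t (Δ.α ((Δ.φ ^ i) e))).card := by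
    intro t
    rw [ho, Finset.filter_image]
    exact Finset.card_image_le
  obtain ⟨jC, jC1, jC2, jC3⟩ : ∃ j < N, s.Ty 2 (Δ.α ((Δ.φ ^ j) e)) ∧
      i₁ + 2 * L (s.π e) ≤ j := by
    by_contra hc
    push Not at hc
    have := Finset.card_le_card (show ((Finset.range N).filter fun i =>
        s.Ty 2 (Δ.α ((Δ.φ ^ i) e))) ⊆ Finset.Ioo i₁ (i₁ + 2 * L (s.π e)) from fun i hi => by
      simp only [Finset.mem_filter, Finset.mem_range] at hi
      exact Finset.mem_Ioo.2 ⟨late 2 i (by decide) hi.2, hc i hi.1 hi.2⟩)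
    have := cd 2
    rw [Nat.card_Ioo] at *
    omega
  obtain ⟨jB, jB1, jB2, jB3⟩ : ∃ j < N, s.Ty 1 (Δ.α ((Δ.φ ^ j) e)) ∧
      j + 2 * L (s.π e) ≤ N := by
    by_contra hc
    push Not at hc
    have := Finset.card_le_card (show ((Finset.range N).filter fun i =>
        s.Ty 1 (Δ.α ((Δ.φ ^ i) e))) ⊆ Finset.Ico (N + 1 - 2 * L (s.π e)) N from fun i hi => by
      simp only [Finset.mem_filter, Finset.mem_range] at hi
      have := hc i hi.1 hi.2
      exact Finset.mem_Ico.2 ⟨by omega, hi.1⟩)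
    have := cd 1
    rw [Nat.card_Ico] at *
    omega
  have lB := late 1 jB (by decide) jB2
  have mB := Fm (i₁ + 1) jB lB
  have mC := Fm (i₁ + 1) jC (by omega)
  have nB' := Fm jB (N - 1) (by omega)
  have nC' := Fm jC (N - 1) (by omega)
  have p1 := Fm 0 i₁ (Nat.zero_le _)
  have dich : (jB ≤ jC ∧ F jB + 6 ≤ F jC) ∨ (jC ≤ jB ∧ F jC + 6 ≤ F jB) := by
    rcases le_total jB jC with c | c
    · exact .inl ⟨c, tr _ _ _ _ c jB2 jC2 (by decide)⟩
    · exact .inr ⟨c, tr _ _ _ _ c jC2 jB2 (by decide)⟩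
  have z1 : F i₁ ≤ F 0 := by rcases dich with c | c <;> linarith [c.2]
  have arcA : ∀ i ≤ i₁, i < s.nA ∧ Δ.α ((Δ.φ ^ i) e) = bd Δ (s.nA - 1 - i) := by
    intro i
    induction i with
    | zero => exact fun _ => ⟨hA, by simp [he, Δ.invol _]⟩
    | succ i ih =>
      intro hi
      obtain ⟨a1, a2⟩ := ih (by omega)
      have a3 := (st 0 i₁ z1 i (Nat.zero_le _) hi).1
      rw [a2] at a3
      have a4 : i + 1 < s.nA := by
        by_contra hc
        rw [show s.nA - 1 - i = 0 by omega, b0] at a3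
        exact nst _ (Δ.φ.injective a3)
      refine ⟨a4, Δ.φ.injective ?_⟩
      rw [a3, ← bd_succ]; congr 1; omega
  have iA : i₁ + 1 = s.nA := by
    obtain ⟨a1, a2⟩ := arcA i₁ le_rfl
    rw [e₁, Δ.invol] at a2
    have := s.bd_inj (by omega) (by omega) a2
    omega
  have oC : Ou Δ (Δ.α ((Δ.φ ^ (i₁ + 1)) e)) := by
    rcases dich with c | c
    · exact s.Ty_Ou ((st' (i₁ + 1) jB (by linarith [c.2]) 1 jB lB le_rfl).1 jB2)
    · exact s.Ty_Ou ((st' (i₁ + 1) jC (by linarith [c.2]) 2 jC (by omega) le_rfl).1 jC2)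
  have cC0 : Δ.α ((Δ.φ ^ (i₁ + 1)) e) = bd Δ (s.nA + s.nB + s.nC - 1) := by
    rcases hx1 (Δ.σ ((Δ.φ ^ (i₁ + 1)) e)) ((Ou_phi _).2 oC) ((apply_mem_orb _).2 v0) with c | c
    · apply Δ.φ.injective
      rw [← bd_succ, Nat.sub_add_cancel (by omega), s.hn, ← c]; rfl
    · rw [b0] at c
      exact absurd (Δ.φ.injective c) (nst _)
  have tC0 : s.Ty 2 (Δ.α ((Δ.φ ^ (i₁ + 1)) e)) :=
    ⟨_, by omega, cC0, by rw [if_neg (by omega), if_neg (by omega)]⟩
  have q1 := tr _ _ _ _ lB tC0 jB2 (by decide)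
  have zC : F jC ≤ F (i₁ + 1) := by rcases dich with c | c <;> linarith [c.2]
  have zB : F (N - 1) ≤ F jB := by linarith
  have arcC : ∀ i < 2 * L (s.π e), i < s.nC ∧
      Δ.α ((Δ.φ ^ (i₁ + 1 + i)) e) = bd Δ (s.nA + s.nB + s.nC - 1 - i) := by
    intro i
    induction i with
    | zero => exact fun _ => ⟨hC, cC0⟩
    | succ i ih =>
      intro hi
      obtain ⟨a1, a2⟩ := ih (by omega)
      have a3 := (st _ _ zC (i₁ + 1 + i) (by omega) (by omega)).1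
      have a4 : Δ.α ((Δ.φ ^ (i₁ + 1 + (i + 1))) e) = bd Δ (s.nA + s.nB + s.nC - 1 - (i + 1)) := by
        apply Δ.φ.injective
        rw [← add_assoc, a3, a2, ← bd_succ]; congr 1; omega
      refine ⟨?_, a4⟩
      have a5 := (st' _ _ zC 2 (i₁ + 1 + (i + 1)) (by omega) (by omega)).2 tC0
      rw [a4] at a5
      have a6 := (s.Ty_bd (by omega) a5).2
      split_ifs at a6 with c1 c2
      · exact absurd a6 (by decide)
      · exact absurd a6 (by decide)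
      · omega
  have tB : ∀ k, jB ≤ k → k ≤ N - 1 → s.Ty 1 (Δ.α ((Δ.φ ^ k) e)) := fun k h1 h2 =>
    (st' _ _ zB 1 k h1 h2).2 jB2
  have cB0 : Δ.α ((Δ.φ ^ (N - 1)) e) = bd Δ s.nA := by
    refine hx2 _ (s.Ty_Ou (tB _ (by omega) le_rfl)) ?_
    rw [← apply_mem_orb, Δ.σ_apply, Δ.invol, ← ps, Nat.sub_add_cancel N0, hN]
    exact eo
  have arcB : ∀ i < 2 * L (s.π e), i < s.nB ∧ Δ.α ((Δ.φ ^ (N - 1 - i)) e) = bd Δ (s.nA + i) := by
    intro i
    induction i with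
    | zero => exact fun _ => ⟨hB, cB0⟩
    | succ i ih =>
      intro hi
      obtain ⟨a1, a2⟩ := ih (by omega)
      have a3 := (st _ _ zB (N - 1 - (i + 1)) (by omega) (by omega)).1
      rw [show N - 1 - (i + 1) + 1 = N - 1 - i by omega, a2, ← bd_succ] at a3
      refine ⟨?_, a3.symm⟩
      have a5 := tB (N - 1 - (i + 1)) (by omega) (by omega)
      rw [← a3] at a5
      have a6 := (s.Ty_bd (by omega) a5).2
      split_ifs at a6 with c1 c2
      · exact absurd a6 (by decide)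
      · omega
      · exact absurd a6 (by decide)
  refine ⟨e, hin, fun i hi => ?_, ?_, ?_, fun i hi => ?_, fun i hi => ?_⟩
  · rw [← (arcA i (by omega)).2, Δ.invol]
  · have := (arcB (2 * L (s.π e) - 1) (by omega)).1
    omega
  · have := (arcC (2 * L (s.π e) - 1) (by omega)).1
    omega
  · rw [← (arcC i hi).2, Δ.invol, iA]
  · rw [← (arcB i hi).2, Δ.invol, ← Perm.mul_apply, ← pow_add,
      show i + 1 + (N - 1 - i) = N by omega, hN]

end Su

end Vale.Agent.P089
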