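import Vale.Agent.P089.WordAux

/-!
Triangle with one side a single letter. PLAN: as in `thin_word` (`P186/Word.lean`): `w = a :: (B ++ invRev C)` is trivial in the
group; reduced diagram from `exists_red gen_linv (vanKampen ..)` over `StepP Step`; `pos_ind` parametrises the outer face
(`bd j` has label `w[j]`, position `inr (w.drop j)`, and `c₀ * el (bd j) = z * (w.take j).prod`); darts with position `inl` are the inner
ones and satisfy `J`. Build `Su` with `nA = 1`, `nB = B.length`, `nC = C.length`, `u g = h (c₀ * g)`; `leaf` is vacuous, `run`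
follows from `2 ≤ L`, `exB`, `exC` from the labels (`hlab`). From `tri`: `u' = π e`, `u = π (φ e)`; read the labels along the face.
-/

namespace Vale.Agent.P089

open Vale.Agent.P194 Equiv

variable {S V : Type} {Step : V → S × Bool → V → Prop} {L : V → ℕ}

theorem word1 [Nonempty S] (H : SC Step L) (h : Gp Step → ℕ)
    (lip : ∀ z a, h (z * gen Step a) ≤ h z + 1) (z : Gp Step) (a : S × Bool)
    (B C : List (S × Bool)) (hB : Desc (gen Step) h (z * gen Step a) B)
    (hC : Desc (gen Step) h z C)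
    (hw : gen Step a * (B.map (gen Step)).prod = (C.map (gen Step)).prod)
    (exB : B.head? ≠ some (linv a)) (exC : C.head? ≠ some a) :
    ∃ u u', Step u a u' ∧ Rd Step u C (2 * L u) ∧ Rd Step u' B (2 * L u) := by
  classical
  have hw' : z * gen Step a * (B.map (gen Step)).prod = z * (C.map (gen Step)).prod := by
    rw [mul_assoc, hw]
  obtain ⟨w, hwd⟩ : ∃ w, w = a :: (B ++ FreeGroup.invRev C) := ⟨_, rfl⟩
  have wl : w.length = 1 + B.length + C.length := by simp [hwd]; omega
  have w1 : (w.map (gen Step)).prod = 1 := by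
    have := prod_BC gen_linv hw' C.length le_rfl
    rw [List.take_of_length_le (by simp), Nat.sub_self, mul_assoc] at this
    rw [hwd, List.map_cons, List.prod_cons]
    simpa using this
  obtain ⟨Δ, red⟩ := exists_red gen_linv (vanKampen H.sym H.surj w1)
  obtain ⟨c₀, hc₀⟩ : ∃ c₀, c₀ * Δ.el (Δ.φ Δ.star) = z := ⟨z * (Δ.el (Δ.φ Δ.star))⁻¹, by simp⟩
  have stp : ∀ j (hj : j < w.length), Δ.pos (bd Δ j) = .inr (w.drop j) →
      bd Δ j ≠ Δ.star ∧ Δ.lab (bd Δ j) = w[j] ∧ Δ.pos (bd Δ (j + 1)) = .inr (w.drop (j + 1)) := by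
    intro j hj hp
    rw [List.drop_eq_getElem_cons hj] at hp
    have ne : bd Δ j ≠ Δ.star := by
      intro hc
      rw [hc, Δ.hy] at hp
      exact List.cons_ne_nil _ _ (Sum.inr.inj hp).symm
    have := Δ.hstep _ (red.nodum _ ne)
    rw [hp] at this
    obtain ⟨l', e1, e2⟩ := this.of_inr
    obtain ⟨b1, b2⟩ := List.cons.inj e2
    exact ⟨ne, b1.symm, by rw [bd_succ, e1, b2]⟩
  have hb : ∀ j ≤ w.length, Δ.pos (bd Δ j) = .inr (w.drop j) ∧
      c₀ * Δ.el (bd Δ j) = z * ((w.take j).map (gen Step)).prod := by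
    intro j
    induction j with
    | zero => intro _; exact ⟨by simpa [bd] using Δ.hx, by simpa [bd] using hc₀⟩
    | succ j ih =>
      intro hj
      obtain ⟨a1, a2⟩ := ih (by omega)
      obtain ⟨b1, b2, b3⟩ := stp j hj a1
      refine ⟨b3, ?_⟩
      rw [bd_succ, Δ.hel2 _ (red.nodum _ b1), ← mul_assoc, a2, b2, take_prod_succ _ _ hj, mul_assoc]
  have hs := fun j (hj : j < w.length) => stp j hj (hb j hj.le).1
  have hn : bd Δ w.length = Δ.star := by
    by_contra hc
    have := Δ.hstep _ (red.nodum _ hc)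
    rw [(hb _ le_rfl).1, List.drop_length] at this
    obtain ⟨l', -, e2⟩ := this.of_inr
    simp at e2
  have hO := pos_ind red (fun d _ => Ou Δ d) ((Ou_phi _).2 Ou_star)
    (fun d _ _ hd => (Ou_phi _).2 hd)
  obtain ⟨v₀, -⟩ := H.surj a
  let π : Δ.D → V := fun d => Sum.elim id (fun _ => v₀) (Δ.pos d)
  have hJ : ∀ d, ¬ Ou Δ d → Δ.J Step Sum.inl π d := by
    intro d hd
    have c : d ≠ Δ.star := by rintro rfl; exact hd Ou_star
    have := Δ.hstep d (red.nodum d c)
    rcases hp : Δ.pos d with v | l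
    · rw [hp] at this
      obtain ⟨v', e1, e2⟩ := this.of_inl
      simp only [Dg.J, π, hp, e1, Sum.elim_inl, id]
      exact ⟨c, e2, trivial, trivial⟩
    · exact absurd (hO d l hp) hd
  have l0 : Δ.lab (bd Δ 0) = a := by
    rw [(hs 0 (by omega)).2.1]
    simp [hwd]
  obtain ⟨e, e1, e2, e3, e4⟩ := core H red gen_linv Sum.inl π 1 h lip c₀ (z * gen Step a) z B C
    hB hC hw' (wl ▸ hn) (fun j hj => (hs j (by omega)).1) hJ
    (fun j hj => by
      rw [(hs (1 + j) (by simp at hj; omega)).2.1]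
      simp only [hwd, add_comm 1 j, List.getElem_cons_succ])
    (fun j hj => by
      rw [(hb (1 + j) (by omega)).2, hwd, add_comm 1 j, List.take_succ_cons, List.map_cons,
        List.prod_cons, mul_assoc])
    one_pos (fun j hj => absurd hj (by omega)) (by rwa [Nat.sub_self, l0]) (by rwa [l0])
    (fun e j _ hj hr => by
      have := (hr 1 (H.two _)).1
      omega)
  have a1 : e = Δ.α (bd Δ 0) := by simpa using e2 0 one_pos
  have a2 := H.sym _ _ _ (hJ e e1).2.1
  have a3 : linv (Δ.lab e) = a := by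
    rw [a1, Δ.hlab _ (red.nodum _ (hs 0 (by omega)).1), linv_linv, l0]
  rw [a3] at a2
  rw [pow_one, H.scale _ _ _ a2] at e3
  rw [H.scale _ _ _ a2] at e4
  exact ⟨_, _, a2, e3, e4⟩

end Vale.Agent.P089
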