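import Vale.Agent.P089.Tri4

/-! Common part of the two triangle lemmas. -/

namespace Vale.Agent.P089

open Vale.Agent.P194 Equiv

variable {S V W G : Type} [Group G] {Step : V → S × Bool → V → Prop} {L : V → ℕ}
  {St : W → S × Bool → W → Prop} {γ : S × Bool → G} {x y : W}

theorem take_prod_succ (l : List (S × Bool)) (i : ℕ) (hi : i < l.length) :
    ((l.take (i + 1)).map γ).prod = ((l.take i).map γ).prod * γ l[i] := by
  rw [List.take_succ_eq_append_getElem hi, List.map_append, List.prod_append]
  simp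

theorem Desc.get {h : G → ℕ} : ∀ {l : List (S × Bool)} {z : G}, Desc γ h z l → ∀ i < l.length,
    h (z * ((l.take (i + 1)).map γ).prod) + 1 = h (z * ((l.take i).map γ).prod)
  | [], _, _, i, hi => absurd hi (by simp)
  | a :: l, z, hd, 0, _ => by simpa using hd.1
  | a :: l, z, hd, i + 1, hi => by
    have := Desc.get hd.2 i (by simpa using hi)
    simpa [mul_assoc] using this

theorem Rd_of_fun (p : ℕ → V) {l : List (S × Bool)} {m : ℕ} (hm : m ≤ l.length)
    (h : ∀ i (hi : i < m), Step (p i) (l[i]'(by omega)) (p (i + 1))) : Rd Step (p 0) l m := by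
  refine ⟨hm, p m, ?_⟩
  induction m with
  | zero => exact .nil _
  | succ m ih =>
    rw [List.take_succ_eq_append_getElem (by omega)]
    exact (ih (by omega) fun i hi => h i (by omega)).append (.cons (h m (by omega)) (.nil _))

theorem BC_right (B C : List (S × Bool)) (k : ℕ) (hk : k < C.length) :
    (B ++ FreeGroup.invRev C)[B.length + k]'(by simp; omega) =
      linv (C[C.length - 1 - k]'(by omega)) := by
  rw [List.getElem_append_right (by omega)]
  simp [FreeGroup.invRev, linv]

theorem prod_BC (hγ : ∀ a, γ (linv a) = (γ a)⁻¹) {z₁ z : G} {B C : List (S × Bool)}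
    (hw : z₁ * (B.map γ).prod = z * (C.map γ).prod) (k : ℕ) (hk : k ≤ C.length) :
    z₁ * (((B ++ FreeGroup.invRev C).take (B.length + k)).map γ).prod =
      z * ((C.take (C.length - k)).map γ).prod := by
  induction k with
  | zero => simpa using hw
  | succ k ih =>
    rw [← add_assoc, take_prod_succ _ _ (by simp; omega), ← mul_assoc, ih (by omega),
      BC_right B C k (by omega), hγ]
    have e : C.length - k = C.length - 1 - k + 1 := by omega
    have e' : C.length - (k + 1) = C.length - 1 - k := by omega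
    rw [e, e', take_prod_succ _ _ (by omega)]
    simp [mul_assoc]

theorem core (H : SC Step L) {Δ : Dg St γ x y} (red : Δ.Red) (hγ : ∀ a, γ (linv a) = (γ a)⁻¹)
    (ι : V → W) (π : Δ.D → V) (nA : ℕ) (h : G → ℕ) (lip : ∀ z a, h (z * γ a) ≤ h z + 1)
    (c₀ z₁ z : G) (B C : List (S × Bool)) (hB : Desc γ h z₁ B) (hC : Desc γ h z C)
    (hw : z₁ * (B.map γ).prod = z * (C.map γ).prod)
    (hn : bd Δ (nA + B.length + C.length) = Δ.star)
    (hne : ∀ j < nA + B.length + C.length, bd Δ j ≠ Δ.star)
    (hJ : ∀ d, ¬ Ou Δ d → Δ.J Step ι π d)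
    (hl : ∀ j (hj : j < (B ++ FreeGroup.invRev C).length),
      Δ.lab (bd Δ (nA + j)) = (B ++ FreeGroup.invRev C)[j])
    (he : ∀ j ≤ B.length + C.length, c₀ * Δ.el (bd Δ (nA + j)) =
      z₁ * (((B ++ FreeGroup.invRev C).take j).map γ).prod)
    (hA : 0 < nA) (leaf : ∀ j, j + 1 < nA → Δ.α (bd Δ j) ≠ bd Δ (j + 1))
    (exB : B.head? ≠ some (linv (Δ.lab (bd Δ (nA - 1)))))
    (exC : C.head? ≠ some (Δ.lab (bd Δ 0)))
    (run : ∀ e j, ¬ Ou Δ e → j < nA →
      (∀ i < L (π e), i ≤ j ∧ Δ.α ((Δ.φ ^ i) e) = bd Δ (j - i)) → False) :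
    ∃ e, ¬ Ou Δ e ∧ (∀ i < nA, (Δ.φ ^ i) e = Δ.α (bd Δ (nA - 1 - i))) ∧
      Rd Step (π ((Δ.φ ^ nA) e)) C (2 * L (π e)) ∧ Rd Step (π e) B (2 * L (π e)) := by
  have la : ∀ j < nA + B.length + C.length, Δ.lab (Δ.α (bd Δ j)) = linv (Δ.lab (bd Δ j)) :=
    fun j hj => Δ.hlab _ (red.nodum _ (hne j hj))
  have lB : ∀ i (hi : i < B.length), Δ.lab (bd Δ (nA + i)) = B[i] := fun i hi => by
    rw [hl i (by simp; omega), List.getElem_append_left hi]
  have lC : ∀ i (hi : i < C.length),
      Δ.lab (bd Δ (nA + B.length + C.length - 1 - i)) = linv C[i] := fun i hi => by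
    have := hl (B.length + (C.length - 1 - i)) (by simp; omega)
    rw [BC_right B C _ (by omega)] at this
    rw [show nA + B.length + C.length - 1 - i = nA + (B.length + (C.length - 1 - i)) by omega, this]
    congr 2
    omega
  let s : Su Step L Δ :=
    { H := H
      red := red
      hγ := hγ
      ι := ι
      π := π
      nA := nA
      nB := B.length
      nC := C.length
      u := fun g => h (c₀ * g)
      hn := hn
      hne := hne
      hJ := hJ
      u1 := fun z a => by
        have := lip (c₀ * z) a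
        rw [← mul_assoc]
        exact_mod_cast this
      uB := fun j h1 h2 => by
        obtain ⟨i, rfl⟩ := Nat.exists_eq_add_of_le h1
        rw [add_assoc, he _ (by omega), he _ (by omega), List.take_append_of_le_length (by omega),
          List.take_append_of_le_length (by omega)]
        exact_mod_cast hB.get i (by omega)
      uC := fun j h1 h2 => by
        obtain ⟨i, rfl⟩ := Nat.exists_eq_add_of_le h1
        rw [add_assoc nA, add_assoc nA, add_assoc, he _ (by omega), he _ (by omega),
          prod_BC hγ hw _ (by omega), prod_BC hγ hw _ (by omega)]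
        have := hC.get (C.length - (i + 1)) (by omega)
        rw [show C.length - (i + 1) + 1 = C.length - i by omega] at this
        exact_mod_cast this.symm
      hA := hA
      leaf := leaf
      exB := fun h0 hc => exB (by
        rw [← la _ (by omega), hc, List.head?_eq_getElem?, List.getElem?_eq_getElem h0]
        exact congrArg some (lB 0 h0).symm)
      exC := fun h0 hc => exC (by
        have := lC 0 h0
        rw [Nat.sub_zero, ← hc, la _ (by omega)] at this
        rw [List.head?_eq_getElem?, List.getElem?_eq_getElem h0]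
        have := congrArg linv this
        rw [linv_linv, linv_linv] at this
        exact congrArg some this.symm)
      run := run }
  obtain ⟨e, e1, e2, e3, e4, e5, e6⟩ := s.tri
  change 2 * L (π e) ≤ B.length at e3
  change 2 * L (π e) ≤ C.length at e4
  change ∀ i < 2 * L (π e), (Δ.φ ^ (nA + i)) e =
    Δ.α (bd Δ (nA + B.length + C.length - 1 - i)) at e5
  change ∀ i < 2 * L (π e), (Δ.φ ^ (i + 1)) (Δ.α (bd Δ (nA + i))) = e at e6
  refine ⟨e, e1, e2, ?_, ?_⟩
  · refine Rd_of_fun (fun i => π ((Δ.φ ^ (nA + i)) e)) e4 fun i hi => ?_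
    have := (hJ _ (by rwa [Ou_pow] : ¬ Ou Δ ((Δ.φ ^ (nA + i)) e))).2.1
    rw [show Δ.lab ((Δ.φ ^ (nA + i)) e) = C[i] by
      rw [e5 i hi, la _ (by omega), lC i (by omega), linv_linv]] at this
    rw [← add_assoc, pow_succ', Perm.mul_apply]
    exact this
  · refine Rd_of_fun (fun i => π ((Δ.φ⁻¹ ^ i) e)) e3 fun i hi => ?_
    have a1 : (Δ.φ⁻¹ ^ (i + 1)) e = Δ.α (bd Δ (nA + i)) := by
      rw [← e6 i hi, inv_pow]
      simp
    have a2 : Δ.φ (Δ.α (bd Δ (nA + i))) = (Δ.φ⁻¹ ^ i) e := by
      rw [← a1, pow_succ', Perm.mul_apply]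
      simp
    have := H.sym _ _ _ (hJ _ (by rw [← Ou_pow (i + 1), e6 i hi]; exact e1 :
      ¬ Ou Δ (Δ.α (bd Δ (nA + i))))).2.1
    rw [a2, la _ (by omega), linv_linv, lB i (by omega), ← a1] at this
    exact this

end Vale.Agent.P089
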